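import Vale.Agent.P180.MathlibUsed
import Vale.Agent.P180.Defs

set_option linter.all false

section

section

namespace Vale.Agent.P180

open scoped Classical

set_option linter.unusedSectionVars false

section GAlg

variable {k : Type*} [Field k] {G : Type*} [Group G] {A : Type*} [Ring A] [Algebra k A]

/-- The subalgebra of elements fixed by all elements of `H`. -/
def Fix (ρ : G →* (A ≃ₐ[k] A)) (H : Subgroup G) : Subalgebra k A where
  carrier := {a | ∀ h ∈ H, ρ h a = a}
  mul_mem' := by
    intro a b ha hb h hh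
    rw [map_mul, ha h hh, hb h hh]
  add_mem' := by
    intro a b ha hb h hh
    rw [map_add, ha h hh, hb h hh]
  algebraMap_mem' := by
    intro r h _
    exact (ρ h).commutes r

theorem Fix_mono (ρ : G →* (A ≃ₐ[k] A)) {H K : Subgroup G} (h : H ≤ K) :
    Fix ρ K ≤ Fix ρ H := fun _ ha g hg => ha g (h hg)

theorem map_mul_act (ρ : G →* (A ≃ₐ[k] A)) (x y : G) (a : A) : ρ (x * y) a = ρ x (ρ y a) := by
  rw [map_mul]; rfl

theorem map_one_act (ρ : G →* (A ≃ₐ[k] A)) (a : A) : ρ 1 a = a := by
  rw [map_one]; rfl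

theorem map_inv_act (ρ : G →* (A ≃ₐ[k] A)) (x : G) (a : A) : ρ x⁻¹ (ρ x a) = a := by
  rw [← map_mul_act, inv_mul_cancel, map_one_act]

theorem map_act_inv (ρ : G →* (A ≃ₐ[k] A)) (x : G) (a : A) : ρ x (ρ x⁻¹ a) = a := by
  rw [← map_mul_act, mul_inv_cancel, map_one_act]

theorem conj_mem_Fix {ρ : G →* (A ≃ₐ[k] A)} {H H' : Subgroup G} {a : A} (ha : a ∈ Fix ρ H)
    (g : G) (hH : ∀ h ∈ H', g⁻¹ * h * g ∈ H) : ρ g a ∈ Fix ρ H' := by
  intro h hh
  have h1 : h * g = g * (g⁻¹ * h * g) := by group
  rw [← map_mul_act, h1, map_mul_act, ha _ (hH h hh)]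

/-- The relative trace from `H` to `K`. -/
noncomputable def tr [Finite G] (ρ : G →* (A ≃ₐ[k] A)) (H K : Subgroup G) (a : A) : A :=
  let _ := Fintype.ofFinite (K ⧸ H.subgroupOf K)
  ∑ q : K ⧸ H.subgroupOf K, ρ (q.out : K) a

variable [Finite G] {ρ : G →* (A ≃ₐ[k] A)} {H K L : Subgroup G}

theorem tr_def [Fintype (K ⧸ H.subgroupOf K)] (a : A) :
    tr ρ H K a = ∑ q : K ⧸ H.subgroupOf K, ρ (q.out : K) a := by
  unfold tr
  exact Finset.sum_congr (by ext; simp) (fun _ _ => rfl)

theorem act_eq_of_mk_eq {a : A} (ha : a ∈ Fix ρ H) {x y : K}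
    (h : (QuotientGroup.mk x : K ⧸ H.subgroupOf K) = QuotientGroup.mk y) :
    ρ x a = ρ y a := by
  rw [QuotientGroup.eq, Subgroup.mem_subgroupOf] at h
  have h1 : (y : G) = x * ((x⁻¹ * y : K) : G) := by simp
  rw [h1, map_mul_act, ha _ h]

theorem act_out {a : A} (ha : a ∈ Fix ρ H) (x : K) :
    ρ ((QuotientGroup.mk x : K ⧸ H.subgroupOf K).out : K) a = ρ x a :=
  act_eq_of_mk_eq ha (by simp)

theorem tr_eq_sum {ι : Type*} [Fintype ι] {a : A} (ha : a ∈ Fix ρ H) (f : ι → K)
    (hf : Function.Bijective (fun i => (QuotientGroup.mk (f i) : K ⧸ H.subgroupOf K))) :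
    tr ρ H K a = ∑ i, ρ (f i) a := by
  let _ := Fintype.ofFinite (K ⧸ H.subgroupOf K)
  rw [tr_def]
  symm
  apply Fintype.sum_bijective _ hf
  intro i
  exact (act_out ha (f i)).symm

/-- version with values in `G` -/
theorem tr_eq_sum' {ι : Type*} [Fintype ι] {a : A} (ha : a ∈ Fix ρ H) (f : ι → G)
    (hfK : ∀ i, f i ∈ K) (hinj : ∀ i j, (f i)⁻¹ * f j ∈ H → i = j)
    (hsurj : ∀ x ∈ K, ∃ i, (f i)⁻¹ * x ∈ H) :
    tr ρ H K a = ∑ i, ρ (f i) a := by
  rw [tr_eq_sum ha (fun i => (⟨f i, hfK i⟩ : K))]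
  constructor
  · intro i j hij
    simp only [QuotientGroup.eq, Subgroup.mem_subgroupOf] at hij
    exact hinj i j hij
  · intro q
    induction q using QuotientGroup.induction_on with
    | H x =>
      obtain ⟨i, hi⟩ := hsurj x x.2
      refine ⟨i, ?_⟩
      simp only [QuotientGroup.eq, Subgroup.mem_subgroupOf]
      exact hi

theorem tr_mem_Fix {a : A} (ha : a ∈ Fix ρ H) : tr ρ H K a ∈ Fix ρ K := by
  intro x hx
  let _ := Fintype.ofFinite (K ⧸ H.subgroupOf K)
  rw [tr_def, map_sum]
  apply Fintype.sum_bijective (fun q => (⟨x, hx⟩ : K) • q) (MulAction.bijective _)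
  intro q
  induction q using QuotientGroup.induction_on with
  | H y =>
    rw [act_out ha, ← map_mul_act]
    have : ((⟨x, hx⟩ : K) • (QuotientGroup.mk y : K ⧸ H.subgroupOf K)) =
      QuotientGroup.mk (⟨x, hx⟩ * y) := rfl
    rw [this, act_out ha]
    rfl

theorem tr_add (a b : A) : tr ρ H K (a + b) = tr ρ H K a + tr ρ H K b := by
  let _ := Fintype.ofFinite (K ⧸ H.subgroupOf K)
  simp [tr_def, Finset.sum_add_distrib]

theorem tr_smul (c : k) (a : A) : tr ρ H K (c • a) = c • tr ρ H K a := by
  let _ := Fintype.ofFinite (K ⧸ H.subgroupOf K)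
  simp [tr_def, Finset.smul_sum]

theorem tr_sum {ι : Type*} (s : Finset ι) (f : ι → A) :
    tr ρ H K (∑ i ∈ s, f i) = ∑ i ∈ s, tr ρ H K (f i) := by
  let _ := Fintype.ofFinite (K ⧸ H.subgroupOf K)
  simp only [tr_def, map_sum]
  rw [Finset.sum_comm]

theorem mul_tr {z : A} (hz : z ∈ Fix ρ K) (a : A) : z * tr ρ H K a = tr ρ H K (z * a) := by
  let _ := Fintype.ofFinite (K ⧸ H.subgroupOf K)
  rw [tr_def, tr_def, Finset.mul_sum]
  refine Finset.sum_congr rfl fun q _ => ?_
  rw [map_mul, hz _ (q.out : K).2]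

theorem tr_mul {z : A} (hz : z ∈ Fix ρ K) (a : A) : tr ρ H K a * z = tr ρ H K (a * z) := by
  let _ := Fintype.ofFinite (K ⧸ H.subgroupOf K)
  rw [tr_def, tr_def, Finset.sum_mul]
  refine Finset.sum_congr rfl fun q _ => ?_
  rw [map_mul, hz _ (q.out : K).2]

theorem tr_of_mem_Fix {a : A} (ha : a ∈ Fix ρ K) :
    tr ρ H K a = (H.relIndex K : k) • a := by
  let _ := Fintype.ofFinite (K ⧸ H.subgroupOf K)
  rw [tr_def, Finset.sum_congr rfl (fun q _ => ha _ (q.out : K).2), Finset.sum_const,
    Subgroup.relIndex, Subgroup.index, Nat.card_eq_fintype_card, Finset.card_univ,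
    Nat.cast_smul_eq_nsmul]

theorem tr_tr {a : A} (ha : a ∈ Fix ρ H) (hHK : H ≤ K) (hKL : K ≤ L) :
    tr ρ K L (tr ρ H K a) = tr ρ H L a := by
  let _ := Fintype.ofFinite (K ⧸ H.subgroupOf K)
  let _ := Fintype.ofFinite (L ⧸ K.subgroupOf L)
  rw [tr_def (H := K) (K := L), tr_def (H := H) (K := K)]
  rw [tr_eq_sum' (ι := (L ⧸ K.subgroupOf L) × (K ⧸ H.subgroupOf K)) ha
    (fun p => ((p.1.out : L) : G) * ((p.2.out : K) : G))]
  · rw [Fintype.sum_prod_type]
    refine Finset.sum_congr rfl fun q _ => ?_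
    rw [map_sum]
    refine Finset.sum_congr rfl fun r _ => ?_
    rw [map_mul_act]
  · rintro ⟨q, r⟩
    exact L.mul_mem (q.out).2 (hKL (r.out).2)
  · rintro ⟨q, r⟩ ⟨q', r'⟩ h
    simp only at h
    have hq : q = q' := by
      rw [← QuotientGroup.out_eq' q, ← QuotientGroup.out_eq' q', QuotientGroup.eq,
        Subgroup.mem_subgroupOf]
      have h2 := K.mul_mem (K.mul_mem (r.out).2 (hHK h)) (K.inv_mem (r'.out).2)
      simpa [mul_assoc] using h2
    subst hq
    have hr : r = r' := by
      rw [← QuotientGroup.out_eq' r, ← QuotientGroup.out_eq' r', QuotientGroup.eq,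
        Subgroup.mem_subgroupOf]
      simpa [mul_assoc] using h
    rw [hr]
  · intro x hx
    let q : L ⧸ K.subgroupOf L := QuotientGroup.mk (⟨x, hx⟩ : L)
    have hq : ((q.out : L) : G)⁻¹ * x ∈ K := by
      have : (QuotientGroup.mk q.out : L ⧸ K.subgroupOf L) = QuotientGroup.mk (⟨x, hx⟩ : L) := by
        simp [q]
      rw [QuotientGroup.eq, Subgroup.mem_subgroupOf] at this
      exact this
    let r : K ⧸ H.subgroupOf K := QuotientGroup.mk (⟨_, hq⟩ : K)
    have hr : ((r.out : K) : G)⁻¹ * (((q.out : L) : G)⁻¹ * x) ∈ H := by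
      have : (QuotientGroup.mk r.out : K ⧸ H.subgroupOf K) = QuotientGroup.mk (⟨_, hq⟩ : K) := by
        simp [r]
      rw [QuotientGroup.eq, Subgroup.mem_subgroupOf] at this
      exact this
    refine ⟨(q, r), ?_⟩
    simpa [mul_assoc] using hr

/-- Orbit decomposition of a sum over a finite `K`-set. -/
theorem sum_eq_sum_orbits {Ω : Type*} [Finite Ω] [Fintype Ω] [MulAction K Ω] (f : Ω → A)
    (hf : ∀ (x : K) (ω : Ω), f (x • ω) = ρ x (f ω))
    [Fintype (MulAction.orbitRel.Quotient K Ω)] :
    ∑ ω, f ω = ∑ o : MulAction.orbitRel.Quotient K Ω,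
      tr ρ ((MulAction.stabilizer K o.out).map K.subtype) K (f o.out) := by
  let _ : ∀ o : MulAction.orbitRel.Quotient K Ω, Fintype (K ⧸ MulAction.stabilizer K o.out) :=
    fun o => Fintype.ofFinite _
  rw [← (MulAction.selfEquivSigmaOrbitsQuotientStabilizer K Ω).symm.sum_comp, Fintype.sum_sigma]
  refine Finset.sum_congr rfl fun o _ => ?_
  have hfix : f o.out ∈ Fix ρ ((MulAction.stabilizer K o.out).map K.subtype) := by
    rintro _ ⟨x, hx, rfl⟩
    have hx' : x • o.out = o.out := hx
    have := hf x o.out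
    rw [hx'] at this
    exact this.symm
  rw [tr_eq_sum' (ι := K ⧸ MulAction.stabilizer K o.out) hfix (fun q => ((q.out : K) : G))]
  · refine Finset.sum_congr rfl fun q _ => ?_
    rw [← hf]
    congr 1
    conv_lhs => rw [← QuotientGroup.out_eq' q]
    rfl
  · intro q
    exact (q.out).2
  · intro q r h
    rw [← QuotientGroup.out_eq' q, ← QuotientGroup.out_eq' r, QuotientGroup.eq]
    obtain ⟨y, hy, hy'⟩ := h
    have : y = (q.out)⁻¹ * r.out := Subtype.ext hy'
    rw [← this]
    exact hy
  · intro x hx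
    let q : K ⧸ MulAction.stabilizer K o.out := QuotientGroup.mk (⟨x, hx⟩ : K)
    have hq : (q.out)⁻¹ * (⟨x, hx⟩ : K) ∈ MulAction.stabilizer K o.out := by
      have : (QuotientGroup.mk q.out : K ⧸ MulAction.stabilizer K o.out) =
        QuotientGroup.mk (⟨x, hx⟩ : K) := by simp [q]
      rwa [QuotientGroup.eq] at this
    exact ⟨q, _, hq, rfl⟩

end GAlg

section Conj

variable {k : Type*} [Field k] {G : Type*} [Group G]

/-- The conjugation action of `G` on its group algebra. -/
noncomputable def cj (k : Type*) [Field k] (G : Type*) [Group G] :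
    G →* (MonoidAlgebra k G ≃ₐ[k] MonoidAlgebra k G) :=
  (MonoidAlgebra.domCongrAut (R := k) (A := k)).comp MulAut.conj

theorem cj_apply (g : G) (a : MonoidAlgebra k G) :
    cj k G g a = MonoidAlgebra.domCongr k k (MulAut.conj g) a := rfl

theorem cj_single (g x : G) (r : k) :
    cj k G g (MonoidAlgebra.single x r) = MonoidAlgebra.single (g * x * g⁻¹) r := by
  simp [cj_apply]

theorem cj_eq (g : G) (a : MonoidAlgebra k G) :
    cj k G g a = MonoidAlgebra.single g 1 * a * MonoidAlgebra.single g⁻¹ 1 := by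
  induction a using MonoidAlgebra.induction_linear with
  | zero => simp
  | add a b ha hb => rw [map_add, ha, hb, mul_add, add_mul]
  | single x r => simp [cj_single, MonoidAlgebra.single_mul_single]

theorem cj_coeff (g x : G) (a : MonoidAlgebra k G) :
    (cj k G g a).coeff x = a.coeff (g⁻¹ * x * g) := by
  induction a using MonoidAlgebra.induction_linear with
  | zero => simp
  | add a b ha hb => simp [map_add, ha, hb]
  | single y r =>
    rw [cj_single]
    simp only [MonoidAlgebra.coeff_single, Finsupp.single_apply]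
    congr 1
    simp only [eq_iff_iff]
    constructor
    · rintro rfl; group
    · rintro rfl; group

end Conj

end Vale.Agent.P180
end
end

section

section

namespace Vale.Agent.P180

section Local

variable {k : Type*} [Field k] {A : Type*} [Ring A] [Algebra k A]

/-- `e` is a primitive idempotent of the (commutative) subalgebra `S`. -/
structure IsPrimIn (S : Subalgebra k A) (e : A) : Prop where
  mem : e ∈ S
  idem : IsIdempotentElem e
  ne_zero : e ≠ 0
  primitive : ∀ c ∈ S, IsIdempotentElem c → c * e = c → c = 0 ∨ c = e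

theorem exists_pow_mul_eq [FiniteDimensional k A] (S : Subalgebra k A) {x : A} (hx : x ∈ S) :
    ∃ n : ℕ, 0 < n ∧ ∃ z ∈ S, x ^ n = x ^ n * x ^ n * z := by
  let f : ℕ →o (Submodule k A)ᵒᵈ :=
    { toFun := fun n => OrderDual.toDual
        ((Subalgebra.toSubmodule S).map (LinearMap.mulLeft k (x ^ n)))
      monotone' := by
        intro a b hab
        change ((Subalgebra.toSubmodule S).map (LinearMap.mulLeft k (x ^ b))) ≤
          ((Subalgebra.toSubmodule S).map (LinearMap.mulLeft k (x ^ a)))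
        rintro _ ⟨y, hy, rfl⟩
        refine ⟨x ^ (b - a) * y, S.mul_mem (S.pow_mem hx _) hy, ?_⟩
        simp only [LinearMap.mulLeft_apply]
        rw [← mul_assoc, ← pow_add, Nat.add_sub_cancel' hab] }
  obtain ⟨n, hn⟩ := IsArtinian.monotone_stabilizes f
  refine ⟨n + 1, Nat.succ_pos _, ?_⟩
  have h1 : f (n + 1) = f (2 * (n + 1)) := by
    rw [← hn (n + 1) (by omega), ← hn (2 * (n + 1)) (by omega)]
  have h2 : x ^ (n + 1) ∈ (OrderDual.ofDual (f (n + 1)) : Submodule k A) :=
    ⟨1, S.one_mem, by simp⟩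
  rw [h1] at h2
  obtain ⟨z, hz, hz'⟩ := h2
  refine ⟨z, hz, ?_⟩
  simp only [LinearMap.mulLeft_apply] at hz'
  rw [← pow_add, ← two_mul, hz']

theorem IsPrimIn.dichotomy [FiniteDimensional k A] {S : Subalgebra k A}
    (hS : ∀ x ∈ S, ∀ y ∈ S, x * y = y * x) {e : A} (he : IsPrimIn S e) {x : A} (hx : x ∈ S)
    (hxe : x * e = x) : IsNilpotent x ∨ ∃ y ∈ S, y * e = y ∧ x * y = e := by
  obtain ⟨n, hn, z, hz, hxz⟩ := exists_pow_mul_eq S hx
  have hxn : x ^ n ∈ S := S.pow_mem hx n
  have hf : IsIdempotentElem (x ^ n * z) := by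
    change x ^ n * z * (x ^ n * z) = x ^ n * z
    calc x ^ n * z * (x ^ n * z) = x ^ n * (z * x ^ n) * z := by simp only [mul_assoc]
      _ = x ^ n * (x ^ n * z) * z := by rw [hS z hz _ hxn]
      _ = x ^ n * z := by rw [← mul_assoc (x ^ n) (x ^ n), ← hxz]
  have hxne : x ^ n * e = x ^ n := by
    obtain ⟨m, rfl⟩ : ∃ m, n = m + 1 := ⟨n - 1, by omega⟩
    rw [pow_succ, mul_assoc, hxe]
  have hfe : x ^ n * z * e = x ^ n * z := by
    rw [mul_assoc, hS z hz e he.mem, ← mul_assoc, hxne]
  rcases he.primitive _ (S.mul_mem hxn hz) hf hfe with h | h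
  · left
    refine ⟨n, ?_⟩
    rw [hxz, mul_assoc, h, mul_zero]
  · right
    obtain ⟨m, rfl⟩ : ∃ m, n = m + 1 := ⟨n - 1, by omega⟩
    refine ⟨x ^ m * z * e, S.mul_mem (S.mul_mem (S.pow_mem hx _) hz) he.mem, ?_, ?_⟩
    · rw [mul_assoc, he.idem.eq]
    · rw [← mul_assoc, ← mul_assoc, ← pow_succ', h, he.idem.eq]

theorem IsPrimIn.exists_unit_of_sum [FiniteDimensional k A] {S : Subalgebra k A}
    (hS : ∀ x ∈ S, ∀ y ∈ S, x * y = y * x) {e : A} (he : IsPrimIn S e) {ι : Type*}
    (s : Finset ι) (x : ι → A) (hx : ∀ i ∈ s, x i ∈ S) (hxe : ∀ i ∈ s, x i * e = x i)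
    (hsum : ∑ i ∈ s, x i = e) : ∃ i ∈ s, ∃ y ∈ S, y * e = y ∧ x i * y = e := by
  classical
  by_contra hcon
  push Not at hcon
  have hnil : ∀ i ∈ s, IsNilpotent (x i) := by
    intro i hi
    rcases he.dichotomy hS (hx i hi) (hxe i hi) with h | ⟨y, hy, hye, hxy⟩
    · exact h
    · exact absurd hxy (hcon i hi y hy hye)
  have key : ∀ t : Finset ι, t ⊆ s → IsNilpotent (∑ i ∈ t, x i) := by
    intro t
    induction t using Finset.induction_on with
    | empty => intro _; simp
    | insert a t ha ih =>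
      intro hts
      rw [Finset.sum_insert ha]
      have h1 := hts (Finset.mem_insert_self a t)
      have h2 : t ⊆ s := fun i hi => hts (Finset.mem_insert_of_mem hi)
      refine Commute.isNilpotent_add ?_ (hnil a h1) (ih h2)
      exact hS _ (hx a h1) _ (S.sum_mem fun i hi => hx i (h2 hi))
  have h3 := key s (Finset.Subset.refl s)
  rw [hsum] at h3
  obtain ⟨n, hn⟩ := h3
  have h4 : ∀ m : ℕ, e ^ (m + 1) = e := fun m => he.idem.pow_succ_eq m
  rcases n with _ | n
  · rw [pow_zero] at hn
    exact he.ne_zero (by rw [← one_mul e, hn, zero_mul])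
  · rw [h4] at hn
    exact he.ne_zero hn

theorem exists_isPrimIn [FiniteDimensional k A] (S : Subalgebra k A)
    (hS : ∀ x ∈ S, ∀ y ∈ S, x * y = y * x) {b : A} (hb : b ≠ 0) :
    ∃ e, IsPrimIn S e ∧ b * e ≠ 0 := by
  classical
  let P : ℕ → Prop := fun d => ∃ f ∈ S, IsIdempotentElem f ∧ b * f ≠ 0 ∧
    Module.finrank k (LinearMap.range (LinearMap.mulLeft k f)) = d
  have hP : ∃ d, P d := ⟨_, 1, S.one_mem, IsIdempotentElem.one, by rwa [mul_one], rfl⟩
  obtain ⟨f, hfS, hf, hbf, hfd⟩ := Nat.find_spec hP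
  refine ⟨f, ⟨hfS, hf, ?_, ?_⟩, hbf⟩
  · rintro rfl
    exact hbf (mul_zero b)
  · intro c hc hcc hcf
    by_contra hcon
    push Not at hcon
    have hfc : f * c = c := by rw [hS f hfS c hc, hcf]
    have hlt : ∀ g ∈ S, IsIdempotentElem g → f * g = g → g ≠ f →
        Module.finrank k (LinearMap.range (LinearMap.mulLeft k g)) < Nat.find hP := by
      intro g hg hgg hfg hne
      rw [← hfd]
      apply Submodule.finrank_lt_finrank_of_lt
      refine lt_of_le_of_ne ?_ ?_
      · rintro _ ⟨y, rfl⟩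
        refine ⟨g * y, ?_⟩
        simp only [LinearMap.mulLeft_apply]
        rw [← mul_assoc, hfg]
      · intro heq
        apply hne
        have : f ∈ LinearMap.range (LinearMap.mulLeft k g) := by
          rw [heq]; exact ⟨1, by simp⟩
        obtain ⟨y, hy⟩ := this
        simp only [LinearMap.mulLeft_apply] at hy
        have h1 : g * f = f := by rw [← hy, ← mul_assoc, hgg.eq]
        rw [← hfg, hS f hfS g hg, h1]
    by_cases hbc : b * c = 0
    · have hg : IsIdempotentElem (f - c) := by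
        change (f - c) * (f - c) = f - c
        rw [sub_mul, mul_sub, mul_sub, hf.eq, hfc, hcf, hcc.eq, sub_self, sub_zero]
      have hg2 : f * (f - c) = f - c := by rw [mul_sub, hf.eq, hfc]
      have hg3 : f - c ≠ f := by
        intro h
        apply hcon.1
        have := sub_eq_self.mp h
        exact this
      have h1 := hlt (f - c) (S.sub_mem hfS hc) hg hg2 hg3
      exact Nat.find_min hP h1 ⟨f - c, S.sub_mem hfS hc, hg, by rwa [mul_sub, hbc, sub_zero], rfl⟩
    · exact Nat.find_min hP (hlt c hc hcc hfc hcon.2) ⟨c, hc, hcc, hbc, rfl⟩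

end Local

end Vale.Agent.P180
end
end

section

section

namespace Vale.Agent.P180

/-- Every simple section `S` of `G` (a simple quotient of a subgroup of `G`) whose order is
divisible by `p` has order at most `m`. -/
def Cls (p m : ℕ) (G : Type) [Group G] : Prop :=
  ∀ (K : Subgroup G) (S : Type) [Group S] [IsSimpleGroup S] (f : K →* S),
    Function.Surjective f → p ∣ Nat.card S → Nat.card S ≤ m

theorem Cls.subgroup {p m : ℕ} {G : Type} [Group G] (h : Cls p m G) (T : Subgroup G) :
    Cls p m T := by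
  intro K S _ _ f hf hp
  let g : (K.map T.subtype) →* S :=
    f.comp (K.equivMapOfInjective T.subtype T.subtype_injective).symm.toMonoidHom
  exact h _ S g (hf.comp (K.equivMapOfInjective T.subtype T.subtype_injective).symm.surjective) hp

theorem Cls.of_surjective {p m : ℕ} {G H : Type} [Group G] [Group H] (h : Cls p m G)
    (π : G →* H) (hπ : Function.Surjective π) : Cls p m H := by
  intro K S _ _ f hf hp
  let π' : (K.comap π) →* K := π.subgroupComap K
  have hπ' : Function.Surjective π' := π.subgroupComap_surjective_of_surjective K hπ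
  exact h _ S (f.comp π') (hf.comp hπ') hp

theorem Cls.extension {p m : ℕ} {G H : Type} [Group G] [Group H] (π : G →* H)
    (h : Cls p m H) (h' : Cls p m π.ker) : Cls p m G := by
  intro K S _ _ f hf hp
  -- the image of `K ⊓ ker π`
  let N : Subgroup K := π.ker.subgroupOf K
  have hN : N.Normal := inferInstance
  have hfN : (N.map f).Normal := hN.map f hf
  rcases hfN.eq_bot_or_eq_top with h1 | h1
  · -- `f` factors through `π(K)`
    have hle : N ≤ f.ker := by
      intro x hx
      have : f x ∈ N.map f := Subgroup.mem_map_of_mem f hx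
      rw [h1, Subgroup.mem_bot] at this
      exact this
    let π' : K →* (K.map π) := π.subgroupMap K
    have hπ' : Function.Surjective π' := π.subgroupMap_surjective K
    have hker : π'.ker ≤ f.ker := by
      intro x hx
      apply hle
      rw [Subgroup.mem_subgroupOf]
      have : ((π' x : K.map π) : H) = 1 := by
        rw [MonoidHom.mem_ker.mp hx]; rfl
      exact this
    let g : (K.map π) →* S := π'.liftOfSurjective hπ' ⟨f, hker⟩
    have hg : ∀ x, g (π' x) = f x := fun x => MonoidHom.liftOfRightInverse_comp_apply _ _ _ _ _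
    refine h _ S g ?_ hp
    intro s
    obtain ⟨x, rfl⟩ := hf s
    exact ⟨π' x, hg x⟩
  · -- `f` restricted to `K ⊓ ker π` is surjective
    let L : Subgroup π.ker := K.subgroupOf π.ker
    let j : L →* K := 
      { toFun := fun x => ⟨((x : π.ker) : G), x.2⟩
        map_one' := rfl
        map_mul' := fun _ _ => rfl }
    refine h' L S (f.comp j) ?_ hp
    intro s
    have : s ∈ N.map f := by rw [h1]; exact Subgroup.mem_top s
    obtain ⟨x, hx, rfl⟩ := this
    have hx' : (x : G) ∈ π.ker := hx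
    exact ⟨⟨⟨x, hx'⟩, x.2⟩, rfl⟩

end Vale.Agent.P180
end
end

section

section

namespace Vale.Agent.P180

section

variable {G : Type*} [Group G]

/-- `S` is stable under conjugation by elements of `X`. -/
def Inv (X S : Subgroup G) : Prop := ∀ x ∈ X, ∀ s ∈ S, x * s * x⁻¹ ∈ S

/-- `X` is a minimal normal subgroup of `G` contained in `C`. -/
structure Min1 (C X : Subgroup G) : Prop where
  normal : X.Normal
  le : X ≤ C
  ne_bot : X ≠ ⊥
  min : ∀ Y : Subgroup G, Y.Normal → Y ≤ X → Y ≠ ⊥ → Y = X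

/-- `S` is a minimal `X`-stable nontrivial subgroup of `X`. -/
structure Min2 (X S : Subgroup G) : Prop where
  le : S ≤ X
  ne_bot : S ≠ ⊥
  inv : Inv X S
  min : ∀ T : Subgroup G, T ≤ S → T ≠ ⊥ → Inv X T → T = S

theorem exists_min1 [Finite G] {C Y : Subgroup G} (hY : Y.Normal) (hYC : Y ≤ C) (h0 : Y ≠ ⊥) :
    ∃ X ≤ Y, Min1 C X := by
  obtain ⟨X, hX⟩ := Set.Finite.exists_minimal
    (s := {X : Subgroup G | X.Normal ∧ X ≤ Y ∧ X ≠ ⊥}) (Set.toFinite _) ⟨Y, hY, le_refl _, h0⟩
  refine ⟨X, hX.prop.2.1, hX.prop.1, hX.prop.2.1.trans hYC, hX.prop.2.2, ?_⟩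
  intro Z hZ hZX hZ0
  exact le_antisymm hZX (hX.le_of_le ⟨hZ, hZX.trans hX.prop.2.1, hZ0⟩ hZX)

theorem exists_min2 [Finite G] {X : Subgroup G} (h0 : X ≠ ⊥) : ∃ S, Min2 X S := by
  obtain ⟨S, hS⟩ := Set.Finite.exists_minimal
    (s := {S : Subgroup G | S ≤ X ∧ S ≠ ⊥ ∧ Inv X S}) (Set.toFinite _)
    ⟨X, le_refl _, h0, fun x hx s hs => X.mul_mem (X.mul_mem hx hs) (X.inv_mem hx)⟩
  refine ⟨S, hS.prop.1, hS.prop.2.1, hS.prop.2.2, ?_⟩
  intro T hT hT0 hTi
  exact le_antisymm hT (hS.le_of_le ⟨hT.trans hS.prop.1, hT0, hTi⟩ hT)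

theorem mem_map_conj {S : Subgroup G} {g x : G} :
    x ∈ S.map (MulAut.conj g).toMonoidHom ↔ g⁻¹ * x * g ∈ S := by
  constructor
  · rintro ⟨d, hd, rfl⟩
    simpa [mul_assoc] using hd
  · intro h
    exact ⟨g⁻¹ * x * g, h, by simp [mul_assoc]⟩

theorem Min2.conj {C X S : Subgroup G} (hX : Min1 C X) (hS : Min2 X S) (g : G) :
    Min2 X (S.map (MulAut.conj g).toMonoidHom) := by
  have hn := hX.normal
  refine ⟨?_, ?_, ?_, ?_⟩
  · intro x hx
    rw [mem_map_conj] at hx
    have := hn.conj_mem _ (hS.le hx) g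
    simpa [mul_assoc] using this
  · intro h
    apply hS.ne_bot
    rwa [Subgroup.map_eq_bot_iff_of_injective _ (MulAut.conj g).injective] at h
  · intro x hx s hs
    rw [mem_map_conj] at hs ⊢
    have h1 : g⁻¹ * x * g ∈ X := by
      have := hn.conj_mem x hx g⁻¹
      simpa using this
    have := hS.inv _ h1 _ hs
    simpa [mul_assoc] using this
  · intro T hT hT0 hTi
    have h1 : T.map (MulAut.conj g⁻¹).toMonoidHom = S := by
      apply hS.min
      · intro x hx
        rw [mem_map_conj] at hx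
        have := hT hx
        rw [mem_map_conj] at this
        simpa [mul_assoc] using this
      · intro h
        apply hT0
        rwa [Subgroup.map_eq_bot_iff_of_injective _ (MulAut.conj g⁻¹).injective] at h
      · intro x hx s hs
        rw [mem_map_conj] at hs ⊢
        have h1 : g * x * g⁻¹ ∈ X := hn.conj_mem x hx g
        have := hTi _ h1 _ hs
        simpa [mul_assoc] using this
    rw [← h1]
    ext x
    rw [mem_map_conj, mem_map_conj]
    simp [mul_assoc]

theorem min2_commute {C X S X' S' : Subgroup G} (hX : Min1 C X) (hS : Min2 X S)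
    (hX' : Min1 C X') (hS' : Min2 X' S') (hne : S ≠ S') :
    ∀ x ∈ S, ∀ y ∈ S', x * y = y * x := by
  have hn := hX.normal
  have hn' := hX'.normal
  by_cases hXX : X = X'
  · subst hXX
    have hbot : S ⊓ S' = ⊥ := by
      by_contra h0
      have hinv : Inv X (S ⊓ S') := fun x hx s hs =>
        Subgroup.mem_inf.mpr ⟨hS.inv x hx s (Subgroup.mem_inf.mp hs).1,
          hS'.inv x hx s (Subgroup.mem_inf.mp hs).2⟩
      exact hne ((hS.min _ inf_le_left h0 hinv).symm.trans (hS'.min _ inf_le_right h0 hinv))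
    intro x hx y hy
    have h1 : x * y * x⁻¹ * y⁻¹ ∈ S ⊓ S' := by
      refine Subgroup.mem_inf.mpr ⟨?_, ?_⟩
      · have := hS.inv y (hS'.le hy) _ (S.inv_mem hx)
        have h2 := S.mul_mem hx this
        simpa [mul_assoc] using h2
      · exact S'.mul_mem (hS'.inv x (hS.le hx) y hy) (S'.inv_mem hy)
    rw [hbot, Subgroup.mem_bot, mul_inv_eq_one, mul_inv_eq_iff_eq_mul] at h1
    exact h1
  · have hbot : Disjoint X X' := by
      rw [disjoint_iff]
      by_contra h0
      have h1 : (X ⊓ X').Normal := inferInstance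
      exact hXX ((hX.min _ h1 inf_le_left h0).symm.trans (hX'.min _ h1 inf_le_right h0))
    intro x hx y hy
    exact Subgroup.commute_of_normal_of_disjoint X X' hn hn' hbot x y (hS.le hx) (hS'.le hy)

theorem min2_gen {C X S : Subgroup G} (hX : Min1 C X) (hS : Min2 X S) {P : Subgroup G}
    (h : ∀ g : G, S.map (MulAut.conj g).toMonoidHom ≤ P) : X ≤ P := by
  have hn := hX.normal
  have h1 : Subgroup.normalClosure (S : Set G) = X := by
    apply hX.min _ Subgroup.normalClosure_normal
    · exact Subgroup.normalClosure_le_normal hS.le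
    · intro h0
      apply hS.ne_bot
      rw [eq_bot_iff, ← h0]
      exact Subgroup.le_normalClosure
  rw [← h1, Subgroup.normalClosure, Subgroup.closure_le]
  intro x hx
  rw [Group.mem_conjugatesOfSet_iff] at hx
  obtain ⟨s, hs, hsx⟩ := hx
  obtain ⟨c, rfl⟩ := isConj_iff.mp hsx
  exact h c ⟨s, hs, rfl⟩

theorem min2_simple {C X S : Subgroup G} (hX : Min1 C X) (hS : Min2 X S) {K : Subgroup G}
    (hK : K ≤ S) (hKS : Inv S K) : K = ⊥ ∨ K = S := by
  by_cases h0 : K = ⊥
  · exact Or.inl h0
  · right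
    apply hS.min K hK h0
    have h1 : X ≤ Subgroup.normalizer (K : Set G) := by
      apply min2_gen hX hS
      intro g x hx
      by_cases hg : S.map (MulAut.conj g).toMonoidHom = S
      · rw [hg] at hx
        rw [Subgroup.mem_normalizer_iff]
        intro y
        constructor
        · exact fun hy => hKS x hx y hy
        · intro hy
          have := hKS x⁻¹ (S.inv_mem hx) _ hy
          simpa [mul_assoc] using this
      · rw [Subgroup.mem_normalizer_iff]
        have hc := min2_commute hX (hS.conj hX g) hX hS hg x hx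
        intro y
        constructor
        · intro hy
          rw [hc y (hK hy), mul_inv_cancel_right]
          exact hy
        · intro hy
          have h2 := hc _ (hK hy)
          have h3 : x * y * x⁻¹ = y := by
            have : x * (x * y * x⁻¹) * x⁻¹ = x * y * x⁻¹ := by
              rw [h2, mul_inv_cancel_right]
            have h4 : x * y * x⁻¹ = y := by
              calc x * y * x⁻¹ = x⁻¹ * (x * (x * y * x⁻¹) * x⁻¹) * x := by group
                _ = x⁻¹ * (x * y * x⁻¹) * x := by rw [this]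
                _ = y := by group
            exact h4
          rwa [h3] at hy
    intro x hx k hk
    exact (Subgroup.mem_normalizer_iff.mp (h1 hx) k).mp hk

theorem min2_isSimple {C X S : Subgroup G} (hX : Min1 C X) (hS : Min2 X S) :
    IsSimpleGroup S := by
  have h1 : Nontrivial S := (Subgroup.nontrivial_iff_ne_bot S).mpr hS.ne_bot
  refine { eq_bot_or_eq_top_of_normal := ?_ }
  intro H hH
  have h2 := min2_simple hX hS (K := H.map S.subtype) (Subgroup.map_subtype_le H) (by
    rintro x hx _ ⟨y, hy, rfl⟩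
    refine ⟨⟨x, hx⟩ * y * ⟨x, hx⟩⁻¹, hH.conj_mem y hy _, rfl⟩)
  rcases h2 with h2 | h2
  · left
    rwa [Subgroup.map_eq_bot_iff_of_injective _ S.subtype_injective] at h2
  · right
    apply Subgroup.map_injective S.subtype_injective
    rw [h2, ← MonoidHom.range_eq_map, Subgroup.range_subtype]

theorem min2_nonabelian {p : ℕ} [Fact p.Prime] [Finite G] {C X S : Subgroup G} (hX : Min1 C X)
    (hS : Min2 X S) (h1 : ¬ IsPGroup p X) (h2 : p ∣ Nat.card X) :
    ¬ (∀ x ∈ S, ∀ y ∈ S, x * y = y * x) := by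
  intro hab
  have hn := hX.normal
  have hXS : X ≤ Subgroup.centralizer (S : Set G) := by
    apply min2_gen hX hS
    intro g x hx
    rw [Subgroup.mem_centralizer_iff]
    intro y hy
    by_cases hg : S.map (MulAut.conj g).toMonoidHom = S
    · rw [hg] at hx
      exact hab y hy x hx
    · exact (min2_commute hX (hS.conj hX g) hX hS hg x hx y hy).symm
  have hXab : ∀ x ∈ X, ∀ y ∈ X, x * y = y * x := by
    have h3 : X ⊓ Subgroup.centralizer (X : Set G) = X := by
      apply hX.min _ inferInstance inf_le_left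
      intro h0
      apply hS.ne_bot
      rw [eq_bot_iff, ← h0]
      intro s hs
      refine Subgroup.mem_inf.mpr ⟨hS.le hs, ?_⟩
      rw [Subgroup.mem_centralizer_iff]
      intro x hx
      exact (Subgroup.mem_centralizer_iff.mp (hXS hx) s hs).symm
    intro x hx y hy
    rw [← h3] at hy
    exact Subgroup.mem_centralizer_iff.mp (Subgroup.mem_inf.mp hy).2 x hx
  let P : Subgroup G :=
    { carrier := {x | x ∈ X ∧ ∃ n : ℕ, x ^ p ^ n = 1}
      one_mem' := ⟨X.one_mem, 0, by simp⟩
      mul_mem' := by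
        rintro x y ⟨hx, n, hn⟩ ⟨hy, m, hm⟩
        refine ⟨X.mul_mem hx hy, n + m, ?_⟩
        rw [(show Commute x y from hXab x hx y hy).mul_pow, pow_add, pow_mul, hn, one_pow, one_mul,
          mul_comm (p ^ n), pow_mul, hm, one_pow]
      inv_mem' := by
        rintro x ⟨hx, n, hn⟩
        exact ⟨X.inv_mem hx, n, by rw [inv_pow, hn, inv_one]⟩ }
  have hP : P = X := by
    apply hX.min
    · constructor
      rintro x ⟨hx, n, hn'⟩ g
      refine ⟨hn.conj_mem x hx g, n, ?_⟩
      rw [conj_pow, hn']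
      group
    · exact fun x hx => hx.1
    · obtain ⟨x, hx⟩ := exists_prime_orderOf_dvd_card' (G := X) p h2
      intro h0
      have hxP : (x : G) ∈ P := by
        refine ⟨x.2, 1, ?_⟩
        rw [pow_one]
        have := pow_orderOf_eq_one x
        rw [hx] at this
        exact congrArg Subtype.val this
      rw [h0, Subgroup.mem_bot] at hxP
      have hx1 : x = 1 := Subtype.ext hxP
      rw [hx1, orderOf_one] at hx
      exact (Fact.out : p.Prime).one_lt.ne hx
  apply h1
  intro x
  have : (x : G) ∈ P := by rw [hP]; exact x.2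
  obtain ⟨_, n, hn'⟩ := this
  exact ⟨n, Subtype.ext hn'⟩

theorem min2_dvd {p : ℕ} [Fact p.Prime] [Finite G] {C X S : Subgroup G} (hX : Min1 C X)
    (hS : Min2 X S) (h2 : p ∣ Nat.card X) : p ∣ Nat.card S := by
  classical
  let ι := Set.range (fun g : G => S.map (MulAut.conj g).toMonoidHom)
  have _ : Finite ι := inferInstance
  have _ := Fintype.ofFinite ι
  let H : ι → Subgroup G := fun i => i.1
  have hcomm : Pairwise fun i j : ι => ∀ x y : G, x ∈ H i → y ∈ H j → Commute x y := by
    rintro ⟨_, g, rfl⟩ ⟨_, h, rfl⟩ hne x y hx hy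
    exact min2_commute hX (hS.conj hX g) hX (hS.conj hX h) (fun h => hne (Subtype.ext h)) x hx y hy
  have hXle : X ≤ ⨆ i, H i := by
    apply min2_gen hX hS
    intro g
    exact le_iSup H ⟨_, g, rfl⟩
  have hr : (Subgroup.noncommPiCoprod hcomm).range = ⨆ i, H i :=
    Subgroup.noncommPiCoprod_range
  have h3 : p ∣ Nat.card (⨆ i, H i : Subgroup G) := h2.trans (Subgroup.card_dvd_of_le hXle)
  rw [← hr] at h3
  have h4 : p ∣ Nat.card (∀ i, H i) := h3.trans (Subgroup.card_range_dvd _)
  rw [Nat.card_pi] at h4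
  obtain ⟨i, _, hi⟩ := (Prime.dvd_finsetProd_iff (Fact.out : p.Prime).prime _).mp h4
  obtain ⟨_, g, rfl⟩ := i
  rwa [show Nat.card (H ⟨_, g, rfl⟩) = Nat.card S from
    Nat.card_congr (S.equivMapOfInjective _ (MulAut.conj g).injective).symm.toEquiv] at hi

end

end Vale.Agent.P180
end
end

section

section

namespace Vale.Agent.P180

open scoped Nat

theorem relIndex_eq_card_map {G : Type*} [Group G] (W A : Subgroup G) [W.Normal] :
    W.relIndex A = Nat.card (A.map (QuotientGroup.mk' W)) := by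
  have h := Subgroup.index_ker ((QuotientGroup.mk' W).comp A.subtype)
  have h1 : ((QuotientGroup.mk' W).comp A.subtype).ker = W.subgroupOf A := by
    ext x
    rw [MonoidHom.mem_ker, Subgroup.mem_subgroupOf]
    exact QuotientGroup.eq_one_iff _
  have h2 : ((QuotientGroup.mk' W).comp A.subtype).range = A.map (QuotientGroup.mk' W) := by
    rw [MonoidHom.range_comp, Subgroup.range_subtype]
  rw [h1, h2] at h
  exact h

theorem center_trivial {G : Type*} [Group G] {S : Subgroup G} (hS : IsSimpleGroup S)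
    (hnab : ¬ (∀ x ∈ S, ∀ y ∈ S, x * y = y * x)) {x : G} (hx : x ∈ S)
    (hc : ∀ y ∈ S, x * y = y * x) : x = 1 := by
  rcases hS.eq_bot_or_eq_top_of_normal (Subgroup.center S) inferInstance with h | h
  · have h1 : (⟨x, hx⟩ : S) ∈ Subgroup.center S := by
      rw [Subgroup.mem_center_iff]
      intro y
      exact Subtype.ext (hc y y.2).symm
    rw [h, Subgroup.mem_bot] at h1
    exact congrArg Subtype.val h1
  · exfalso
    apply hnab
    intro x hx y hy
    have h1 : (⟨y, hy⟩ : S) ∈ Subgroup.center S := by rw [h]; exact Subgroup.mem_top _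
    exact congrArg Subtype.val (Subgroup.mem_center_iff.mp h1 ⟨x, hx⟩)

/-- The set of elements lying in a member of `𝒮`, with the conjugation action. -/
theorem card_le_factorial {G : Type*} [Group G] [Finite G] (m : ℕ) (C : Subgroup G)
    (𝒮 : Set (Subgroup G)) (hm : ∀ S ∈ 𝒮, Nat.card S ≤ m)
    (hconj : ∀ S ∈ 𝒮, ∀ g : G, S.map (MulAut.conj g).toMonoidHom ∈ 𝒮)
    (hfaith : ∀ c ∈ C, (∀ S ∈ 𝒮, ∀ x ∈ S, c * x = x * c) → c = 1) :
    Nat.card C ≤ (Nat.card 𝒮 * m)! := by
  classical
  let U := {x : G // ∃ S ∈ 𝒮, x ∈ S}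
  let _ : MulAction G U :=
    { smul := fun g x => ⟨g * x.1 * g⁻¹, by
        obtain ⟨S, hS, hx⟩ := x.2
        refine ⟨_, hconj S hS g, ?_⟩
        rw [mem_map_conj]
        simpa [mul_assoc] using hx⟩
      one_smul := fun x => Subtype.ext (by
        change 1 * x.1 * 1⁻¹ = x.1
        simp)
      mul_smul := fun g h x => Subtype.ext (by
        change g * h * x.1 * (g * h)⁻¹ = g * (h * x.1 * h⁻¹) * g⁻¹
        group) }
  have h1 : Function.Injective ((MulAction.toPermHom G U).comp C.subtype) := by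
    rw [injective_iff_map_eq_one]
    intro c hc
    apply Subtype.ext
    apply hfaith c c.2
    intro S hS x hx
    have h2 := congrArg (fun σ : Equiv.Perm U => (σ ⟨x, S, hS, hx⟩).1) hc
    have h3 : (c : G) * x * (c : G)⁻¹ = x := h2
    rwa [mul_inv_eq_iff_eq_mul] at h3
  have h2 : Nat.card C ≤ Nat.card (Equiv.Perm U) := Nat.card_le_card_of_injective _ h1
  rw [Nat.card_perm] at h2
  refine h2.trans (Nat.factorial_le ?_)
  let f : (Σ S : 𝒮, S.1) → U := fun x => ⟨x.2, x.1.1, x.1.2, x.2.2⟩
  have hf : Function.Surjective f := by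
    rintro ⟨x, S, hS, hx⟩
    exact ⟨⟨⟨S, hS⟩, ⟨x, hx⟩⟩, rfl⟩
  refine (Nat.card_le_card_of_surjective f hf).trans ?_
  have _ := Fintype.ofFinite 𝒮
  rw [Nat.card_sigma]
  calc ∑ S : 𝒮, Nat.card S.1 ≤ ∑ _S : 𝒮, m := Finset.sum_le_sum fun S _ => hm S.1 S.2
    _ = Nat.card 𝒮 * m := by
      rw [Finset.sum_const, Finset.card_univ, Nat.card_eq_fintype_card, smul_eq_mul]

end Vale.Agent.P180
end
end

section

section

namespace Vale.Agent.P180

open scoped Nat

theorem group_theory' {p m : ℕ} [Fact p.Prime] {G : Type} [Group G] [Finite G]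
    (C M : Subgroup G) [C.Normal] [M.Normal] (hM : Cls p m M)
    (hC : ∀ X : Subgroup G, X.Normal → X ≤ C → X ≠ ⊥ → ¬ IsPGroup p X ∧ p ∣ Nat.card X ∧
      X ⊓ M ≠ ⊥) :
    ∃ 𝒮 : Set (Subgroup G),
      (∀ S ∈ 𝒮, S ≤ C ∧ S ≠ ⊥ ∧ Nat.card S ≤ m ∧ IsSimpleGroup S ∧
        ¬ (∀ x ∈ S, ∀ y ∈ S, x * y = y * x)) ∧
      (∀ S ∈ 𝒮, ∀ S' ∈ 𝒮, S ≠ S' → ∀ x ∈ S, ∀ y ∈ S', x * y = y * x) ∧
      (∀ S ∈ 𝒮, ∀ g : G, S.map (MulAut.conj g).toMonoidHom ∈ 𝒮) ∧
      (∀ c ∈ C, (∀ S ∈ 𝒮, ∀ x ∈ S, c * x = x * c) → c = 1) := by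
  have hCn : C.Normal := inferInstance
  have key : ∀ X S : Subgroup G, Min1 C X → Min2 X S →
      S ≤ C ∧ S ≠ ⊥ ∧ Nat.card S ≤ m ∧ IsSimpleGroup S ∧
        ¬ (∀ x ∈ S, ∀ y ∈ S, x * y = y * x) := by
    intro X S hX hS
    obtain ⟨h1, h2, h3⟩ := hC X hX.normal hX.le hX.ne_bot
    have hsimple := min2_isSimple hX hS
    refine ⟨hS.le.trans hX.le, hS.ne_bot, ?_, hsimple, min2_nonabelian hX hS h1 h2⟩
    have hXn := hX.normal
    have hXM : X ⊓ M = X := hX.min _ inferInstance inf_le_left h3
    have hSM : S ≤ M := hS.le.trans (by rw [← hXM]; exact inf_le_right)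
    exact hM (S.subgroupOf M) S (Subgroup.subgroupOfEquivOfLe hSM).toMonoidHom
      (Subgroup.subgroupOfEquivOfLe hSM).surjective (min2_dvd hX hS h2)
  refine ⟨{S | ∃ X, Min1 C X ∧ Min2 X S}, ?_, ?_, ?_, ?_⟩
  · rintro S ⟨X, hX, hS⟩
    exact key X S hX hS
  · rintro S ⟨X, hX, hS⟩ S' ⟨X', hX', hS'⟩ hne
    exact min2_commute hX hS hX' hS' hne
  · rintro S ⟨X, hX, hS⟩ g
    exact ⟨X, hX, hS.conj hX g⟩
  · intro c hc hcS
    by_contra hc1
    let A : Subgroup G :=
      { carrier := {c | c ∈ C ∧ ∀ X S : Subgroup G, Min1 C X → Min2 X S →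
          ∀ x ∈ S, c * x = x * c}
        one_mem' := ⟨C.one_mem, fun _ _ _ _ x _ => by rw [one_mul, mul_one]⟩
        mul_mem' := by
          rintro a b ⟨ha, ha'⟩ ⟨hb, hb'⟩
          refine ⟨C.mul_mem ha hb, fun X S hX hS x hx => ?_⟩
          rw [mul_assoc, hb' X S hX hS x hx, ← mul_assoc, ha' X S hX hS x hx, mul_assoc]
        inv_mem' := by
          rintro a ⟨ha, ha'⟩
          refine ⟨C.inv_mem ha, fun X S hX hS x hx => ?_⟩
          have := ha' X S hX hS x hx
          rw [inv_mul_eq_iff_eq_mul, ← mul_assoc, this, mul_assoc, mul_inv_cancel, mul_one] }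
    have hA : A.Normal := by
      constructor
      rintro a ⟨ha, ha'⟩ g
      refine ⟨hCn.conj_mem a ha g, fun X S hX hS x hx => ?_⟩
      have h1 := ha' X _ hX (hS.conj hX g⁻¹) (g⁻¹ * x * g) (by
        rw [mem_map_conj]
        simpa [mul_assoc] using hx)
      calc g * a * g⁻¹ * x = g * (a * (g⁻¹ * x * g)) * g⁻¹ := by group
        _ = g * (g⁻¹ * x * g * a) * g⁻¹ := by rw [h1]
        _ = x * (g * a * g⁻¹) := by group
    have hcA : c ∈ A := ⟨hc, fun X S hX hS x hx => hcS S ⟨X, hX, hS⟩ x hx⟩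
    have hA0 : A ≠ ⊥ := by
      intro h0
      rw [h0, Subgroup.mem_bot] at hcA
      exact hc1 hcA
    obtain ⟨X, hXA, hX⟩ := exists_min1 (C := C) hA (fun a ha => ha.1) hA0
    obtain ⟨S, hS⟩ := exists_min2 hX.ne_bot
    exact (key X S hX hS).2.2.2.2 fun x hx y hy => (hXA (hS.le hx)).2 X S hX hS y hy

theorem group_theory_W' {p m : ℕ} [Fact p.Prime] {G : Type} [Group G] [Finite G]
    (C W M : Subgroup G) [C.Normal] [W.Normal] [M.Normal] (hM : Cls p m M) (hWC : W ≤ C)
    (hcent : ∀ w ∈ W, ∀ c ∈ C, w * c = c * w)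
    (hC : ∀ X : Subgroup G, X.Normal → W ≤ X → X ≤ C → X ≠ W →
      ¬ (∀ x ∈ X, ∃ n : ℕ, x ^ p ^ n ∈ W) ∧ p ∣ W.relIndex X ∧ ¬ X ⊓ M ≤ W) :
    ∃ 𝒮 : Set (Subgroup G),
      (∀ S ∈ 𝒮, W ≤ S ∧ S ≤ C ∧ S ≠ W ∧ (∀ x ∈ S, (∀ y ∈ S, x * y = y * x) → x ∈ W)) ∧
      (∀ S ∈ 𝒮, ∀ S' ∈ 𝒮, S ≠ S' → ∀ x ∈ S, ∀ y ∈ S', x * y = y * x) ∧
      (∀ S ∈ 𝒮, ∀ g : G, S.map (MulAut.conj g).toMonoidHom ∈ 𝒮) ∧
      W.relIndex C ≤ (Nat.card 𝒮 * m)! := by
  let π := QuotientGroup.mk' W
  have hπ : Function.Surjective π := QuotientGroup.mk'_surjective W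
  have hker : π.ker = W := QuotientGroup.ker_mk' W
  have hπW : ∀ x, π x = 1 ↔ x ∈ W := fun x => QuotientGroup.eq_one_iff x
  have hCn : (C.map π).Normal := Subgroup.Normal.map inferInstance π hπ
  have hcm : (C.map π).comap π = C := by
    rw [Subgroup.comap_map_eq, hker, sup_eq_left.mpr hWC]
  have hmc : ∀ X : Subgroup (G ⧸ W), (X.comap π).map π = X :=
    fun X => Subgroup.map_comap_eq_self_of_surjective hπ X
  have hWle : ∀ X : Subgroup (G ⧸ W), W ≤ X.comap π := by
    intro X x hx
    rw [Subgroup.mem_comap, (hπW x).mpr hx]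
    exact X.one_mem
  have hneW : ∀ X : Subgroup (G ⧸ W), X ≠ ⊥ → X.comap π ≠ W := by
    intro X hX h
    apply hX
    rw [← hmc X, h, Subgroup.map_eq_bot_iff, hker]
  have hMn : (M.map π).Normal := Subgroup.Normal.map inferInstance π hπ
  obtain ⟨𝒮, h1, h2, h3, h4⟩ := group_theory' (C.map π) (M.map π)
    (hM.of_surjective (π.subgroupMap M) (π.subgroupMap_surjective M)) (by
    intro X hX hXC hX0
    have hX' : X.comap π ≤ C := by
      rw [← hcm]; exact Subgroup.comap_mono hXC
    obtain ⟨h5, h6, h7⟩ := hC (X.comap π) (hX.comap π) (hWle X) hX' (hneW X hX0)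
    rw [relIndex_eq_card_map, hmc X] at h6
    refine ⟨fun h8 => h5 ?_, h6, fun h8 => h7 ?_⟩
    · intro x hx
      obtain ⟨n, hn⟩ := h8 ⟨π x, hx⟩
      refine ⟨n, ?_⟩
      rw [← hπW, map_pow]
      exact congrArg Subtype.val hn
    · intro x hx
      obtain ⟨hx1, hx2⟩ := Subgroup.mem_inf.mp hx
      rw [← hπW, ← Subgroup.mem_bot, ← h8]
      exact Subgroup.mem_inf.mpr ⟨hx1, Subgroup.mem_map_of_mem π hx2⟩)
  refine ⟨(fun X => X.comap π) '' 𝒮, ?_, ?_, ?_, ?_⟩
  · rintro _ ⟨S, hS, rfl⟩
    obtain ⟨hSC, hS0, hSm, hSs, hSn⟩ := h1 S hS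
    refine ⟨hWle S, ?_, hneW S hS0, ?_⟩
    · change S.comap π ≤ C
      rw [← hcm]; exact Subgroup.comap_mono hSC
    · intro x hx hc
      rw [← hπW]
      apply center_trivial hSs hSn hx
      intro y hy
      obtain ⟨y', rfl⟩ := hπ y
      rw [← map_mul, hc y' hy, map_mul]
  · rintro _ ⟨S, hS, rfl⟩ _ ⟨S', hS', rfl⟩ hne x hx y hy
    have hne' : S ≠ S' := fun h => hne (by rw [h])
    obtain ⟨hSC, hS0, hSm, hSs, hSn⟩ := h1 S hS
    have hSC' : S.comap π ≤ C := by rw [← hcm]; exact Subgroup.comap_mono hSC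
    obtain ⟨hTC, _, _, _, _⟩ := h1 S' hS'
    have hTC' : S'.comap π ≤ C := by rw [← hcm]; exact Subgroup.comap_mono hTC
    have hyC : y ∈ C := hTC' hy
    have hcW : ∀ s ∈ S.comap π, s * y * s⁻¹ * y⁻¹ ∈ W := by
      intro s hs
      rw [← hπW, map_mul, map_mul, map_mul, h2 S hS S' hS' hne' _ hs _ hy, map_inv, map_inv]
      group
    let c : (S.comap π) →* G :=
      { toFun := fun s => s * y * (s : G)⁻¹ * y⁻¹
        map_one' := by simp
        map_mul' := by
          intro s t
          change (s : G) * t * y * ((s : G) * t)⁻¹ * y⁻¹ =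
            (s : G) * y * (s : G)⁻¹ * y⁻¹ * ((t : G) * y * (t : G)⁻¹ * y⁻¹)
          have h5 := hcent _ (hcW t t.2) _ (hSC' s.2)
          have h6 := hcent _ (hcW t t.2) ((s : G) * y * (s : G)⁻¹ * y⁻¹) (hWC (hcW s s.2))
          calc (s : G) * t * y * ((s : G) * t)⁻¹ * y⁻¹
              = s * ((t : G) * y * (t : G)⁻¹ * y⁻¹) * (y * (s : G)⁻¹ * y⁻¹) := by group
            _ = ((t : G) * y * (t : G)⁻¹ * y⁻¹) * s * (y * (s : G)⁻¹ * y⁻¹) := by rw [← h5]
            _ = ((t : G) * y * (t : G)⁻¹ * y⁻¹) * ((s : G) * y * (s : G)⁻¹ * y⁻¹) := by group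
            _ = _ := h6 }
    have hcomm : ∀ s t : S.comap π, c (s * t) = c (t * s) := by
      intro s t
      rw [map_mul, map_mul]
      exact hcent _ (hcW s s.2) _ (hWC (hcW t t.2))
    let πS : (S.comap π) →* S :=
      { toFun := fun s => ⟨π s, s.2⟩
        map_one' := Subtype.ext (map_one π)
        map_mul' := fun s t => Subtype.ext (map_mul π (s : G) (t : G)) }
    have hπS : Function.Surjective πS := by
      rintro ⟨s, hs⟩
      obtain ⟨s', rfl⟩ := hπ s
      exact ⟨⟨s', hs⟩, rfl⟩
    have hKn : (c.ker.map πS).Normal := Subgroup.Normal.map inferInstance πS hπS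
    have hgoal : c ⟨x, hx⟩ = 1 → x * y = y * x := by
      intro h
      have h' : x * y * x⁻¹ * y⁻¹ = 1 := h
      rwa [mul_inv_eq_one, mul_inv_eq_iff_eq_mul] at h'
    apply hgoal
    rcases hSs.eq_bot_or_eq_top_of_normal _ hKn with h | h
    · exfalso
      apply hSn
      intro u hu v hv
      obtain ⟨u', rfl⟩ := hπ u
      obtain ⟨v', rfl⟩ := hπ v
      let s : S.comap π := ⟨u', hu⟩
      let t : S.comap π := ⟨v', hv⟩
      have h5 : s * t * (t * s)⁻¹ ∈ c.ker := by
        rw [MonoidHom.mem_ker, map_mul, map_inv, hcomm s t, mul_inv_cancel]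
      have h6 : πS (s * t * (t * s)⁻¹) ∈ c.ker.map πS := ⟨_, h5, rfl⟩
      rw [h, Subgroup.mem_bot, map_mul, map_inv, mul_inv_eq_one] at h6
      have h7 := congrArg Subtype.val h6
      have h8 : π (u' * v') = π (v' * u') := h7
      rwa [map_mul, map_mul] at h8
    · have h5 : πS ⟨x, hx⟩ ∈ c.ker.map πS := by rw [h]; exact Subgroup.mem_top _
      obtain ⟨z, hz, hzx⟩ := h5
      have h6 : π (z : G) = π x := congrArg Subtype.val hzx
      have h7 : (z : G)⁻¹ * x ∈ W := by
        rw [← hπW, map_mul, map_inv, h6, inv_mul_cancel]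
      have h8 : (⟨x, hx⟩ : S.comap π) = z * ⟨(z : G)⁻¹ * x, hWle S h7⟩ := by
        apply Subtype.ext
        change x = z * ((z : G)⁻¹ * x)
        rw [mul_inv_cancel_left]
      rw [h8, map_mul, show c z = 1 from hz, one_mul]
      change (z : G)⁻¹ * x * y * ((z : G)⁻¹ * x)⁻¹ * y⁻¹ = 1
      rw [mul_inv_eq_one, mul_inv_eq_iff_eq_mul]
      exact hcent _ h7 y hyC
  · rintro _ ⟨S, hS, rfl⟩ g
    refine ⟨_, h3 S hS (π g), ?_⟩
    ext x
    rw [Subgroup.mem_comap, mem_map_conj, mem_map_conj, Subgroup.mem_comap, map_mul, map_mul,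
      map_inv]
  · rw [relIndex_eq_card_map, Nat.card_image_of_injective (by
      intro X Y hXY
      have hXY' : X.comap π = Y.comap π := hXY
      rw [← hmc X, hXY', hmc])]
    exact card_le_factorial m (C.map π) 𝒮 (fun S hS => (h1 S hS).2.2.1) h3 h4

end Vale.Agent.P180
end
end

section

section

namespace Vale.Agent.P180

open scoped Classical

variable {k : Type*} [Field k] {H : Type*} [Group H]

/-- if `1 = ∑ h a₀ h⁻¹` in a quotient algebra `Q` of `k[H]`, then `Q` is semisimple. -/
theorem semisimple_of_trace [Fintype H] {Q : Type*} [Ring Q] [Algebra k Q]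
    (mk : MonoidAlgebra k H →ₐ[k] Q) (hmk : Function.Surjective mk) (a₀ : Q)
    (h0 : (1 : Q) = ∑ h : H, mk (MonoidAlgebra.single h 1) * a₀ *
      mk (MonoidAlgebra.single h⁻¹ 1)) :
    IsSemisimpleRing Q := by
  refine (isSemisimpleModule_iff _ _).mpr ⟨fun W => ?_⟩
  obtain ⟨π, hπ⟩ := (W.restrictScalars k).subtype.exists_leftInverse_of_injective
    (by rw [Submodule.ker_subtype])
  have hπ' : ∀ w : Q, w ∈ W → (π w : Q) = w := by
    intro w hw
    have := congrArg (fun f => ((f (⟨w, hw⟩ : W.restrictScalars k) : W.restrictScalars k) : Q)) hπ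
    exact this
  have hW : ∀ (q : Q) (v : Q), v ∈ W → q * v ∈ W := fun q v hv => W.smul_mem q hv
  -- the averaged map
  let F : Q → Q := fun v => ∑ h : H, mk (MonoidAlgebra.single h 1) * (a₀ *
    (π (mk (MonoidAlgebra.single h⁻¹ 1) * v) : Q))
  have hFW : ∀ v, F v ∈ W := by
    intro v
    refine W.sum_mem fun h _ => ?_
    exact hW _ _ (hW _ _ (π _).2)
  have hFadd : ∀ v w, F (v + w) = F v + F w := by
    intro v w
    simp only [F, mul_add, map_add, Submodule.coe_add, Finset.sum_add_distrib]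
  have hFsmul : ∀ (c : k) v, F (c • v) = c • F v := by
    intro c v
    simp only [F, mul_smul_comm, map_smul, Submodule.coe_smul, Finset.smul_sum]
  have hFg : ∀ (g : H) v, F (mk (MonoidAlgebra.single g 1) * v) =
      mk (MonoidAlgebra.single g 1) * F v := by
    intro g v
    simp only [F, Finset.mul_sum]
    apply Fintype.sum_bijective (fun h => g⁻¹ * h) (Group.mulLeft_bijective _)
    intro h
    have e1 : mk (MonoidAlgebra.single h⁻¹ 1) * (mk (MonoidAlgebra.single g 1) * v) =
        mk (MonoidAlgebra.single (g⁻¹ * h)⁻¹ 1) * v := by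
      rw [← mul_assoc, ← map_mul, MonoidAlgebra.single_mul_single]
      simp
    have e2 : mk (MonoidAlgebra.single g (1 : k)) * mk (MonoidAlgebra.single (g⁻¹ * h) 1) =
        mk (MonoidAlgebra.single h 1) := by
      rw [← map_mul, MonoidAlgebra.single_mul_single]
      simp
    rw [e1]
    rw [← mul_assoc (mk (MonoidAlgebra.single g (1 : k))), e2]
  have hFa : ∀ (a : MonoidAlgebra k H) v, F (mk a * v) = mk a * F v := by
    intro a v
    induction a using MonoidAlgebra.induction_linear with
    | zero =>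
      simp only [map_zero, zero_mul]
      have := hFsmul 0 0
      simpa using this
    | add a b ha hb => rw [map_add, add_mul, hFadd, ha, hb, add_mul]
    | single g r =>
      have : MonoidAlgebra.single g r = r • MonoidAlgebra.single g (1 : k) := by
        simp [MonoidAlgebra.smul_single]
      rw [this, map_smul, smul_mul_assoc, hFsmul, hFg, smul_mul_assoc]
  let F' : Q →ₗ[Q] W :=
    { toFun := fun v => ⟨F v, hFW v⟩
      map_add' := fun v w => Subtype.ext (hFadd v w)
      map_smul' := by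
        intro q v
        obtain ⟨a, rfl⟩ := hmk q
        exact Subtype.ext (hFa a v) }
  refine ⟨LinearMap.ker F', LinearMap.isCompl_of_proj (f := F') ?_⟩
  intro w
  apply Subtype.ext
  change F w = w
  have e3 : F w = (∑ h : H, mk (MonoidAlgebra.single h 1) * a₀ *
      mk (MonoidAlgebra.single h⁻¹ 1)) * w := by
    simp only [F, Finset.sum_mul]
    refine Finset.sum_congr rfl fun h _ => ?_
    rw [hπ' _ (hW _ _ w.2)]
    simp only [mul_assoc]
  rw [e3, ← h0, one_mul]

end Vale.Agent.P180
end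
end

section

section

set_option linter.style.haveILetI false
set_option linter.unusedSectionVars false

namespace Vale.Agent.P180.KP

open scoped Classical

section Lam

variable {k : Type*} [Field k] {p : ℕ} [Fact p.Prime] [CharP k p]
variable {C : Type*} [CommGroup C] [Finite C]

/-- The augmentation. -/
noncomputable def aug (k : Type*) [Field k] (C : Type*) [CommGroup C] :
    MonoidAlgebra k C →ₐ[k] k := MonoidAlgebra.lift k k C 1

theorem aug_single (c : C) (r : k) : aug k C (MonoidAlgebra.single c r) = r := by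
  simp [aug, MonoidAlgebra.lift_single]

theorem aug_algebraMap (r : k) : aug k C (algebraMap k _ r) = r := (aug k C).commutes r

theorem pow_single_eq (hC : IsPGroup p C) : ∃ n : ℕ, ∀ c : C, c ^ (p ^ n) = 1 := by
  obtain ⟨n, hn⟩ := IsPGroup.iff_card.mp hC
  exact ⟨n, fun c => by rw [← hn]; exact pow_card_eq_one'⟩

theorem lam_pow (hC : IsPGroup p C) : ∃ n : ℕ, ∀ a : MonoidAlgebra k C,
    a ^ (p ^ n) = algebraMap k _ ((aug k C a) ^ (p ^ n)) := by
  obtain ⟨n, hn⟩ := pow_single_eq hC
  refine ⟨n, fun a => ?_⟩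
  haveI : CharP (MonoidAlgebra k C) p := charP_of_injective_algebraMap
    (FaithfulSMul.algebraMap_injective k (MonoidAlgebra k C)) p
  haveI : ExpChar (MonoidAlgebra k C) p := ExpChar.prime Fact.out
  haveI : ExpChar k p := ExpChar.prime Fact.out
  induction a using MonoidAlgebra.induction_linear with
  | zero => simp [Fact.out (p := p.Prime) |>.ne_zero]
  | add a b ha hb =>
    rw [add_pow_expChar_pow, ha, hb, map_add, add_pow_expChar_pow, map_add]
  | single c r =>
    rw [MonoidAlgebra.single_pow, hn, aug_single]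
    rfl

theorem isNilpotent_of_aug (hC : IsPGroup p C) {a : MonoidAlgebra k C} (ha : aug k C a = 0) :
    IsNilpotent a := by
  obtain ⟨n, hn⟩ := lam_pow (k := k) hC
  refine ⟨p ^ n, ?_⟩
  rw [hn, ha, zero_pow (pow_ne_zero _ (Fact.out (p := p.Prime)).ne_zero), map_zero]

theorem isUnit_of_aug (hC : IsPGroup p C) {a : MonoidAlgebra k C} (ha : aug k C a ≠ 0) :
    IsUnit a := by
  have h1 : IsNilpotent (a - algebraMap k _ (aug k C a)) :=
    isNilpotent_of_aug hC (by rw [map_sub, aug_algebraMap, sub_self])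
  have h2 : IsUnit (algebraMap k (MonoidAlgebra k C) (aug k C a)) :=
    (IsUnit.mk0 _ ha).map _
  have h3 : a = (a - algebraMap k _ (aug k C a)) + algebraMap k _ (aug k C a) := by ring
  rw [h3]
  exact IsNilpotent.isUnit_add_right_of_commute h1 h2 (Commute.all _ _)

theorem aug_ne_zero_of_isUnit {a : MonoidAlgebra k C} (ha : IsUnit a) : aug k C a ≠ 0 :=
  (ha.map (aug k C)).ne_zero

/-- the augmentation ideal is nilpotent -/
theorem augIdeal_nilpotent (hC : IsPGroup p C) :
    IsNilpotent (RingHom.ker (aug k C)) := by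
  haveI : IsNoetherianRing (MonoidAlgebra k C) :=
    IsNoetherianRing.of_finite k (MonoidAlgebra k C)
  have h : RingHom.ker (aug k C) ≤ nilradical (MonoidAlgebra k C) := by
    intro a ha
    exact isNilpotent_of_aug hC ha
  obtain ⟨n, hn⟩ := IsNoetherianRing.isNilpotent_nilradical (MonoidAlgebra k C)
  refine ⟨n, ?_⟩
  rw [Ideal.zero_eq_bot, eq_bot_iff] at *
  exact (Ideal.pow_right_mono h n).trans hn

theorem exists_root [IsAlgClosed k] (hC : IsPGroup p C) {r : ℕ} (hr : (r : k) ≠ 0)
    {u : MonoidAlgebra k C} (hu : IsUnit u) :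
    ∃ l : MonoidAlgebra k C, IsUnit l ∧ l ^ r = u := by
  obtain ⟨n, hn⟩ := lam_pow (k := k) hC
  have hp : p.Prime := Fact.out
  have hr0 : r ≠ 0 := by rintro rfl; simp at hr
  have hrp : Nat.Coprime r (p ^ n) := by
    apply Nat.Coprime.pow_right
    rw [Nat.coprime_comm, hp.coprime_iff_not_dvd]
    intro h
    exact hr ((CharP.cast_eq_zero_iff k p r).mpr h)
  have hu0 := aug_ne_zero_of_isUnit hu
  obtain ⟨z, hz⟩ := IsAlgClosed.exists_pow_nat_eq (aug k C u) (Nat.pos_of_ne_zero hr0)
  have hz0 : z ≠ 0 := by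
    rintro rfl
    rw [zero_pow hr0] at hz
    exact hu0 hz.symm
  set w := u * algebraMap k _ (aug k C u)⁻¹ with hw
  have hw1 : w ^ (p ^ n) = 1 := by
    rw [hn, hw, map_mul, aug_algebraMap, mul_inv_cancel₀ hu0, one_pow, map_one]
  have hrw : Nat.Coprime r (orderOf w) :=
    hrp.coprime_dvd_right (orderOf_dvd_of_pow_eq_one hw1)
  obtain ⟨m, hm⟩ := exists_pow_eq_self_of_coprime hrw
  have hwu : IsUnit w := hu.mul ((IsUnit.mk0 _ (inv_ne_zero hu0)).map _)
  refine ⟨algebraMap k _ z * w ^ m, ((IsUnit.mk0 _ hz0).map _).mul (hwu.pow m), ?_⟩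
  rw [mul_pow, ← map_pow, hz, ← pow_mul, mul_comm m r, pow_mul, hm, hw, mul_left_comm,
    ← map_mul, mul_inv_cancel₀ hu0, map_one, mul_one]

theorem root_eq (hC : IsPGroup p C) {r : ℕ} (hr : (r : k) ≠ 0)
    {l : MonoidAlgebra k C} (hl : l ^ r = 1) : l = algebraMap k _ (aug k C l) := by
  obtain ⟨n, hn⟩ := lam_pow (k := k) hC
  have hp : p.Prime := Fact.out
  have hr0 : r ≠ 0 := by rintro rfl; simp at hr
  have hrp : Nat.Coprime r (p ^ n) := by
    apply Nat.Coprime.pow_right
    rw [Nat.coprime_comm, hp.coprime_iff_not_dvd]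
    intro h
    exact hr ((CharP.cast_eq_zero_iff k p r).mpr h)
  have h1 : (aug k C l) ^ r = 1 := by rw [← map_pow, hl, map_one]
  have h0 : aug k C l ≠ 0 := by
    intro h
    rw [h, zero_pow hr0] at h1
    exact zero_ne_one h1
  set w := l * algebraMap k _ (aug k C l)⁻¹ with hw
  have hw1 : w ^ (p ^ n) = 1 := by
    rw [hn, hw, map_mul, aug_algebraMap, mul_inv_cancel₀ h0, one_pow, map_one]
  have hw2 : w ^ r = 1 := by
    rw [hw, mul_pow, hl, ← map_pow, inv_pow, h1, inv_one, map_one, mul_one]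
  have hw3 : w = 1 := by
    have := Nat.dvd_gcd (orderOf_dvd_of_pow_eq_one hw2) (orderOf_dvd_of_pow_eq_one hw1)
    rw [hrp.gcd_eq_one, Nat.dvd_one, orderOf_eq_one_iff] at this
    exact this
  calc l = w * algebraMap k _ (aug k C l) := by
        rw [hw, mul_assoc, ← map_mul, inv_mul_cancel₀ h0, map_one, mul_one]
    _ = _ := by rw [hw3, one_mul]

/-- the sum of all group elements -/
noncomputable def sig (k : Type*) [Field k] (C : Type*) [CommGroup C] [Finite C] :
    MonoidAlgebra k C :=
  letI := Fintype.ofFinite C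
  ∑ c : C, MonoidAlgebra.single c 1

theorem eq_smul_sig {x : MonoidAlgebra k C}
    (hx : ∀ c : C, MonoidAlgebra.single c (1 : k) * x = x) :
    x = algebraMap k _ (x.coeff 1) * sig k C := by
  letI := Fintype.ofFinite C
  have hcoeff : ∀ c : C, x.coeff c = x.coeff 1 := by
    intro c
    conv_lhs => rw [← hx c]
    rw [MonoidAlgebra.coeff_single_mul_apply]
    simp
  have hs : ∀ y : C, (sig k C).coeff y = 1 := by
    intro y
    unfold sig
    simp [Finsupp.single_apply]
  ext y
  rw [hcoeff y, ← Algebra.smul_def, MonoidAlgebra.coeff_smul, Finsupp.smul_apply, hs,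
    smul_eq_mul, mul_one]

theorem basis_of_residue (hC : IsPGroup p C) {M : Type*} [AddCommGroup M]
    [Module (MonoidAlgebra k C) M] {ι : Type*} [Fintype ι] (v : ι → M)
    (hspan : ∀ m : M, ∃ c : ι → k, m - ∑ l, algebraMap k (MonoidAlgebra k C) (c l) • v l ∈
      (RingHom.ker (aug k C) : Ideal (MonoidAlgebra k C)) •
        (⊤ : Submodule (MonoidAlgebra k C) M))
    (hind : ∀ c : ι → k, sig k C • ∑ l, algebraMap k (MonoidAlgebra k C) (c l) • v l = 0 →
      c = 0) :
    LinearIndependent (MonoidAlgebra k C) v ∧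
      ⊤ ≤ Submodule.span (MonoidAlgebra k C) (Set.range v) := by
  obtain ⟨n, hn⟩ := augIdeal_nilpotent (k := k) hC
  set J : Ideal (MonoidAlgebra k C) := RingHom.ker (aug k C) with hJ
  constructor
  · rw [Fintype.linearIndependent_iff]
    by_contra hcon
    push Not at hcon
    obtain ⟨lam, hlam, l0, hl0⟩ := hcon
    have hex : ∃ m : ℕ, ∀ j ∈ J ^ m, ∀ l, j * lam l = 0 := by
      refine ⟨n, fun j hj l => ?_⟩
      rw [hn] at hj
      rw [Ideal.zero_eq_bot, Submodule.mem_bot] at hj
      rw [hj, zero_mul]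
    have hm := Nat.find_spec hex
    have hmin := fun m' (h : m' < Nat.find hex) => Nat.find_min hex h
    generalize Nat.find hex = m at hm hmin
    rcases m with _ | m
    · apply hl0
      have := hm 1 (by simp) l0
      rwa [one_mul] at this
    · have h1 := hmin m (Nat.lt_succ_self m)
      push Not at h1
      obtain ⟨mu, hmu, l1, hl1⟩ := h1
      have h2 : ∀ l, ∀ c : C, MonoidAlgebra.single c (1 : k) * (mu * lam l) = mu * lam l := by
        intro l c
        have h3 : MonoidAlgebra.single c (1 : k) - 1 ∈ J := by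
          rw [hJ, RingHom.mem_ker, map_sub, map_one]
          change aug k C _ - 1 = 0
          rw [aug_single, sub_self]
        have h4 : (MonoidAlgebra.single c (1 : k) - 1) * mu ∈ J ^ (m + 1) := by
          rw [pow_succ', ]
          exact Ideal.mul_mem_mul h3 hmu
        have h5 := hm _ h4 l
        rw [mul_assoc, sub_mul, one_mul, sub_eq_zero] at h5
        exact h5
      have h6 := fun l => eq_smul_sig (h2 l)
      have h7 := hind (fun l => (mu * lam l).coeff 1) (by
        rw [Finset.smul_sum]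
        calc ∑ l, sig k C • algebraMap k (MonoidAlgebra k C) ((mu * lam l).coeff 1) • v l
            = ∑ l, mu • lam l • v l := by
              refine Finset.sum_congr rfl fun l _ => ?_
              rw [smul_smul, smul_smul, mul_comm (sig k C), ← h6 l]
          _ = mu • ∑ l, lam l • v l := by rw [Finset.smul_sum]
          _ = 0 := by rw [hlam, smul_zero])
      apply hl1
      rw [h6 l1]
      have h8 := congrFun h7 l1
      simp only [Pi.zero_apply] at h8
      rw [h8, map_zero, zero_mul]
  · set N := Submodule.span (MonoidAlgebra k C) (Set.range v) with hN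
    have h1 : (⊤ : Submodule (MonoidAlgebra k C) M) ≤ N ⊔ J • ⊤ := by
      intro m _
      obtain ⟨c, hc⟩ := hspan m
      have h2 : m = (∑ l, algebraMap k (MonoidAlgebra k C) (c l) • v l) +
        (m - ∑ l, algebraMap k (MonoidAlgebra k C) (c l) • v l) := by abel
      rw [h2]
      apply Submodule.add_mem_sup _ hc
      exact Submodule.sum_mem _ fun l _ => Submodule.smul_mem _ _ (Submodule.subset_span ⟨l, rfl⟩)
    have h2 : ∀ m : ℕ, (⊤ : Submodule (MonoidAlgebra k C) M) ≤ N ⊔ J ^ m • ⊤ := by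
      intro m
      induction m with
      | zero => simp
      | succ m ih =>
        calc (⊤ : Submodule (MonoidAlgebra k C) M) ≤ N ⊔ J • ⊤ := h1
          _ ≤ N ⊔ J • (N ⊔ J ^ m • ⊤) := sup_le_sup_left (Submodule.smul_mono le_rfl ih) _
          _ = N ⊔ (J • N ⊔ J ^ (m + 1) • ⊤) := by
              rw [Submodule.smul_sup, ← Submodule.mul_smul, ← pow_succ']
          _ ≤ N ⊔ J ^ (m + 1) • ⊤ := by
              refine sup_le le_sup_left (sup_le ?_ le_sup_right)
              exact Submodule.smul_le_right.trans le_sup_left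
    have h3 := h2 n
    rw [hn] at h3
    simpa using h3

end Lam

end Vale.Agent.P180.KP
end
end

section

section

set_option linter.style.haveILetI false

namespace Vale.Agent.P180.KP

open scoped Classical

section Mat

variable {k : Type*} [Field k] {d : ℕ} [NeZero d]

/-- The space of matrices `M` with `P M = M = M E₀₀`. -/
def colSpace (P : Matrix (Fin d) (Fin d) k) : Submodule k (Matrix (Fin d) (Fin d) k) where
  carrier := {M | P * M = M ∧ M * Matrix.single 0 0 1 = M}
  add_mem' := by
    rintro a b ⟨h1, h2⟩ ⟨h3, h4⟩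
    exact ⟨by rw [mul_add, h1, h3], by rw [add_mul, h2, h4]⟩
  zero_mem' := ⟨by simp, by simp⟩
  smul_mem' := by
    rintro c a ⟨h1, h2⟩
    exact ⟨by rw [mul_smul_comm, h1], by rw [smul_mul_assoc, h2]⟩

theorem mem_colSpace {P M : Matrix (Fin d) (Fin d) k} :
    M ∈ colSpace P ↔ P * M = M ∧ M * Matrix.single 0 0 1 = M := Iff.rfl

theorem entry_of_mem {M : Matrix (Fin d) (Fin d) k} (h : M * Matrix.single 0 0 1 = M)
    (a b : Fin d) (hb : b ≠ 0) : M a b = 0 := by
  rw [← h, Matrix.mul_single_apply_of_ne]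
  exact hb

theorem finrank_colSpace {P : Matrix (Fin d) (Fin d) k} (hP : P * P = P) :
    (Module.finrank k (colSpace P) : k) = P.trace := by
  have hidem : IsIdempotentElem (Matrix.toLin' P) := by
    change Matrix.toLin' P * Matrix.toLin' P = _
    rw [Module.End.mul_eq_comp, ← Matrix.toLin'_mul, hP]
  have hproj := LinearMap.IsIdempotentElem.isProj_range _ hidem
  have htr := hproj.trace
  rw [Matrix.trace_toLin'_eq] at htr
  rw [htr]
  congr 1
  apply LinearEquiv.finrank_eq
  refine
    { toFun := fun M => ⟨fun a => (M : Matrix (Fin d) (Fin d) k) a 0, ?_⟩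
      map_add' := fun _ _ => rfl
      map_smul' := fun _ _ => rfl
      invFun := fun w => ⟨Matrix.of fun a b => if b = 0 then (w : Fin d → k) a else 0, ?_, ?_⟩
      left_inv := ?_
      right_inv := ?_ }
  · refine ⟨fun a => (M : Matrix (Fin d) (Fin d) k) a 0, ?_⟩
    rw [Matrix.toLin'_apply]
    funext a
    have := congrFun (congrFun M.2.1 a) 0
    rw [Matrix.mul_apply] at this
    exact this
  · obtain ⟨w, x, hx⟩ := w
    rw [Matrix.toLin'_apply] at hx
    have hw : P.mulVec w = w := by rw [← hx, Matrix.mulVec_mulVec, hP]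
    ext a b
    rw [Matrix.mul_apply]
    by_cases hb : b = 0
    · simp only [Matrix.of_apply, if_pos hb]
      exact congrFun hw a
    · simp [hb]
  · ext a b
    by_cases hb : b = 0
    · subst hb
      rw [Matrix.mul_single_apply_same]
      simp
    · rw [Matrix.mul_single_apply_of_ne]
      · simp [hb]
      · exact hb
  · intro M
    apply Subtype.ext
    ext a b
    by_cases hb : b = 0
    · subst hb; simp
    · simp only [Matrix.of_apply, if_neg hb]
      exact (entry_of_mem M.2.2 a b hb).symm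
  · intro w
    apply Subtype.ext
    funext a
    simp

theorem trace_unique (τ : Matrix (Fin d) (Fin d) k →ₗ[k] k) (hτ : ∀ A B, τ (A * B) = τ (B * A)) :
    ∃ c : k, ∀ A, τ A = c * A.trace := by
  refine ⟨τ (Matrix.single 0 0 1), fun A => ?_⟩
  have h1 : ∀ a b : Fin d, a ≠ b → τ (Matrix.single a b 1) = 0 := by
    intro a b hab
    have h2 := hτ (Matrix.single a a 1) (Matrix.single a b 1)
    rw [Matrix.single_mul_single_same, Matrix.single_mul_single_of_ne _ _ _ _ hab.symm, map_zero,
      mul_one] at h2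
    exact h2
  have h3 : ∀ a : Fin d, τ (Matrix.single a a 1) = τ (Matrix.single 0 0 1) := by
    intro a
    have h2 := hτ (Matrix.single a 0 1) (Matrix.single 0 a 1)
    rw [Matrix.single_mul_single_same, Matrix.single_mul_single_same, mul_one] at h2
    exact h2
  conv_lhs => rw [Matrix.matrix_eq_sum_single A]
  rw [map_sum]
  simp only [map_sum]
  rw [Matrix.trace, Finset.mul_sum]
  refine Finset.sum_congr rfl fun a _ => ?_
  rw [Finset.sum_eq_single a]
  · have : Matrix.single a a (A a a) = A a a • Matrix.single a a (1 : k) := by simp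
    rw [this, map_smul, h3, smul_eq_mul, mul_comm]
    rfl
  · intro b _ hb
    have : Matrix.single a b (A a b) = A a b • Matrix.single a b (1 : k) := by simp
    rw [this, map_smul, h1 a b hb.symm, smul_zero]
  · intro h; exact absurd (Finset.mem_univ a) h

theorem trace_nilpotent {A : Matrix (Fin d) (Fin d) k} (h : IsNilpotent A) : A.trace = 0 :=
  (Matrix.isNilpotent_trace_of_isNilpotent h).eq_zero

end Mat

end Vale.Agent.P180.KP
end
end

section

section

namespace Vale.Agent.P180

set_option linter.unusedSectionVars false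

section SubAlg

variable {k : Type*} [Field k] {G : Type*} [Group G]

/-- `a` is supported in the set `S`. -/
def SuppIn (S : Set G) (a : MonoidAlgebra k G) : Prop := ∀ x, a.coeff x ≠ 0 → x ∈ S

theorem SuppIn.mono {S T : Set G} (h : S ⊆ T) {a : MonoidAlgebra k G} (ha : SuppIn S a) :
    SuppIn T a := fun x hx => h (ha x hx)

theorem SuppIn.add {S : Set G} {a b : MonoidAlgebra k G} (ha : SuppIn S a) (hb : SuppIn S b) :
    SuppIn S (a + b) := by
  intro x hx
  by_contra hxN
  apply hx
  have h1 : a.coeff x = 0 := by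
    by_contra h; exact hxN (ha x h)
  have h2 : b.coeff x = 0 := by
    by_contra h; exact hxN (hb x h)
  simp [h1, h2]

theorem SuppIn.smul {S : Set G} {a : MonoidAlgebra k G} (c : k) (ha : SuppIn S a) :
    SuppIn S (c • a) := by
  intro x hx
  apply ha x
  intro h
  apply hx
  simp [h]

theorem SuppIn.mul {S T U : Set G} {a b : MonoidAlgebra k G} (ha : SuppIn S a) (hb : SuppIn T b)
    (h : ∀ s ∈ S, ∀ t ∈ T, s * t ∈ U) : SuppIn U (a * b) := by
  intro x hx
  by_contra hxU
  apply hx
  rw [MonoidAlgebra.coeff_mul_apply_left]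
  apply Finset.sum_eq_zero
  intro y hy
  have hy1 : a.coeff y ≠ 0 := by simpa using hy
  have h2 : b.coeff (y⁻¹ * x) = 0 := by
    by_contra h3
    apply hxU
    have := h y (ha y hy1) _ (hb _ h3)
    rwa [mul_inv_cancel_left] at this
  simp [h2]

theorem SuppIn.single {S : Set G} {x : G} (hx : x ∈ S) (c : k) :
    SuppIn S (MonoidAlgebra.single x c) := by
  classical
  intro y hy
  rw [MonoidAlgebra.coeff_single, Finsupp.single_apply] at hy
  split_ifs at hy with h
  · rwa [← h]
  · exact absurd rfl hy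

theorem SuppIn.conj {S T : Set G} {a : MonoidAlgebra k G} (ha : SuppIn S a) (g : G)
    (h : ∀ s ∈ S, g * s * g⁻¹ ∈ T) : SuppIn T (cj k G g a) := by
  intro x hx
  rw [cj_coeff] at hx
  have := h _ (ha _ hx)
  simpa [mul_assoc] using this

/-- The subalgebra `kN` of `kG`. -/
noncomputable def SubAlg (k : Type*) [Field k] {G : Type*} [Group G] (N : Subgroup G) :
    Subalgebra k (MonoidAlgebra k G) where
  carrier := {a | SuppIn (N : Set G) a}
  mul_mem' := fun ha hb => SuppIn.mul ha hb fun _ hs _ ht => N.mul_mem hs ht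
  add_mem' := fun ha hb => SuppIn.add ha hb
  algebraMap_mem' := fun r => by
    change SuppIn (N : Set G) (algebraMap k (MonoidAlgebra k G) r)
    rw [Algebra.algebraMap_eq_smul_one, MonoidAlgebra.one_def]
    exact (SuppIn.single N.one_mem 1).smul r

theorem SubAlg_mono {N M : Subgroup G} (h : N ≤ M) : SubAlg k N ≤ SubAlg k M :=
  fun _ ha => SuppIn.mono h ha

theorem SubAlg_top (a : MonoidAlgebra k G) : a ∈ SubAlg k (⊤ : Subgroup G) := fun _ _ => trivial

theorem single_mem_SubAlg {N : Subgroup G} {x : G} (hx : x ∈ N) (c : k) :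
    MonoidAlgebra.single x c ∈ SubAlg k N := SuppIn.single hx c

theorem sum_single_eq (a : MonoidAlgebra k G) :
    a = ∑ x ∈ a.coeff.support, a.coeff x • MonoidAlgebra.single x (1 : k) := by
  apply MonoidAlgebra.coeff_injective
  conv_lhs => rw [← Finsupp.sum_single a.coeff]
  rw [MonoidAlgebra.coeff_sum]
  simp [Finsupp.sum]

theorem SuppIn.induction {S : Set G} {P : MonoidAlgebra k G → Prop} {a : MonoidAlgebra k G}
    (ha : SuppIn S a) (h0 : P 0) (hadd : ∀ a b, P a → P b → P (a + b))
    (hs : ∀ x ∈ S, ∀ c : k, P (c • MonoidAlgebra.single x 1)) : P a := by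
  classical
  rw [sum_single_eq a]
  have : ∀ t : Finset G, t ⊆ a.coeff.support →
      P (∑ x ∈ t, a.coeff x • MonoidAlgebra.single x (1 : k)) := by
    intro t
    induction t using Finset.induction_on with
    | empty => intro _; simpa using h0
    | insert x t hx ih =>
      intro ht
      rw [Finset.sum_insert hx]
      refine hadd _ _ (hs x (ha x ?_) _) (ih fun y hy => ht (Finset.mem_insert_of_mem hy))
      have := ht (Finset.mem_insert_self x t)
      simpa using this
  exact this _ (Finset.Subset.refl _)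

theorem cj_mul_single (g : G) (a : MonoidAlgebra k G) :
    cj k G g a * MonoidAlgebra.single g 1 = MonoidAlgebra.single g 1 * a := by
  rw [cj_eq, mul_assoc, MonoidAlgebra.single_mul_single, inv_mul_cancel, one_mul,
    ← MonoidAlgebra.one_def, mul_one]

theorem mem_Fix_cj_iff {N : Subgroup G} {a : MonoidAlgebra k G} :
    a ∈ Fix (cj k G) N ↔ ∀ x ∈ N, MonoidAlgebra.single x 1 * a = a * MonoidAlgebra.single x 1 := by
  constructor
  · intro h x hx
    rw [← cj_mul_single, h x hx]
  · intro h x hx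
    rw [cj_eq, h x hx, mul_assoc, MonoidAlgebra.single_mul_single, mul_inv_cancel, one_mul,
      ← MonoidAlgebra.one_def, mul_one]

theorem commute_of_mem {N : Subgroup G} {a b : MonoidAlgebra k G} (ha : a ∈ SubAlg k N)
    (hb : b ∈ Fix (cj k G) N) : a * b = b * a := by
  refine SuppIn.induction (P := fun a => a * b = b * a) ha (by simp) ?_ ?_
  · intro x y hx hy
    rw [add_mul, mul_add, hx, hy]
  · intro x hx c
    rw [smul_mul_assoc, mul_smul_comm, mem_Fix_cj_iff.mp hb x hx]

theorem mem_center_iff_Fix_top {a : MonoidAlgebra k G} :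
    a ∈ Subalgebra.center k (MonoidAlgebra k G) ↔ a ∈ Fix (cj k G) ⊤ := by
  rw [Subalgebra.mem_center_iff]
  constructor
  · intro h
    exact mem_Fix_cj_iff.mpr fun x _ => h _
  · intro h b
    exact commute_of_mem (SubAlg_top b) h

/-- The centre of `kN`, inside `kG`. -/
noncomputable def ZAlg (k : Type*) [Field k] {G : Type*} [Group G] (N : Subgroup G) :
    Subalgebra k (MonoidAlgebra k G) := SubAlg k N ⊓ Fix (cj k G) N

theorem mem_ZAlg {N : Subgroup G} {a : MonoidAlgebra k G} :
    a ∈ ZAlg k N ↔ a ∈ SubAlg k N ∧ a ∈ Fix (cj k G) N := Iff.rfl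

theorem ZAlg_comm {N : Subgroup G} : ∀ a ∈ ZAlg k N, ∀ b ∈ ZAlg k N, a * b = b * a :=
  fun _ ha _ hb => commute_of_mem ha.1 hb.2

theorem ZAlg_top : ZAlg k (⊤ : Subgroup G) = Subalgebra.center k (MonoidAlgebra k G) := by
  ext a
  rw [mem_center_iff_Fix_top, mem_ZAlg]
  exact ⟨fun h => h.2, fun h => ⟨SubAlg_top a, h⟩⟩

theorem cj_mem_ZAlg {N : Subgroup G} [N.Normal] (g : G) {a : MonoidAlgebra k G}
    (ha : a ∈ ZAlg k N) : cj k G g a ∈ ZAlg k N := by
  refine ⟨SuppIn.conj ha.1 g fun s hs => ‹N.Normal›.conj_mem s hs g, ?_⟩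
  exact conj_mem_Fix ha.2 g fun h hh => by
    simpa using ‹N.Normal›.conj_mem h hh g⁻¹

/-- `e` is a block idempotent of `kN`, inside `kG`. -/
abbrev IsBlockOf (N : Subgroup G) (e : MonoidAlgebra k G) : Prop := IsPrimIn (ZAlg k N) e

theorem IsBlockOf.conj {N : Subgroup G} [N.Normal] (g : G) {e : MonoidAlgebra k G}
    (he : IsBlockOf N e) : IsBlockOf N (cj k G g e) where
  mem := cj_mem_ZAlg g he.mem
  idem := by
    change cj k G g e * cj k G g e = cj k G g e
    rw [← map_mul, he.idem.eq]
  ne_zero := by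
    intro h
    exact he.ne_zero ((map_eq_zero_iff _ (cj k G g).injective).mp h)
  primitive := by
    intro c hc hcc hce
    have h1 : cj k G g⁻¹ c * e = cj k G g⁻¹ c := by
      conv_lhs => rw [← map_inv_act (cj k G) g e]
      rw [← map_mul, hce]
    have h2 : IsIdempotentElem (cj k G g⁻¹ c) := by
      change cj k G g⁻¹ c * cj k G g⁻¹ c = _
      rw [← map_mul, hcc.eq]
    rcases he.primitive _ (cj_mem_ZAlg g⁻¹ hc) h2 h1 with h | h
    · left
      exact (map_eq_zero_iff _ (cj k G g⁻¹).injective).mp h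
    · right
      rw [← h, map_act_inv]

theorem IsPrimIn.eq_or_mul_eq_zero {A : Type*} [Ring A] [Algebra k A] {S : Subalgebra k A}
    (hS : ∀ x ∈ S, ∀ y ∈ S, x * y = y * x) {e f : A} (he : IsPrimIn S e) (hf : IsPrimIn S f) :
    e = f ∨ e * f = 0 := by
  by_cases h : e * f = 0
  · exact Or.inr h
  · left
    have h1 : IsIdempotentElem (e * f) := by
      change e * f * (e * f) = e * f
      rw [mul_assoc, ← mul_assoc f, hS f hf.mem e he.mem, mul_assoc, hf.idem.eq, ← mul_assoc,
        he.idem.eq]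
    have h2 : e * f * f = e * f := by rw [mul_assoc, hf.idem.eq]
    have h3 : e * f * e = e * f := by
      rw [mul_assoc, hS f hf.mem e he.mem, ← mul_assoc, he.idem.eq]
    rcases he.primitive _ (S.mul_mem he.mem hf.mem) h1 h3 with h4 | h4
    · exact absurd h4 h
    · rcases hf.primitive _ (S.mul_mem he.mem hf.mem) h1 h2 with h5 | h5
      · exact absurd h5 h
      · rw [← h4, h5]

end SubAlg

section BlockTop

universe u

variable {k : Type u} [Field k] {G : Type} [Group G]

theorem isBlock_iff {b : MonoidAlgebra k G} : IsBlock b ↔ IsBlockOf ⊤ b := by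
  constructor
  · intro h
    refine ⟨?_, h.idem, h.ne_zero, ?_⟩
    · rw [ZAlg_top]; exact h.central
    · intro c hc
      rw [ZAlg_top] at hc
      exact h.primitive c hc
  · intro h
    have h1 := h.mem
    rw [ZAlg_top] at h1
    refine ⟨h1, h.idem, h.ne_zero, ?_⟩
    intro c hc
    exact h.primitive c (by rw [ZAlg_top]; exact hc)

end BlockTop

end Vale.Agent.P180
end
end

section

section

namespace Vale.Agent.P180

set_option linter.unusedSectionVars false

theorem exists_segment {Q : Type*} [Group Q] [Fintype Q] (l : List Q)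
    (h : Fintype.card Q ≤ l.length) :
    ∃ l1 l2 l3 : List Q, l = l1 ++ l2 ++ l3 ∧ l2 ≠ [] ∧ l2.prod = 1 := by
  have h1 : Fintype.card Q < Fintype.card (Fin (l.length + 1)) := by
    rw [Fintype.card_fin]; omega
  obtain ⟨i, j, hij, hp⟩ := Fintype.exists_ne_map_eq_of_card_lt
    (fun i : Fin (l.length + 1) => (l.take i.1).prod) h1
  wlog hlt : i.1 < j.1 generalizing i j
  · refine this j i hij.symm hp.symm ?_
    have : i.1 ≠ j.1 := fun h => hij (Fin.ext h)
    omega
  refine ⟨l.take i.1, (l.take j.1).drop i.1, l.drop j.1, ?_, ?_, ?_⟩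
  · have h2 : l.take i.1 = (l.take j.1).take i.1 := by
      rw [List.take_take, min_eq_left hlt.le]
    rw [h2, List.take_append_drop, List.take_append_drop]
  · intro h3
    have h4 := congrArg List.length h3
    simp only [List.length_drop, List.length_take, List.length_nil] at h4
    have := j.2
    omega
  · have h2 : (l.take i.1).prod * ((l.take j.1).drop i.1).prod = (l.take j.1).prod := by
      have h2' : l.take i.1 = (l.take j.1).take i.1 := by
        rw [List.take_take, min_eq_left hlt.le]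
      rw [h2', ← List.prod_append, List.take_append_drop]
    rw [← hp] at h2
    exact mul_eq_left.mp h2

section Comp

variable {k : Type*} [Field k] {G : Type*} [Group G]

open scoped Classical in
/-- The component of `a` in the coset `c`. -/
noncomputable def comp (N : Subgroup G) (c : G ⧸ N) :
    MonoidAlgebra k G →ₗ[k] MonoidAlgebra k G where
  toFun a := MonoidAlgebra.ofCoeff (a.coeff.filter fun x : G => (x : G ⧸ N) = c)
  map_add' a b := by
    apply MonoidAlgebra.coeff_injective
    simp [Finsupp.filter_add]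
  map_smul' r a := by
    apply MonoidAlgebra.coeff_injective
    simp [Finsupp.filter_smul]

open scoped Classical in
theorem comp_coeff (N : Subgroup G) (c : G ⧸ N) (a : MonoidAlgebra k G) (x : G) :
    (comp N c a).coeff x = if (x : G ⧸ N) = c then a.coeff x else 0 := by
  change (a.coeff.filter fun x : G => (x : G ⧸ N) = c) x = _
  rw [Finsupp.filter_apply]

/-- The coset `c` as a subset. -/
def cst (N : Subgroup G) (c : G ⧸ N) : Set G := {x | (x : G ⧸ N) = c}

theorem comp_supp (N : Subgroup G) (c : G ⧸ N) (a : MonoidAlgebra k G) :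
    SuppIn (cst N c) (comp N c a) := by
  classical
  intro x hx
  rw [comp_coeff] at hx
  by_contra h
  exact hx (if_neg h)

theorem comp_of_supp (N : Subgroup G) (c : G ⧸ N) {a : MonoidAlgebra k G}
    (ha : SuppIn (cst N c) a) : comp N c a = a := by
  classical
  apply MonoidAlgebra.coeff_injective
  ext x
  rw [comp_coeff]
  split_ifs with h
  · rfl
  · by_contra h1
    exact h (ha x (Ne.symm h1))

theorem comp_of_supp_ne (N : Subgroup G) {c d : G ⧸ N} (hcd : d ≠ c) {a : MonoidAlgebra k G}
    (ha : SuppIn (cst N d) a) : comp N c a = 0 := by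
  classical
  apply MonoidAlgebra.coeff_injective
  ext x
  rw [comp_coeff]
  split_ifs with h
  · by_contra h1
    exact hcd ((ha x h1).symm.trans h)
  · rfl

theorem sum_comp (N : Subgroup G) [Fintype (G ⧸ N)] (a : MonoidAlgebra k G) :
    ∑ c, comp N c a = a := by
  classical
  apply MonoidAlgebra.coeff_injective
  ext x
  rw [MonoidAlgebra.coeff_sum, Finsupp.finsetSum_apply]
  simp only [comp_coeff]
  rw [Finset.sum_ite_eq]
  simp

theorem comp_cj (N : Subgroup G) [N.Normal] (c : G ⧸ N) {n : G} (hn : n ∈ N)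
    (a : MonoidAlgebra k G) : comp N c (cj k G n a) = cj k G n (comp N c a) := by
  classical
  apply MonoidAlgebra.coeff_injective
  ext x
  rw [comp_coeff, cj_coeff, cj_coeff, comp_coeff]
  have h : ((n⁻¹ * x * n : G) : G ⧸ N) = (x : G ⧸ N) := by
    have h1 : ((n : G) : G ⧸ N) = 1 := (QuotientGroup.eq_one_iff n).mpr hn
    rw [QuotientGroup.mk_mul, QuotientGroup.mk_mul, QuotientGroup.mk_inv, h1]
    simp
  rw [h]

theorem mul_supp_cst {N : Subgroup G} [N.Normal] {c d : G ⧸ N} {a b : MonoidAlgebra k G}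
    (ha : SuppIn (cst N c) a) (hb : SuppIn (cst N d) b) : SuppIn (cst N (c * d)) (a * b) := by
  refine ha.mul hb ?_
  intro s hs t ht
  change ((s * t : G) : G ⧸ N) = c * d
  rw [QuotientGroup.mk_mul, show ((s : G) : G ⧸ N) = c from hs, show ((t : G) : G ⧸ N) = d from ht]

theorem comp_mul_left [Finite G] {N : Subgroup G} [N.Normal] {e : MonoidAlgebra k G}
    (he : e ∈ SubAlg k N) (c : G ⧸ N) (a : MonoidAlgebra k G) :
    comp N c (e * a) = e * comp N c a := by
  classical
  have _ := Fintype.ofFinite (G ⧸ N)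
  have he' : SuppIn (cst N 1) e := fun x hx => (QuotientGroup.eq_one_iff x).mpr (he x hx)
  conv_lhs => rw [← sum_comp N a]
  rw [Finset.mul_sum, map_sum, Finset.sum_eq_single c]
  · apply comp_of_supp
    have := mul_supp_cst he' (comp_supp N c a)
    rwa [one_mul] at this
  · intro d _ hd
    apply comp_of_supp_ne N hd
    have := mul_supp_cst he' (comp_supp N d a)
    rwa [one_mul] at this
  · intro h
    exact absurd (Finset.mem_univ c) h

theorem mem_SubAlg_iff_cst {N : Subgroup G} [N.Normal] {a : MonoidAlgebra k G} :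
    a ∈ SubAlg k N ↔ SuppIn (cst N 1) a := by
  constructor
  · intro h x hx
    exact (QuotientGroup.eq_one_iff x).mpr (h x hx)
  · intro h x hx
    exact (QuotientGroup.eq_one_iff x).mp (h x hx)

theorem comp_mem_Fix {N R : Subgroup G} [N.Normal] (hR : R ≤ N) (c : G ⧸ N)
    {a : MonoidAlgebra k G} (ha : a ∈ Fix (cj k G) R) : comp N c a ∈ Fix (cj k G) R := by
  intro x hx
  rw [← comp_cj N c (hR hx), ha x hx]

theorem comp_tr [Finite G] {N R : Subgroup G} [N.Normal] (c : G ⧸ N)
    (a : MonoidAlgebra k G) : comp N c (tr (cj k G) R N a) = tr (cj k G) R N (comp N c a) := by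
  let _ := Fintype.ofFinite (N ⧸ R.subgroupOf N)
  rw [tr_def, tr_def, map_sum]
  exact Finset.sum_congr rfl fun q _ => comp_cj N c (q.out : N).2 a

theorem tr_supp [Finite G] {N R : Subgroup G} [N.Normal] {c : G ⧸ N} {a : MonoidAlgebra k G}
    (ha : SuppIn (cst N c) a) : SuppIn (cst N c) (tr (cj k G) R N a) := by
  rw [← comp_of_supp N c ha, ← comp_tr]
  exact comp_supp N c _

end Comp

section Nil

variable {k : Type*} [Field k] {G : Type*} [Group G]

/-- The nilpotent elements of the centre of `kN`. -/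
noncomputable def nilZ (k : Type*) [Field k] {G : Type*} [Group G] (N : Subgroup G) :
    Submodule k (MonoidAlgebra k G) where
  carrier := {z | z ∈ ZAlg k N ∧ IsNilpotent z}
  zero_mem' := ⟨(ZAlg k N).zero_mem, IsNilpotent.zero⟩
  add_mem' := by
    rintro a b ⟨ha, ha'⟩ ⟨hb, hb'⟩
    exact ⟨(ZAlg k N).add_mem ha hb, Commute.isNilpotent_add (ZAlg_comm a ha b hb) ha' hb'⟩
  smul_mem' := by
    rintro c a ⟨ha, ha'⟩
    exact ⟨(ZAlg k N).smul_mem ha c, ha'.smul c⟩

theorem nilradical_map_pow {S A : Type*} [CommRing S] [Algebra k S] [Module.Finite k S] [Ring A]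
    [Algebra k A] (f : S →ₐ[k] A) :
    ∃ n, (((nilradical S).restrictScalars k).map f.toLinearMap) ^ n = ⊥ := by
  have hnoe : IsNoetherianRing S := isNoetherian_of_tower k (inferInstance : IsNoetherian k S)
  obtain ⟨n, hn⟩ := IsNoetherianRing.isNilpotent_nilradical S
  have key : ∀ m : ℕ, (((nilradical S).restrictScalars k).map f.toLinearMap) ^ m ≤
      (((nilradical S) ^ m).restrictScalars k).map f.toLinearMap := by
    intro m
    induction m with
    | zero =>
      rw [pow_zero, pow_zero, Submodule.one_le]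
      exact ⟨1, by simp, by simp⟩
    | succ m ih =>
      rw [pow_succ, Submodule.mul_le]
      intro x hx y hy
      obtain ⟨a, ha, rfl⟩ := ih hx
      obtain ⟨b, hb, rfl⟩ := hy
      refine ⟨a * b, ?_, by simp⟩
      rw [pow_succ]
      exact Ideal.mul_mem_mul ha hb
  refine ⟨n, ?_⟩
  rw [eq_bot_iff]
  refine (key n).trans ?_
  rw [hn]
  rintro _ ⟨a, ha, rfl⟩
  have : a = 0 := ha
  simp [this]

theorem nilZ_pow_eq_bot [Finite G] (N : Subgroup G) : ∃ n, nilZ k N ^ n = ⊥ := by
  let _ : CommRing (ZAlg k N) :=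
    { (inferInstance : Ring (ZAlg k N)) with
      mul_comm := fun a b => Subtype.ext (ZAlg_comm a.1 a.2 b.1 b.2) }
  obtain ⟨n, hn⟩ := nilradical_map_pow (k := k) (ZAlg k N).val
  refine ⟨n, ?_⟩
  rw [← hn]
  congr 1
  ext z
  constructor
  · rintro ⟨hz, hz'⟩
    refine ⟨⟨z, hz⟩, ?_, rfl⟩
    obtain ⟨m, hm⟩ := hz'
    exact ⟨m, Subtype.ext hm⟩
  · rintro ⟨⟨a, ha⟩, ⟨m, hm⟩, rfl⟩
    exact ⟨ha, m, congrArg Subtype.val hm⟩

theorem top_mul_nilZ_le (N : Subgroup G) [N.Normal] :
    (⊤ : Submodule k (MonoidAlgebra k G)) * nilZ k N ≤ nilZ k N * ⊤ := by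
  rw [Submodule.mul_le]
  intro a _ z hz
  have ha : SuppIn (Set.univ : Set G) a := fun _ _ => trivial
  refine SuppIn.induction (P := fun a => a * z ∈ nilZ k N * ⊤) ha ?_ ?_ ?_
  · simp
  · intro x y hx hy
    rw [add_mul]
    exact Submodule.add_mem _ hx hy
  · intro x _ c
    rw [smul_mul_assoc, ← cj_mul_single]
    refine Submodule.smul_mem _ _ (Submodule.mul_mem_mul ⟨cj_mem_ZAlg x hz.1, ?_⟩ trivial)
    exact hz.2.map (cj k G x)

theorem nilTop_pow_le (N : Subgroup G) [N.Normal] (n : ℕ) :
    (nilZ k N * (⊤ : Submodule k (MonoidAlgebra k G))) ^ n ≤ nilZ k N ^ n * ⊤ := by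
  have htt : (⊤ : Submodule k (MonoidAlgebra k G)) * ⊤ ≤ ⊤ := le_top
  induction n with
  | zero =>
    rw [pow_zero, pow_zero, one_mul]
    exact le_top
  | succ n ih =>
    calc (nilZ k N * (⊤ : Submodule k (MonoidAlgebra k G))) ^ (n + 1)
        = (nilZ k N * ⊤) ^ n * (nilZ k N * ⊤) := pow_succ _ _
      _ ≤ (nilZ k N ^ n * ⊤) * (nilZ k N * ⊤) := by gcongr
      _ = nilZ k N ^ n * (⊤ * nilZ k N) * ⊤ := by simp only [mul_assoc]
      _ ≤ nilZ k N ^ n * (nilZ k N * ⊤) * ⊤ :=
          mul_le_mul' (mul_le_mul' le_rfl (top_mul_nilZ_le (k := k) N)) le_rfl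
      _ = nilZ k N ^ (n + 1) * (⊤ * ⊤) := by rw [pow_succ]; simp only [mul_assoc]
      _ ≤ nilZ k N ^ (n + 1) * ⊤ := by gcongr

theorem nilTop_nilpotent [Finite G] (N : Subgroup G) [N.Normal] :
    ∃ n, (nilZ k N * (⊤ : Submodule k (MonoidAlgebra k G))) ^ n = ⊥ := by
  obtain ⟨n, hn⟩ := nilZ_pow_eq_bot (k := k) N
  refine ⟨n, ?_⟩
  rw [eq_bot_iff]
  refine (nilTop_pow_le N n).trans ?_
  rw [hn, Submodule.bot_mul]

theorem mul_nilTop_mem (N : Subgroup G) [N.Normal] {x z y : MonoidAlgebra k G}
    (hz : z ∈ nilZ k N * (⊤ : Submodule k (MonoidAlgebra k G))) :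
    x * z * y ∈ nilZ k N * (⊤ : Submodule k (MonoidAlgebra k G)) := by
  have h1 : x * z * y ∈ ⊤ * (nilZ k N * (⊤ : Submodule k (MonoidAlgebra k G))) * ⊤ :=
    Submodule.mul_mem_mul (Submodule.mul_mem_mul trivial hz) trivial
  have h2 : ⊤ * (nilZ k N * (⊤ : Submodule k (MonoidAlgebra k G))) * ⊤ ≤ nilZ k N * ⊤ := by
    calc ⊤ * (nilZ k N * (⊤ : Submodule k (MonoidAlgebra k G))) * ⊤
        = (⊤ * nilZ k N) * (⊤ * ⊤) := by simp only [mul_assoc]
      _ ≤ (nilZ k N * ⊤) * ⊤ := mul_le_mul' (top_mul_nilZ_le (k := k) N) le_top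
      _ = nilZ k N * (⊤ * ⊤) := by simp only [mul_assoc]
      _ ≤ nilZ k N * ⊤ := mul_le_mul' le_rfl le_top
  exact h2 h1

end Nil

section Covering

variable {k : Type*} [Field k] {G : Type*} [Group G] [Finite G]

/-- The graded pieces of the trace ideal. -/
noncomputable def trI {ι : Type*} (s : Finset ι) (R : ι → Subgroup G) (N : Subgroup G)
    (e : MonoidAlgebra k G) (c : G ⧸ N) : Submodule k (MonoidAlgebra k G) :=
  Submodule.span k {t | ∃ i ∈ s, ∃ y ∈ Fix (cj k G) (R i), SuppIn (cst N c) y ∧ e * y = y ∧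
    t = tr (cj k G) (R i) N y}

theorem trI_mul {ι : Type*} {s : Finset ι} {R : ι → Subgroup G} {N : Subgroup G} [N.Normal]
    (hR : ∀ i ∈ s, R i ≤ N) {e : MonoidAlgebra k G} {c d : G ⧸ N} {t v : MonoidAlgebra k G}
    (ht : t ∈ trI s R N e c) (hv : v ∈ Fix (cj k G) N) (hv' : SuppIn (cst N d) v) :
    t * v ∈ trI s R N e (c * d) := by
  induction ht using Submodule.span_induction with
  | mem t ht =>
    obtain ⟨i, hi, y, hy, hyc, hey, rfl⟩ := ht
    rw [tr_mul hv]
    refine Submodule.subset_span ⟨i, hi, y * v, ?_, mul_supp_cst hyc hv', ?_, rfl⟩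
    · exact (Fix (cj k G) (R i)).mul_mem hy (Fix_mono _ (hR i hi) hv)
    · rw [← mul_assoc, hey]
  | zero => simp
  | add x y _ _ hx hy => rw [add_mul]; exact Submodule.add_mem _ hx hy
  | smul r x _ hx => rw [smul_mul_assoc]; exact Submodule.smul_mem _ _ hx

theorem covering_aux {ι : Type*} (s : Finset ι) (R : ι → Subgroup G) {N : Subgroup G} [N.Normal]
    (hR : ∀ i ∈ s, R i ≤ N) {e f : MonoidAlgebra k G} (he : IsBlockOf N e)
    (hf : IsIdempotentElem f) (hf0 : f ≠ 0) (hef : e * f = f) (y : ι → MonoidAlgebra k G)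
    (hy : ∀ i ∈ s, y i ∈ Fix (cj k G) (R i)) (hfy : f = ∑ i ∈ s, tr (cj k G) (R i) N (y i)) :
    ∃ i ∈ s, ∃ z ∈ SubAlg k N, z ∈ Fix (cj k G) (R i) ∧ e = tr (cj k G) (R i) N z := by
  classical
  by_contra hcon
  push Not at hcon
  have _ := Fintype.ofFinite (G ⧸ N)
  -- replace `y` by `e * y`
  have heN : e ∈ Fix (cj k G) N := he.mem.2
  have hfy' : f = ∑ i ∈ s, tr (cj k G) (R i) N (e * y i) := by
    rw [← hef]
    conv_lhs => rw [hfy]
    rw [Finset.mul_sum]
    exact Finset.sum_congr rfl fun i _ => mul_tr heN _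
  have hey : ∀ i ∈ s, e * y i ∈ Fix (cj k G) (R i) := fun i hi =>
    (Fix (cj k G) (R i)).mul_mem (Fix_mono _ (hR i hi) heN) (hy i hi)
  have hfN : f ∈ Fix (cj k G) N := by
    rw [hfy]
    exact (Fix (cj k G) N).sum_mem fun i hi => tr_mem_Fix (hy i hi)
  let β : G ⧸ N → MonoidAlgebra k G := fun c => comp N c f
  have hβI : ∀ c, β c ∈ trI s R N e c := by
    intro c
    have : β c = ∑ i ∈ s, tr (cj k G) (R i) N (comp N c (e * y i)) := by
      change comp N c f = _
      rw [hfy', map_sum]
      exact Finset.sum_congr rfl fun i _ => comp_tr c _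
    rw [this]
    refine Submodule.sum_mem _ fun i hi => Submodule.subset_span
      ⟨i, hi, _, comp_mem_Fix (hR i hi) c (hey i hi), comp_supp N c _, ?_, rfl⟩
    rw [← comp_mul_left he.mem.1, ← mul_assoc, he.idem.eq]
  have hβF : ∀ c, β c ∈ Fix (cj k G) N := fun c => comp_mem_Fix le_rfl c hfN
  have hβS : ∀ c, SuppIn (cst N c) (β c) := fun c => comp_supp N c f
  have hI1 : trI s R N e 1 ≤ nilZ k N := by
    rw [trI, Submodule.span_le]
    rintro t ⟨i, hi, z, hz, hzc, hez, rfl⟩
    have h1 : tr (cj k G) (R i) N z ∈ ZAlg k N :=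
      ⟨mem_SubAlg_iff_cst.mpr (tr_supp hzc), tr_mem_Fix hz⟩
    refine ⟨h1, ?_⟩
    have h2 : tr (cj k G) (R i) N z * e = tr (cj k G) (R i) N z := by
      rw [ZAlg_comm _ h1 _ he.mem, mul_tr heN, hez]
    rcases he.dichotomy ZAlg_comm h1 h2 with h | ⟨w, hw, _, hzw⟩
    · exact h
    · exfalso
      refine hcon i hi (z * w) ?_ ?_ ?_
      · exact (SubAlg k N).mul_mem (mem_SubAlg_iff_cst.mpr hzc) hw.1
      · exact (Fix (cj k G) (R i)).mul_mem hz (Fix_mono _ (hR i hi) hw.2)
      · rw [← tr_mul hw.2, hzw]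
  have hlist : ∀ l : List (G ⧸ N), l ≠ [] → (l.map β).prod ∈ trI s R N e l.prod := by
    intro l
    induction l using List.reverseRecOn with
    | nil => intro h; exact absurd rfl h
    | append_singleton l c ih =>
      intro _
      rw [List.map_append, List.prod_append, List.prod_append]
      simp only [List.map_cons, List.map_nil, List.prod_cons, List.prod_nil, mul_one]
      by_cases hl : l = []
      · subst hl
        simpa using hβI c
      · exact trI_mul hR (ih hl) (hβF c) (hβS c)
  have hfJ : f ∈ nilZ k N * (⊤ : Submodule k (MonoidAlgebra k G)) := by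
    have h1 : f ∈ Submodule.span k (Set.range β) := by
      rw [← sum_comp N f]
      exact Submodule.sum_mem _ fun c _ => Submodule.subset_span ⟨c, rfl⟩
    have h2 : f ∈ Submodule.span k (Set.range β) ^ (Fintype.card (G ⧸ N)) := by
      have hn : Fintype.card (G ⧸ N) ≠ 0 := Fintype.card_ne_zero
      have := Submodule.pow_mem_pow _ h1 (Fintype.card (G ⧸ N))
      obtain ⟨m, hm⟩ := Nat.exists_eq_succ_of_ne_zero hn
      rw [hm] at this ⊢
      rwa [hf.pow_succ_eq] at this
    rw [Submodule.span_pow] at h2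
    refine Submodule.span_le.mpr ?_ h2
    intro a ha
    rw [Set.mem_pow] at ha
    obtain ⟨g, rfl⟩ := ha
    have h3 : ∀ i, ∃ c, β c = (g i : MonoidAlgebra k G) := fun i => (g i).2
    choose c hc using h3
    have h4 : (List.ofFn fun i => (g i : MonoidAlgebra k G)) = (List.ofFn c).map β := by
      rw [List.map_ofFn]
      congr 1
      ext i
      simp [hc]
    rw [h4]
    obtain ⟨l1, l2, l3, hl, hl2, hp⟩ := exists_segment (List.ofFn c) (by simp)
    rw [hl, List.map_append, List.map_append, List.prod_append, List.prod_append]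
    apply mul_nilTop_mem
    have h5 := hI1 (hp ▸ hlist l2 hl2)
    rw [← mul_one (List.map β l2).prod]
    exact Submodule.mul_mem_mul h5 trivial
  obtain ⟨n, hn⟩ := nilTop_nilpotent (k := k) N
  have h6 := Submodule.pow_mem_pow _ hfJ (n + 1)
  rw [hf.pow_succ_eq, pow_succ, hn, Submodule.bot_mul] at h6
  exact hf0 h6

/-- The conjugate subgroup `x D x⁻¹`. -/
abbrev conjS (x : G) (D : Subgroup G) : Subgroup G := D.map (MulAut.conj x).toMonoidHom

theorem mem_conjS {x y : G} {D : Subgroup G} : y ∈ conjS x D ↔ x⁻¹ * y * x ∈ D := by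
  constructor
  · rintro ⟨d, hd, rfl⟩
    simpa [mul_assoc] using hd
  · intro h
    exact ⟨x⁻¹ * y * x, h, by simp [mul_assoc]⟩

theorem tr_top_eq_sum {D : Subgroup G} {a : MonoidAlgebra k G} (ha : a ∈ Fix (cj k G) D)
    [Fintype (G ⧸ D)] : tr (cj k G) D ⊤ a = ∑ q : G ⧸ D, cj k G q.out a := by
  rw [tr_eq_sum' (ι := G ⧸ D) ha (fun q => q.out) (fun _ => Subgroup.mem_top _)]
  · intro i j h
    rw [← QuotientGroup.out_eq' i, ← QuotientGroup.out_eq' j, QuotientGroup.eq]
    exact h
  · intro x _
    refine ⟨(x : G ⧸ D), ?_⟩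
    rw [← QuotientGroup.eq]
    exact QuotientGroup.out_eq' _

/-- The Mackey formula for the trace to `G`, restricted to a subgroup `K`. -/
theorem mackey {D : Subgroup G} (K : Subgroup G) {a : MonoidAlgebra k G}
    (ha : a ∈ Fix (cj k G) D) :
    ∃ (m : ℕ) (x : Fin m → G), tr (cj k G) D ⊤ a =
      ∑ i, tr (cj k G) (K ⊓ conjS (x i) D) K (cj k G (x i) a) := by
  classical
  have _ := Fintype.ofFinite (G ⧸ D)
  have _ := Fintype.ofFinite (MulAction.orbitRel.Quotient K (G ⧸ D))
  have hout : ∀ (g : G) (q : G ⧸ D), cj k G (g • q).out a = cj k G g (cj k G q.out a) := by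
    intro g q
    have h1 : ((g • q).out : G ⧸ D) = ((g * q.out : G) : G ⧸ D) := by
      rw [QuotientGroup.out_eq']
      conv_lhs => rw [← QuotientGroup.out_eq' q]
      rfl
    rw [QuotientGroup.eq] at h1
    have h2 : g * q.out = (g • q).out * ((g • q).out⁻¹ * (g * q.out)) := by group
    rw [← map_mul_act, h2, map_mul_act, ha _ h1]
  have h := sum_eq_sum_orbits (K := K) (ρ := cj k G) (Ω := G ⧸ D)
    (fun q => cj k G q.out a) (fun x q => hout x q)
  rw [tr_top_eq_sum ha, h]
  let eqv := (Fintype.equivFin (MulAction.orbitRel.Quotient K (G ⧸ D))).symm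
  refine ⟨_, fun i => ((eqv i).out).out, ?_⟩
  rw [← eqv.sum_comp]
  refine Finset.sum_congr rfl fun i _ => ?_
  congr 1
  ext y
  rw [Subgroup.mem_inf, mem_conjS]
  constructor
  · rintro ⟨z, hz, rfl⟩
    refine ⟨z.2, ?_⟩
    have hz' : z • (eqv i).out = (eqv i).out := hz
    have h1 : ((z.1 * ((eqv i).out).out : G) : G ⧸ D) = (((eqv i).out).out : G ⧸ D) := by
      conv_rhs => rw [QuotientGroup.out_eq', ← hz']
      conv_rhs => rw [← QuotientGroup.out_eq' (eqv i).out]
      rfl
    have h2 := h1.symm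
    rw [QuotientGroup.eq] at h2
    simpa [mul_assoc] using h2
  · rintro ⟨hy, hy'⟩
    refine ⟨⟨y, hy⟩, ?_, rfl⟩
    change (⟨y, hy⟩ : K) • (eqv i).out = (eqv i).out
    conv_lhs => rw [← QuotientGroup.out_eq' (eqv i).out]
    conv_rhs => rw [← QuotientGroup.out_eq' (eqv i).out]
    change ((y * ((eqv i).out).out : G) : G ⧸ D) = _
    symm
    rw [QuotientGroup.eq]
    simpa [mul_assoc] using hy'

/-- The covering lemma: if the block `b` of `G` is projective relative to `D` and covers the block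
`e` of the normal subgroup `N`, then `e` is projective relative to `N ∩ ˣD` for some `x`. -/
theorem covering {N D : Subgroup G} [N.Normal] {e b a : MonoidAlgebra k G} (he : IsBlockOf N e)
    (hb : IsIdempotentElem b) (hbe : e * b ≠ 0) (ha : a ∈ Fix (cj k G) D)
    (hba : b = tr (cj k G) D ⊤ a) :
    ∃ x : G, ∃ z ∈ SubAlg k N, z ∈ Fix (cj k G) (N ⊓ conjS x D) ∧
      e = tr (cj k G) (N ⊓ conjS x D) N z := by
  obtain ⟨m, x, hx⟩ := mackey N ha
  have hbF : b ∈ Fix (cj k G) ⊤ := by rw [hba]; exact tr_mem_Fix ha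
  have hcomm : e * b = b * e := commute_of_mem (SubAlg_top e) hbF
  have hf : IsIdempotentElem (e * b) := by
    change e * b * (e * b) = e * b
    rw [hcomm, mul_assoc, ← mul_assoc e b, hcomm, mul_assoc b e e, he.idem.eq, ← mul_assoc, hb.eq]
  have hy : ∀ i ∈ (Finset.univ : Finset (Fin m)),
      e * cj k G (x i) a ∈ Fix (cj k G) (N ⊓ conjS (x i) D) := by
    intro i _
    refine (Fix (cj k G) _).mul_mem (Fix_mono _ inf_le_left he.mem.2) ?_
    refine conj_mem_Fix ha (x i) ?_
    intro h hh
    exact mem_conjS.mp hh.2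
  have hs : e * b = ∑ i ∈ (Finset.univ : Finset (Fin m)),
      tr (cj k G) (N ⊓ conjS (x i) D) N (e * cj k G (x i) a) := by
    rw [hba, hx, Finset.mul_sum]
    exact Finset.sum_congr rfl fun i _ => mul_tr he.mem.2 _
  obtain ⟨i, _, z, hz, hzF, hez⟩ := covering_aux (k := k) (G := G) Finset.univ
    (fun i => N ⊓ conjS (x i) D) (fun i _ => inf_le_left) he hf hbe
    (by rw [← mul_assoc, he.idem.eq]) (fun i => e * cj k G (x i) a) hy hs
  exact ⟨x i, z, hz, hzF, hez⟩

end Covering

end Vale.Agent.P180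
end
end

section

section

namespace Vale.Agent.P180

universe u v w

open CategoryTheory

section CornerModule

variable {A : Type u} [Ring A] {e : A}

/-- `eM` for an `A`-module `M`. -/
def eMod (e : A) (M : Type v) [AddCommGroup M] [Module A M] : AddSubgroup M where
  carrier := {m | e • m = m}
  zero_mem' := smul_zero e
  add_mem' := by
    intro a b ha hb
    change e • (a + b) = a + b
    rw [smul_add, show e • a = a from ha, show e • b = b from hb]
  neg_mem' := by
    intro a ha
    change e • (-a) = -a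
    rw [smul_neg, show e • a = a from ha]

theorem mem_eMod {M : Type v} [AddCommGroup M] [Module A M] {m : M} :
    m ∈ eMod e M ↔ e • m = m := Iff.rfl

theorem corner_left (he : IsIdempotentElem e) (x : he.Corner) : e * x.1 = x.1 :=
  ((Subsemigroup.mem_corner_iff he).mp x.2).1

theorem corner_right (he : IsIdempotentElem e) (x : he.Corner) : x.1 * e = x.1 :=
  ((Subsemigroup.mem_corner_iff he).mp x.2).2

/-- Make an element of the corner. -/
def mkCorner (he : IsIdempotentElem e) (x : A) : he.Corner := ⟨e * x * e, ⟨x, rfl⟩⟩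

theorem mkCorner_val (he : IsIdempotentElem e) (x : A) : (mkCorner he x).1 = e * x * e := rfl

noncomputable instance eModModule (he : IsIdempotentElem e) (M : Type v) [AddCommGroup M]
    [Module A M] : Module he.Corner (eMod e M) where
  smul x m := ⟨x.1 • m.1, by
    rw [mem_eMod, ← mul_smul, corner_left he]⟩
  one_smul m := Subtype.ext m.2
  mul_smul x y m := Subtype.ext (mul_smul x.1 y.1 m.1)
  smul_zero x := Subtype.ext (smul_zero x.1)
  smul_add x m n := Subtype.ext (smul_add x.1 m.1 n.1)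
  add_smul x y m := Subtype.ext (add_smul x.1 y.1 m.1)
  zero_smul m := Subtype.ext (zero_smul A m.1)

theorem eMod_smul_coe (he : IsIdempotentElem e) {M : Type v} [AddCommGroup M]
    [Module A M] (x : he.Corner) (m : eMod e M) : ((x • m : eMod e M) : M) = x.1 • m.1 := rfl

/-- The map induced on `eM`. -/
noncomputable def eMap (he : IsIdempotentElem e) {M N : Type v} [AddCommGroup M]
    [Module A M] [AddCommGroup N] [Module A N] (f : M →ₗ[A] N) :
    eMod e M →ₗ[he.Corner] eMod e N where
  toFun m := ⟨f m.1, by rw [mem_eMod, ← map_smul, m.2]⟩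
  map_add' a b := Subtype.ext (map_add f a.1 b.1)
  map_smul' x a := Subtype.ext (map_smul f x.1 a.1)

theorem eMap_coe (he : IsIdempotentElem e) {M N : Type v} [AddCommGroup M]
    [Module A M] [AddCommGroup N] [Module A N] (f : M →ₗ[A] N) (m : eMod e M) :
    (eMap he f m : N) = f m.1 := rfl

/-- The functor `M ↦ eM`. -/
noncomputable def cornerFunctor (he : IsIdempotentElem e) :
    ModuleCat.{u} A ⥤ ModuleCat.{u} he.Corner where
  obj M := ModuleCat.of he.Corner (eMod e M)
  map f := ModuleCat.ofHom (eMap he f.hom)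
  map_id _ := rfl
  map_comp _ _ := rfl

/-- The element `e m` of `eM`. -/
def toE (he : IsIdempotentElem e) {M : Type v} [AddCommGroup M] [Module A M] (m : M) :
    eMod e M := ⟨e • m, by rw [mem_eMod, ← mul_smul, he.eq]⟩

theorem toE_coe (he : IsIdempotentElem e) {M : Type v} [AddCommGroup M] [Module A M] (m : M) :
    (toE he m : M) = e • m := rfl

variable {n : ℕ} {a b : Fin n → A}

theorem decomp (hab : ∑ i, a i * e * b i = 1) {M : Type v} [AddCommGroup M] [Module A M] (m : M) :
    ∑ i, a i • e • b i • m = m := by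
  conv_rhs => rw [← one_smul A m, ← hab, Finset.sum_smul]
  simp only [mul_smul]

theorem eMap_injective (he : IsIdempotentElem e) (hab : ∑ i, a i * e * b i = 1)
    {M N : Type v} [AddCommGroup M] [Module A M] [AddCommGroup N] [Module A N]
    {f g : M →ₗ[A] N} (hfg : eMap he f = eMap he g) : f = g := by
  ext m
  have key : ∀ y : eMod e M, f y.1 = g y.1 := by
    intro y
    rw [← eMap_coe he f, hfg, eMap_coe]
  rw [← decomp hab m, map_sum, map_sum]
  refine Finset.sum_congr rfl fun i _ => ?_
  have h := key (toE he (b i • m))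
  rw [toE_coe] at h
  rw [map_smul f (a i), map_smul g (a i), h]

theorem exists_extend (he : IsIdempotentElem e) (hab : ∑ i, a i * e * b i = 1)
    {M N : Type v} [AddCommGroup M] [Module A M] [AddCommGroup N] [Module A N]
    (h' : eMod e M →ₗ[he.Corner] eMod e N) : ∃ f : M →ₗ[A] N, eMap he f = h' := by
  let F : M → N := fun m => ∑ i, a i • (h' (toE he (b i • m)) : N)
  have hadd : ∀ x y, F (x + y) = F x + F y := by
    intro x y
    simp only [F]
    rw [← Finset.sum_add_distrib]
    refine Finset.sum_congr rfl fun i _ => ?_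
    rw [← smul_add]
    congr 1
    have : toE he (b i • (x + y)) = toE he (b i • x) + toE he (b i • y) := by
      apply Subtype.ext
      simp only [toE_coe, AddSubgroup.coe_add, smul_add]
    rw [this, map_add, AddSubgroup.coe_add]
  have hcomp : ∀ (c : A) (m : M) (j : Fin n),
      (h' (toE he (c • a j • e • m)) : N) = e • c • a j • (h' (toE he m) : N) := by
    intro c m j
    have h1 : toE he (c • a j • e • m) = mkCorner he (c * a j) • toE he m := by
      apply Subtype.ext
      rw [eMod_smul_coe, mkCorner_val, toE_coe, toE_coe]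
      simp only [← mul_smul, mul_assoc, he.eq]
    rw [h1, map_smul, eMod_smul_coe, mkCorner_val]
    have h2 : e • (h' (toE he m) : N) = (h' (toE he m) : N) := (h' (toE he m)).2
    rw [mul_smul, mul_smul, mul_smul, h2]
  have hsmul : ∀ (c : A) (m : M), F (c • m) = c • F m := by
    intro c m
    have h1 : ∀ i, (h' (toE he (b i • c • m)) : N)
        = ∑ j, e • b i • c • a j • (h' (toE he (b j • m)) : N) := by
      intro i
      have h3 : toE he (b i • c • m) = ∑ j, toE he ((b i * c) • a j • e • b j • m) := by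
        apply Subtype.ext
        rw [toE_coe, AddSubgroup.val_finsetSum]
        simp only [toE_coe]
        conv_lhs => rw [← decomp hab m]
        simp only [Finset.smul_sum, mul_smul]
      rw [h3, map_sum, AddSubgroup.val_finsetSum]
      refine Finset.sum_congr rfl fun j _ => ?_
      rw [hcomp, mul_smul]
    have h4 : F (c • m) = ∑ j, (∑ i, a i * e * b i) • c • a j • (h' (toE he (b j • m)) : N) := by
      simp only [F, h1, Finset.smul_sum, Finset.sum_smul]
      rw [Finset.sum_comm]
      simp only [mul_smul]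
    rw [h4, hab]
    simp only [F, one_smul, Finset.smul_sum]
  refine ⟨{ toFun := F, map_add' := hadd, map_smul' := hsmul }, ?_⟩
  ext y
  rw [eMap_coe]
  change F y.1 = (h' y : N)
  have h5 : ∀ i, (h' (toE he (b i • y.1)) : N) = (e * b i * e) • (h' y : N) := by
    intro i
    have : toE he (b i • y.1) = mkCorner he (b i) • y := by
      apply Subtype.ext
      rw [eMod_smul_coe, mkCorner_val, toE_coe]
      conv_lhs => rw [← show e • y.1 = y.1 from y.2]
      simp only [mul_smul]
    rw [this, map_smul, eMod_smul_coe, mkCorner_val]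
  have h6 : e • (h' y : N) = (h' y : N) := (h' y).2
  simp only [F, h5]
  have h7 : ∀ i, a i • (e * b i * e) • (h' y : N) = (a i * e * b i) • (h' y : N) := by
    intro i
    rw [mul_smul (e * b i) e, h6, ← mul_smul, ← mul_assoc]
  simp only [h7]
  rw [← Finset.sum_smul, hab, one_smul]

theorem cornerFunctor_faithful (he : IsIdempotentElem e) (hab : ∑ i, a i * e * b i = 1) :
    (cornerFunctor he).Faithful where
  map_injective := by
    intro M N f g hfg
    apply ModuleCat.hom_ext
    apply eMap_injective he hab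
    exact congrArg (fun h => h.hom) hfg

theorem cornerFunctor_full (he : IsIdempotentElem e) (hab : ∑ i, a i * e * b i = 1) :
    (cornerFunctor he).Full where
  map_surjective := by
    intro M N h
    obtain ⟨f, hf⟩ := exists_extend he hab (h.hom : eMod e M →ₗ[he.Corner] eMod e N)
    exact ⟨ModuleCat.ofHom f, ModuleCat.hom_ext hf⟩

/-- The left module `eA` over the corner ring. -/
abbrev EA (e : A) := eMod e A

/-- The coinduced module. -/
@[ext]
structure Coind (he : IsIdempotentElem e) (N : Type v) [AddCommGroup N] [Module he.Corner N] where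
  /-- the underlying map -/
  lin : EA e →ₗ[he.Corner] N

section Coind

variable (he : IsIdempotentElem e) (N : Type v) [AddCommGroup N] [Module he.Corner N]

/-- The underlying equivalence. -/
def coindE : Coind he N ≃ (EA e →ₗ[he.Corner] N) where
  toFun f := f.lin
  invFun f := ⟨f⟩
  left_inv _ := rfl
  right_inv _ := rfl

noncomputable instance : AddCommGroup (Coind he N) := (coindE he N).addCommGroup

/-- Right multiplication on `eA`. -/
def rmulEA (e : A) (c : A) (x : EA e) : EA e := ⟨x.1 * c, by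
    have h : e • x.1 = x.1 := x.2
    rw [mem_eMod, smul_eq_mul, ← mul_assoc]
    rw [smul_eq_mul] at h
    rw [h]⟩

/-- Right multiplication on `eA` as a linear map. -/
def rmulLin (he : IsIdempotentElem e) (c : A) : EA e →ₗ[he.Corner] EA e where
  toFun x := rmulEA e c x
  map_add' x y := Subtype.ext (add_mul x.1 y.1 c)
  map_smul' x y := Subtype.ext (by
    change x.1 * y.1 * c = x.1 * (y.1 * c)
    rw [mul_assoc])

noncomputable instance : SMul A (Coind he N) where
  smul c f := ⟨f.lin.comp (rmulLin he c)⟩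

theorem coind_smul_lin (c : A) (f : Coind he N) (x : EA e) :
    (c • f).lin x = f.lin (rmulEA e c x) := rfl

theorem coind_add_lin (f g : Coind he N) (x : EA e) :
    (f + g).lin x = f.lin x + g.lin x := rfl

theorem coind_zero_lin (x : EA e) : (0 : Coind he N).lin x = 0 := rfl

theorem coind_ext {f g : Coind he N} (h : ∀ x, f.lin x = g.lin x) : f = g :=
  Coind.ext (LinearMap.ext h)

noncomputable instance : Module A (Coind he N) where
  one_smul f := coind_ext he N fun x => congrArg f.lin (Subtype.ext (mul_one x.1))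
  mul_smul c d f := coind_ext he N fun x => congrArg f.lin
    (Subtype.ext (mul_assoc x.1 c d).symm)
  smul_zero c := coind_ext he N fun x => rfl
  smul_add c f g := coind_ext he N fun x => rfl
  add_smul c d f := coind_ext he N fun x => by
    rw [coind_add_lin, coind_smul_lin, coind_smul_lin, coind_smul_lin, ← map_add]
    exact congrArg f.lin (Subtype.ext (mul_add x.1 c d))
  zero_smul f := coind_ext he N fun x => by
    rw [coind_smul_lin, coind_zero_lin, ← map_zero f.lin]
    exact congrArg f.lin (Subtype.ext (mul_zero x.1))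

/-- The generator `e` of `eA`. -/
def eE (he : IsIdempotentElem e) : EA e := ⟨e, by rw [mem_eMod, smul_eq_mul, he.eq]⟩

/-- The inverse map of `coindEquiv`. -/
noncomputable def coindInv (n : N) : Coind he N where
  lin :=
    { toFun := fun x => mkCorner he x.1 • n
      map_add' := fun x y => by
        rw [← add_smul]
        congr 1
        apply Subtype.ext
        change e * (x.1 + y.1) * e = e * x.1 * e + e * y.1 * e
        rw [mul_add, add_mul]
      map_smul' := fun c x => by
        rw [RingHom.id_apply, ← mul_smul]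
        congr 1
        apply Subtype.ext
        change e * (c.1 * x.1) * e = c.1 * (e * x.1 * e)
        have h1 := corner_left he c
        have h2 := corner_right he c
        rw [← mul_assoc, h1]
        conv_lhs => rw [← h2]
        simp only [mul_assoc] }

theorem coindInv_apply (n : N) (x : EA e) : (coindInv he N n).lin x = mkCorner he x.1 • n := rfl

theorem coindInv_mem (n : N) : coindInv he N n ∈ eMod e (Coind he N) := by
  rw [mem_eMod]
  apply coind_ext
  intro x
  rw [coind_smul_lin, coindInv_apply, coindInv_apply]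
  congr 1
  apply Subtype.ext
  rw [mkCorner_val, mkCorner_val]
  simp only [rmulEA, mul_assoc, he.eq]

/-- `e Hom(eA, N) ≃ N`. -/
noncomputable def coindEquiv : eMod e (Coind he N) ≃ₗ[he.Corner] N where
  toFun f := f.1.lin (eE he)
  map_add' f g := rfl
  map_smul' c f := by
    change f.1.lin (rmulEA e c.1 (eE he)) = c • f.1.lin (eE he)
    rw [← map_smul]
    apply congrArg
    apply Subtype.ext
    change e * c.1 = c.1 * e
    rw [corner_left, corner_right]
  invFun n := ⟨coindInv he N n, coindInv_mem he N n⟩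
  left_inv f := by
    apply Subtype.ext
    apply coind_ext
    intro x
    have h1 : e • f.1 = f.1 := f.2
    change mkCorner he x.1 • f.1.lin (eE he) = f.1.lin x
    rw [← map_smul]
    conv_rhs => rw [← h1]
    rw [coind_smul_lin]
    apply congrArg
    apply Subtype.ext
    change e * x.1 * e * e = x.1 * e
    have h2 : e * x.1 = x.1 := x.2
    rw [h2, mul_assoc, he.eq]
  right_inv n := by
    change mkCorner he e • n = n
    have : mkCorner he e = 1 := Subtype.ext (by
      rw [mkCorner_val, he.eq, he.eq]; rfl)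
    rw [this, one_smul]

end Coind

theorem cornerFunctor_essSurj (he : IsIdempotentElem e) :
    (cornerFunctor he).EssSurj where
  mem_essImage N := ⟨ModuleCat.of A (Coind he N), ⟨(coindEquiv he N).toModuleIso⟩⟩

open scoped ModuleCat.Algebra in
/-- The Morita equivalence between `A` and `eAe` for a full idempotent `e`. -/
theorem isMoritaEquivalent_corner {k : Type w} [CommRing k] [Algebra k A]
    (he : IsIdempotentElem e) (hab : ∑ i, a i * e * b i = 1) :
    IsMoritaEquivalent k A he.Corner := by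
  have h1 := cornerFunctor_faithful he hab
  have h2 := cornerFunctor_full he hab
  have h3 := cornerFunctor_essSurj he
  have h4 : (cornerFunctor he).IsEquivalence := { }
  have h5 : (cornerFunctor he).Linear k :=
    { map_smul := by
        intro X Y f r
        apply ModuleCat.hom_ext
        apply LinearMap.ext
        intro x
        apply Subtype.ext
        change (algebraMap k A r) • f.hom x.1 = (algebraMap k he.Corner r).1 • f.hom x.1
        have h6 : e • f.hom x.1 = f.hom x.1 := by
          rw [← map_smul]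
          exact congrArg f.hom x.2
        have h7 : (algebraMap k he.Corner r).1 = r • e := rfl
        rw [h7]
        conv_lhs => rw [← h6]
        rw [← mul_smul, Algebra.smul_def] }
  exact ⟨⟨⟨(cornerFunctor he).asEquivalence, h5⟩⟩⟩

end CornerModule

section CornerCorner

variable {k : Type w} [CommRing k] {A : Type u} [Ring A] [Algebra k A] {e f : A}

theorem corner_ext {he : IsIdempotentElem e} {x y : he.Corner} (h : x.1 = y.1) : x = y :=
  Subtype.ext h

theorem corner_mul_val (he : IsIdempotentElem e) (x y : he.Corner) :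
    (x * y).1 = x.1 * y.1 := rfl

theorem corner_one_val (he : IsIdempotentElem e) : (1 : he.Corner).1 = e := rfl

theorem corner_smul_val (he : IsIdempotentElem e) (c : k) (x : he.Corner) :
    (c • x).1 = c • x.1 := rfl

/-- Additive inclusion of the corner. -/
def cornerIncl (he : IsIdempotentElem e) : he.Corner →+ A where
  toFun x := x.1
  map_zero' := rfl
  map_add' _ _ := rfl

theorem corner_sum_val {ι : Type*} (he : IsIdempotentElem e) (s : Finset ι) (x : ι → he.Corner) :
    (∑ i ∈ s, x i).1 = ∑ i ∈ s, (x i).1 := map_sum (cornerIncl he) x s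

/-- `f` as an element of the corner `eAe`. -/
def subIdem (he : IsIdempotentElem e) (hef : e * f = f) (hfe : f * e = f) : he.Corner :=
  ⟨f, ⟨f, by simp only [hef, hfe]⟩⟩

theorem subIdem_idem (he : IsIdempotentElem e) (hf : IsIdempotentElem f) (hef : e * f = f)
    (hfe : f * e = f) : IsIdempotentElem (subIdem he hef hfe) :=
  Subtype.ext hf.eq

/-- An element fixed by `e` on both sides, as an element of the corner. -/
def cornerOf (he : IsIdempotentElem e) (x : A) (h1 : e * x = x) (h2 : x * e = x) : he.Corner :=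
  ⟨x, (Subsemigroup.mem_corner_iff he).mpr ⟨h1, h2⟩⟩

theorem corner_trans {he : IsIdempotentElem e} {hf : IsIdempotentElem f} (hef : e * f = f)
    (hfe : f * e = f) (x : hf.Corner) : e * x.1 = x.1 ∧ x.1 * e = x.1 := by
  have h1 := corner_left hf x
  have h2 := corner_right hf x
  constructor
  · rw [← h1, ← mul_assoc, hef]
  · rw [← h2, mul_assoc, hfe]

/-- The corner of a corner. -/
def cornerCornerEquiv (he : IsIdempotentElem e) (hf : IsIdempotentElem f) (hef : e * f = f)
    (hfe : f * e = f) : (subIdem_idem he hf hef hfe).Corner ≃ₐ[k] hf.Corner where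
  toFun x := cornerOf hf x.1.1
    (congrArg Subtype.val (corner_left (subIdem_idem he hf hef hfe) x))
    (congrArg Subtype.val (corner_right (subIdem_idem he hf hef hfe) x))
  invFun x := cornerOf (subIdem_idem he hf hef hfe)
    (cornerOf he x.1 (corner_trans (he := he) hef hfe x).1 (corner_trans (he := he) hef hfe x).2)
    (Subtype.ext (corner_left hf x)) (Subtype.ext (corner_right hf x))
  left_inv x := rfl
  right_inv x := rfl
  map_mul' x y := rfl
  map_add' x y := rfl
  commutes' r := Subtype.ext rfl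

theorem isMoritaEquivalent_corner_corner (he : IsIdempotentElem e) (hf : IsIdempotentElem f)
    (hef : e * f = f) (hfe : f * e = f)
    (h : ∃ (n : ℕ) (a b : Fin n → A), ∑ i, a i * f * b i = e) :
    IsMoritaEquivalent k he.Corner hf.Corner := by
  obtain ⟨n, a, b, hab⟩ := h
  refine IsMoritaEquivalent.trans k (B := (subIdem_idem he hf hef hfe).Corner) ?_
    (IsMoritaEquivalent.of_algEquiv k (cornerCornerEquiv he hf hef hfe))
  apply isMoritaEquivalent_corner (a := fun i => mkCorner he (a i)) (b := fun i => mkCorner he (b i))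
  apply corner_ext
  rw [corner_sum_val]
  simp only [corner_mul_val, mkCorner_val, corner_one_val]
  have : ∀ i, e * a i * e * (subIdem he hef hfe).1 * (e * b i * e) = e * (a i * f * b i) * e := by
    intro i
    change e * a i * e * f * (e * b i * e) = e * (a i * f * b i) * e
    have : e * a i * e * f * (e * b i * e) = e * a i * (e * f * e) * b i * e := by
      simp only [mul_assoc]
    rw [this, hef, hfe]
    simp only [mul_assoc]
  simp only [this]
  rw [← Finset.sum_mul, ← Finset.mul_sum, hab, he.eq, he.eq]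

end CornerCorner

end Vale.Agent.P180
end
end

section

section

namespace Vale.Agent.P180

set_option linter.unusedSectionVars false

section Transport

variable {k : Type*} [Field k] {G : Type*} [Group G]

/-- The inclusion `kT → kG`. -/
noncomputable def incl (k : Type*) [Field k] {G : Type*} [Group G] (T : Subgroup G) :
    MonoidAlgebra k T →ₐ[k] MonoidAlgebra k G :=
  MonoidAlgebra.mapDomainAlgHom k k T.subtype

theorem incl_single (T : Subgroup G) (t : T) (c : k) :
    incl k T (MonoidAlgebra.single t c) = MonoidAlgebra.single (t : G) c := by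
  simp [incl]

theorem incl_injective (T : Subgroup G) : Function.Injective (incl k T) :=
  MonoidAlgebra.mapDomain_injective T.subtype_injective

theorem incl_mem (T : Subgroup G) (a : MonoidAlgebra k T) : incl k T a ∈ SubAlg k T := by
  have ha : SuppIn (Set.univ : Set T) a := fun _ _ => trivial
  refine SuppIn.induction (P := fun a => incl k T a ∈ SubAlg k T) ha ?_ ?_ ?_
  · rw [map_zero]; exact Subalgebra.zero_mem _
  · intro x y hx hy
    rw [map_add]; exact Subalgebra.add_mem _ hx hy
  · intro x _ c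
    rw [map_smul, incl_single]
    exact Subalgebra.smul_mem _ (single_mem_SubAlg x.2 1) c

theorem exists_incl (T : Subgroup G) {a : MonoidAlgebra k G} (ha : a ∈ SubAlg k T) :
    ∃ a' : MonoidAlgebra k T, incl k T a' = a := by
  refine SuppIn.induction (P := fun a => ∃ a' : MonoidAlgebra k T, incl k T a' = a) ha ?_ ?_ ?_
  · exact ⟨0, map_zero _⟩
  · rintro x y ⟨x', rfl⟩ ⟨y', rfl⟩
    exact ⟨x' + y', map_add _ _ _⟩
  · intro x hx c
    exact ⟨c • MonoidAlgebra.single ⟨x, hx⟩ 1, by rw [map_smul, incl_single]⟩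

theorem incl_cj (T : Subgroup G) (t : T) (a : MonoidAlgebra k T) :
    incl k T (cj k T t a) = cj k G t (incl k T a) := by
  rw [cj_eq, cj_eq, map_mul, map_mul, incl_single, incl_single]
  rfl

theorem incl_mem_Fix_iff (T : Subgroup G) (R : Subgroup T) (a : MonoidAlgebra k T) :
    incl k T a ∈ Fix (cj k G) (R.map T.subtype) ↔ a ∈ Fix (cj k T) R := by
  constructor
  · intro h r hr
    apply incl_injective (k := k) T
    rw [incl_cj]
    exact h _ ⟨r, hr, rfl⟩
  · rintro h _ ⟨r, hr, rfl⟩
    change cj k G (r : G) _ = _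
    rw [← incl_cj, h r hr]

theorem incl_mem_ZAlg_iff (T : Subgroup G) (a : MonoidAlgebra k T) :
    incl k T a ∈ ZAlg k T ↔ a ∈ Subalgebra.center k (MonoidAlgebra k T) := by
  rw [mem_center_iff_Fix_top, ← incl_mem_Fix_iff]
  have h : (⊤ : Subgroup T).map T.subtype = T := by
    rw [← MonoidHom.range_eq_map, Subgroup.range_subtype]
  rw [h]
  exact ⟨fun h => h.2, fun h => ⟨incl_mem T a, h⟩⟩

theorem incl_tr [Finite G] (T : Subgroup G) (R : Subgroup T) {a : MonoidAlgebra k T}
    (ha : a ∈ Fix (cj k T) R) :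
    incl k T (tr (cj k T) R ⊤ a) = tr (cj k G) (R.map T.subtype) T (incl k T a) := by
  have _ := Fintype.ofFinite (T ⧸ R)
  rw [tr_top_eq_sum ha, map_sum]
  rw [tr_eq_sum (ι := T ⧸ R) ((incl_mem_Fix_iff T R a).mpr ha) (fun q => q.out)]
  · exact Finset.sum_congr rfl fun q _ => incl_cj T _ a
  · have h : (R.map T.subtype).subgroupOf T = R := by
      rw [Subgroup.subgroupOf, Subgroup.comap_map_eq_self_of_injective T.subtype_injective]
    constructor
    · intro q r hqr
      simp only [QuotientGroup.eq] at hqr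
      rw [h] at hqr
      rw [← QuotientGroup.out_eq' q, ← QuotientGroup.out_eq' r, QuotientGroup.eq]
      exact hqr
    · intro q
      induction q using QuotientGroup.induction_on with
      | H x =>
        refine ⟨(x : T ⧸ R), ?_⟩
        simp only [QuotientGroup.eq]
        rw [h, ← QuotientGroup.eq]
        exact QuotientGroup.out_eq' _

theorem isBlockOf_incl_iff (T : Subgroup G) (a : MonoidAlgebra k T) :
    IsBlockOf T (incl k T a) ↔ IsPrimIn (Subalgebra.center k (MonoidAlgebra k T)) a := by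
  constructor
  · intro h
    refine ⟨(incl_mem_ZAlg_iff T a).mp h.mem, ?_, ?_, ?_⟩
    · apply incl_injective (k := k) T
      change incl k T (a * a) = incl k T a
      rw [map_mul]; exact h.idem
    · intro h0
      exact h.ne_zero (by rw [h0, map_zero])
    · intro c hc hcc hca
      rcases h.primitive (incl k T c) ((incl_mem_ZAlg_iff T c).mpr hc)
        (by change incl k T c * incl k T c = incl k T c; rw [← map_mul, hcc.eq])
        (by rw [← map_mul, hca]) with h1 | h1
      · left
        exact incl_injective (k := k) T (by rw [h1, map_zero])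
      · right
        exact incl_injective (k := k) T h1
  · intro h
    refine ⟨(incl_mem_ZAlg_iff T a).mpr h.mem, ?_, ?_, ?_⟩
    · change incl k T a * incl k T a = incl k T a
      rw [← map_mul, h.idem.eq]
    · intro h0
      exact h.ne_zero (incl_injective (k := k) T (by rw [h0, map_zero]))
    · intro c hc hcc hca
      obtain ⟨c', rfl⟩ := exists_incl T hc.1
      rcases h.primitive c' ((incl_mem_ZAlg_iff T c').mp hc)
        (incl_injective (k := k) T (by
          change incl k T (c' * c') = incl k T c'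
          rw [map_mul]; exact hcc))
        (incl_injective (k := k) T (by rw [map_mul, hca])) with h1 | h1
      · left; rw [h1, map_zero]
      · right; rw [h1]

end Transport

section FR

variable {k : Type*} [Field k] {G : Type*} [Group G]

/-- The stabilizer of an element of `kG` under conjugation. -/
def stabE (e : MonoidAlgebra k G) : Subgroup G where
  carrier := {g | cj k G g e = e}
  one_mem' := map_one_act _ e
  mul_mem' := by
    intro x y hx hy
    change cj k G (x * y) e = e
    rw [map_mul_act, show cj k G y e = e from hy, show cj k G x e = e from hx]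
  inv_mem' := by
    intro x hx
    change cj k G x⁻¹ e = e
    conv_lhs => rw [← show cj k G x e = e from hx]
    rw [map_inv_act]

theorem mem_stabE {e : MonoidAlgebra k G} {g : G} : g ∈ stabE e ↔ cj k G g e = e := Iff.rfl

variable {N : Subgroup G} {e : MonoidAlgebra k G}

theorem le_stabE (he : IsBlockOf N e) : N ≤ stabE e := fun _ hg => he.mem.2 _ hg

theorem mem_ZAlg_stabE (he : IsBlockOf N e) : e ∈ ZAlg k (stabE e) :=
  ⟨SubAlg_mono (le_stabE he) he.mem.1, fun _ hg => hg⟩

theorem e_mul_cj [N.Normal] (he : IsBlockOf N e) {g : G} (hg : g ∉ stabE e) :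
    e * cj k G g e = 0 := by
  rcases IsPrimIn.eq_or_mul_eq_zero ZAlg_comm he (IsBlockOf.conj g he) with h | h
  · exact absurd h.symm hg
  · exact h

theorem e_single_e [N.Normal] (he : IsBlockOf N e) {g : G} (hg : g ∉ stabE e) :
    e * MonoidAlgebra.single g 1 * e = 0 := by
  rw [mul_assoc, ← cj_mul_single, ← mul_assoc, e_mul_cj he hg, zero_mul]

theorem eae_mem [N.Normal] (he : IsBlockOf N e) (a : MonoidAlgebra k G) :
    e * a * e ∈ SubAlg k (stabE e) := by
  have ha : SuppIn (Set.univ : Set G) a := fun _ _ => trivial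
  have heT := (mem_ZAlg_stabE he).1
  refine SuppIn.induction (P := fun a => e * a * e ∈ SubAlg k (stabE e)) ha ?_ ?_ ?_
  · simp
  · intro x y hx hy
    rw [mul_add, add_mul]
    exact Subalgebra.add_mem _ hx hy
  · intro x _ c
    rw [mul_smul_comm, smul_mul_assoc]
    apply Subalgebra.smul_mem
    by_cases hx : x ∈ stabE e
    · exact Subalgebra.mul_mem _ (Subalgebra.mul_mem _ heT (single_mem_SubAlg hx 1)) heT
    · rw [e_single_e he hx]
      exact Subalgebra.zero_mem _

variable [Finite G]

theorem e_mul_tr [N.Normal] (he : IsBlockOf N e) {y : MonoidAlgebra k G}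
    (hy : y ∈ Fix (cj k G) (stabE e)) (hey : e * y = y) : e * tr (cj k G) (stabE e) ⊤ y = y := by
  classical
  have _ := Fintype.ofFinite (G ⧸ stabE e)
  rw [tr_top_eq_sum hy, Finset.mul_sum, Finset.sum_eq_single ((1 : G) : G ⧸ stabE e)]
  · have h : (((1 : G) : G ⧸ stabE e).out) ∈ stabE e := by
      have h1 : ((1 : G) : G ⧸ stabE e) = ((((1 : G) : G ⧸ stabE e).out : G) : G ⧸ stabE e) :=
        (QuotientGroup.out_eq' _).symm
      rw [QuotientGroup.eq] at h1
      simpa using h1
    rw [hy _ h, hey]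
  · intro q _ hq
    have h : q.out ∉ stabE e := by
      intro h1
      apply hq
      rw [← QuotientGroup.out_eq' q]
      rw [QuotientGroup.eq]
      simpa using (stabE e).inv_mem h1
    rw [← hey, map_mul, ← mul_assoc, e_mul_cj he h, zero_mul]
  · intro h
    exact absurd (Finset.mem_univ _) h

theorem tr_idem [N.Normal] (he : IsBlockOf N e) {y : MonoidAlgebra k G}
    (hy : y ∈ Fix (cj k G) (stabE e)) (hey : e * y = y) (hye : y * e = y)
    (hyy : IsIdempotentElem y) :
    IsIdempotentElem (tr (cj k G) (stabE e) ⊤ y) := by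
  have _ := Fintype.ofFinite (G ⧸ stabE e)
  have hF : tr (cj k G) (stabE e) ⊤ y ∈ Fix (cj k G) ⊤ := tr_mem_Fix hy
  have h1 : y * tr (cj k G) (stabE e) ⊤ y = y := by
    conv_lhs => lhs; rw [← hye]
    rw [mul_assoc, e_mul_tr he hy hey, hyy.eq]
  change tr (cj k G) (stabE e) ⊤ y * tr (cj k G) (stabE e) ⊤ y = tr (cj k G) (stabE e) ⊤ y
  rw [tr_mul hF, h1]

theorem tr_e_mul [N.Normal] (he : IsBlockOf N e) {b : MonoidAlgebra k G}
    (hb : IsBlockOf ⊤ b) (hbe : b * e ≠ 0) : tr (cj k G) (stabE e) ⊤ (b * e) = b := by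
  have heF := (mem_ZAlg_stabE he).2
  have hbF : b ∈ Fix (cj k G) ⊤ := hb.mem.2
  have hf1 : tr (cj k G) (stabE e) ⊤ e ∈ Fix (cj k G) ⊤ := tr_mem_Fix heF
  have hf2 := tr_idem he heF he.idem.eq he.idem.eq he.idem
  have hf3 := e_mul_tr he heF he.idem.eq
  have hcomm : b * tr (cj k G) (stabE e) ⊤ e = tr (cj k G) (stabE e) ⊤ e * b :=
    ZAlg_comm _ hb.mem _ ⟨SubAlg_top _, hf1⟩
  rw [← mul_tr hbF]
  have hi1 : IsIdempotentElem (b * tr (cj k G) (stabE e) ⊤ e) := by
    change b * tr (cj k G) (stabE e) ⊤ e * (b * tr (cj k G) (stabE e) ⊤ e) = _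
    rw [mul_assoc, ← mul_assoc (tr (cj k G) (stabE e) ⊤ e), ← hcomm, mul_assoc, hf2.eq,
      ← mul_assoc, hb.idem.eq]
  have hi2 : b * tr (cj k G) (stabE e) ⊤ e * b = b * tr (cj k G) (stabE e) ⊤ e := by
    rw [hcomm, mul_assoc, hb.idem.eq]
  rcases hb.primitive (b * tr (cj k G) (stabE e) ⊤ e)
    ((ZAlg k ⊤).mul_mem hb.mem ⟨SubAlg_top _, hf1⟩) hi1 hi2 with h | h
  · exfalso
    apply hbe
    have h1 : b * e = (b * tr (cj k G) (stabE e) ⊤ e) * e := by
      conv_lhs => rw [← hf3]
      rw [mul_assoc]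
      congr 1
      exact commute_of_mem (SubAlg_top e) hf1
    rw [h1, h, zero_mul]
  · exact h

theorem be_isBlockOf [N.Normal] (he : IsBlockOf N e) {b : MonoidAlgebra k G}
    (hb : IsBlockOf ⊤ b) (hbe : b * e ≠ 0) : IsBlockOf (stabE e) (b * e) := by
  have heF := (mem_ZAlg_stabE he).2
  have hbF : b ∈ Fix (cj k G) ⊤ := hb.mem.2
  have hcomm : ∀ x, x * b = b * x := fun x => commute_of_mem (SubAlg_top x) hbF
  have hebe : e * b * e = b * e := by rw [hcomm, mul_assoc, he.idem.eq]
  refine ⟨⟨?_, ?_⟩, ?_, hbe, ?_⟩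
  · rw [← hebe]
    exact eae_mem he b
  · exact Subalgebra.mul_mem _ (Fix_mono _ le_top hbF) heF
  · change b * e * (b * e) = b * e
    rw [mul_assoc, ← mul_assoc e b e, hebe, ← mul_assoc, hb.idem.eq]
  · intro c hc hcc hcbe
    have hce : c * e = c := by
      rw [← hcbe, mul_assoc, mul_assoc, he.idem.eq]
    have hec : e * c = c := by
      rw [ZAlg_comm _ (mem_ZAlg_stabE he) _ hc, hce]
    have hcb : c * b = c := by
      conv_rhs => rw [← hcbe, ← hcomm, ← mul_assoc, hce]
    have hcF := hc.2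
    have h1 : tr (cj k G) (stabE e) ⊤ c ∈ Fix (cj k G) ⊤ := tr_mem_Fix hcF
    have h2 := tr_idem he hcF hec hce hcc
    have h3 : tr (cj k G) (stabE e) ⊤ c * b = tr (cj k G) (stabE e) ⊤ c := by
      rw [tr_mul hbF, hcb]
    have h4 := e_mul_tr he hcF hec
    rcases hb.primitive _ ⟨SubAlg_top _, h1⟩ h2 h3 with h | h
    · left
      rw [← h4, h, mul_zero]
    · right
      rw [← h4, h, hcomm]

theorem be_full [N.Normal] (he : IsBlockOf N e) {b : MonoidAlgebra k G}
    (hb : IsBlockOf ⊤ b) (hbe : b * e ≠ 0) :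
    ∃ (n : ℕ) (x y : Fin n → MonoidAlgebra k G), ∑ i, x i * (b * e) * y i = b := by
  have _ := Fintype.ofFinite (G ⧸ stabE e)
  let eqv := (Fintype.equivFin (G ⧸ stabE e)).symm
  refine ⟨_, fun i => MonoidAlgebra.single (eqv i).out 1,
    fun i => MonoidAlgebra.single (eqv i).out⁻¹ 1, ?_⟩
  conv_rhs => rw [← tr_e_mul he hb hbe]
  rw [tr_top_eq_sum (be_isBlockOf he hb hbe).mem.2, ← eqv.sum_comp]
  exact Finset.sum_congr rfl fun i _ => (cj_eq _ _).symm

theorem be_proj [N.Normal] (he : IsBlockOf N e) {b : MonoidAlgebra k G}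
    (hb : IsBlockOf ⊤ b) (hbe : b * e ≠ 0) {D : Subgroup G} {a : MonoidAlgebra k G}
    (ha : a ∈ Fix (cj k G) D) (hba : b = tr (cj k G) D ⊤ a) :
    ∃ x : G, ∃ z ∈ SubAlg k (stabE e), z ∈ Fix (cj k G) (stabE e ⊓ conjS x D) ∧
      b * e = tr (cj k G) (stabE e ⊓ conjS x D) (stabE e) z := by
  obtain ⟨m, x, hx⟩ := mackey (stabE e) ha
  have heF := (mem_ZAlg_stabE he).2
  have hbF : b ∈ Fix (cj k G) ⊤ := hb.mem.2
  have hB := be_isBlockOf he hb hbe
  have hcomm : ∀ x, x * b = b * x := fun x => commute_of_mem (SubAlg_top x) hbF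
  have hebe : e * b * e = b * e := by rw [hcomm, mul_assoc, he.idem.eq]
  have hy : ∀ i, e * cj k G (x i) a * e ∈ Fix (cj k G) (stabE e ⊓ conjS (x i) D) := by
    intro i
    refine Subalgebra.mul_mem _ (Subalgebra.mul_mem _ (Fix_mono _ inf_le_left heF) ?_)
      (Fix_mono _ inf_le_left heF)
    exact conj_mem_Fix ha (x i) fun h hh => mem_conjS.mp hh.2
  have hyS : ∀ i, e * cj k G (x i) a * e ∈ SubAlg k (stabE e) := fun i => eae_mem he _
  -- traces of elements of `kT`
  have htrS : ∀ (R : Subgroup G) (y : MonoidAlgebra k G), y ∈ SubAlg k (stabE e) →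
      tr (cj k G) R (stabE e) y ∈ SubAlg k (stabE e) := by
    intro R y hy
    have _ := Fintype.ofFinite ((stabE e) ⧸ R.subgroupOf (stabE e))
    rw [tr_def]
    refine Subalgebra.sum_mem _ fun q _ => ?_
    exact SuppIn.conj hy _ fun s hs => (stabE e).mul_mem ((stabE e).mul_mem q.out.2 hs)
      ((stabE e).inv_mem q.out.2)
  have hsum : ∑ i, (b * e) * tr (cj k G) (stabE e ⊓ conjS (x i) D) (stabE e)
      (e * cj k G (x i) a * e) = b * e := by
    rw [← Finset.mul_sum]
    have h1 : ∑ i, tr (cj k G) (stabE e ⊓ conjS (x i) D) (stabE e) (e * cj k G (x i) a * e) =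
        e * b * e := by
      conv_rhs => rw [hba, hx]
      rw [Finset.mul_sum, Finset.sum_mul]
      refine Finset.sum_congr rfl fun i _ => ?_
      rw [mul_tr heF, tr_mul heF]
    rw [h1, hebe]
    exact hB.idem
  obtain ⟨i, _, w, hw, _, hiw⟩ := hB.exists_unit_of_sum ZAlg_comm Finset.univ _
    (fun i _ => (ZAlg k (stabE e)).mul_mem hB.mem ⟨htrS _ _ (hyS i), tr_mem_Fix (hy i)⟩)
    (fun i _ => by
      rw [mul_assoc, ZAlg_comm _ ⟨htrS _ _ (hyS i), tr_mem_Fix (hy i)⟩ _ hB.mem, ← mul_assoc,
        hB.idem.eq]) hsum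
  refine ⟨x i, (b * e) * (e * cj k G (x i) a * e) * w, ?_, ?_, ?_⟩
  · exact Subalgebra.mul_mem _ (Subalgebra.mul_mem _ hB.mem.1 (hyS i)) hw.1
  · exact Subalgebra.mul_mem _ (Subalgebra.mul_mem _ (Fix_mono _ inf_le_left hB.mem.2) (hy i))
      (Fix_mono _ inf_le_left hw.2)
  · rw [← tr_mul hw.2, ← mul_tr hB.mem.2, hiw]

end FR

section FRTypes

universe u

variable {k : Type u} [Field k] {G : Type} [Group G] [Finite G]
variable {N : Subgroup G} {e : MonoidAlgebra k G}

/-- The corner of `be` in `kG` is the corner of the corresponding element in `kT`. -/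
theorem corner_incl_equiv {T : Subgroup G} {f : MonoidAlgebra k G} {f' : MonoidAlgebra k T}
    (hff : incl k T f' = f) (hf : IsIdempotentElem f) (hf' : IsIdempotentElem f')
    (h : ∀ a, f * a * f ∈ SubAlg k T) : Nonempty (hf.Corner ≃ₐ[k] hf'.Corner) := by
  let φ : hf'.Corner →ₐ[k] hf.Corner :=
    { toFun := fun x => cornerOf hf (incl k T x.1)
        (by rw [← hff, ← map_mul, corner_left]) (by rw [← hff, ← map_mul, corner_right])
      map_one' := corner_ext (by
        change incl k T f' = f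
        exact hff)
      map_mul' := fun x y => corner_ext (map_mul (incl k T) x.1 y.1)
      map_zero' := corner_ext (map_zero (incl k T))
      map_add' := fun x y => corner_ext (map_add (incl k T) x.1 y.1)
      commutes' := fun r => corner_ext (by
        change incl k T (r • f') = r • f
        rw [map_smul, hff]) }
  refine ⟨(AlgEquiv.ofBijective φ ⟨?_, ?_⟩).symm⟩
  · intro x y hxy
    apply corner_ext
    apply incl_injective (k := k) T
    exact congrArg Subtype.val hxy
  · intro y
    have h1 : y.1 ∈ SubAlg k T := by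
      have := h y.1
      rwa [corner_left, corner_right] at this
    obtain ⟨y', hy'⟩ := exists_incl T h1
    refine ⟨cornerOf hf' y' ?_ ?_, corner_ext hy'⟩
    · apply incl_injective (k := k) T
      rw [map_mul, hff, hy', corner_left]
    · apply incl_injective (k := k) T
      rw [map_mul, hff, hy', corner_right]

/-- Fong-Reynolds reduction, keeping track of relative projectivity. -/
theorem fong_reynolds [N.Normal] (he : IsBlockOf N e) {b : MonoidAlgebra k G}
    (hb : IsBlock b) (hbe : b * e ≠ 0) {D : Subgroup G} {a : MonoidAlgebra k G}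
    (ha : a ∈ Fix (cj k G) D) (hba : b = tr (cj k G) D ⊤ a) :
    ∃ (b' : MonoidAlgebra k (stabE e)) (hb' : IsBlock b'),
      incl k (stabE e) b' = b * e ∧ IsMoritaEquivalent k hb.Alg hb'.Alg ∧
      ∃ (x : G) (a' : MonoidAlgebra k (stabE e)),
        a' ∈ Fix (cj k (stabE e)) ((conjS x D).subgroupOf (stabE e)) ∧
        b' = tr (cj k (stabE e)) ((conjS x D).subgroupOf (stabE e)) ⊤ a' := by
  have hb1 := isBlock_iff.mp hb
  have hB := be_isBlockOf he hb1 hbe
  obtain ⟨b', hb'⟩ := exists_incl (stabE e) hB.mem.1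
  have hB' : IsBlock b' := by
    rw [isBlock_iff]
    have h1 := (isBlockOf_incl_iff (stabE e) b').mp (by rw [hb']; exact hB)
    change IsPrimIn _ _
    rw [ZAlg_top]
    exact h1
  refine ⟨b', hB', hb', ?_, ?_⟩
  · have hbc : ∀ x, x * b = b * x := fun x => commute_of_mem (SubAlg_top x) hb1.mem.2
    have h1 : IsMoritaEquivalent k hb.idem.Corner hB.idem.Corner := by
      apply isMoritaEquivalent_corner_corner
      · rw [← mul_assoc, hb.idem.eq]
      · rw [mul_assoc, hbc e, ← mul_assoc, hb.idem.eq]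
      · exact be_full he hb1 hbe
    refine IsMoritaEquivalent.trans k h1 ?_
    obtain ⟨eqv⟩ := corner_incl_equiv hb' hB.idem hB'.idem (fun a => by
      have h2 : b * e * a * (b * e) = e * (b * a * b) * e := by
        conv_lhs => lhs; rw [← hbc e]
        simp only [mul_assoc]
      rw [h2]
      exact eae_mem he _)
    exact IsMoritaEquivalent.of_algEquiv k eqv
  · obtain ⟨x, z, hz, hzF, hz'⟩ := be_proj he hb1 hbe ha hba
    obtain ⟨z', hz1⟩ := exists_incl (stabE e) hz
    have hmap : ((conjS x D).subgroupOf (stabE e)).map (stabE e).subtype =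
        stabE e ⊓ conjS x D := by
      rw [Subgroup.subgroupOf_map_subtype, inf_comm]
    have hz2 : z' ∈ Fix (cj k (stabE e)) ((conjS x D).subgroupOf (stabE e)) := by
      rw [← incl_mem_Fix_iff, hmap, hz1]
      exact hzF
    refine ⟨x, z', hz2, ?_⟩
    apply incl_injective (k := k) (stabE e)
    rw [incl_tr _ _ hz2, hmap, hz1, hb', hz']

theorem card_subgroupOf_conjS_le (T : Subgroup G) (x : G) (D : Subgroup G) :
    Nat.card ((conjS x D).subgroupOf T) ≤ Nat.card D := by
  have h1 : Nat.card (conjS x D) = Nat.card D :=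
    Nat.card_congr (D.equivMapOfInjective _ (MulAut.conj x).injective).symm.toEquiv
  rw [← h1]
  refine Nat.card_le_card_of_injective
    (fun y : (conjS x D).subgroupOf T => (⟨((y : T) : G), y.2⟩ : conjS x D)) ?_
  intro y z hyz
  apply Subtype.ext
  apply Subtype.ext
  exact congrArg (fun w : conjS x D => (w : G)) hyz

end FRTypes

end Vale.Agent.P180
end
end

section

section

namespace Vale.Agent.P180

set_option linter.unusedSectionVars false

section

variable {k : Type*} [Field k] {G : Type*} [Group G]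

theorem cj_eq_self_of_commute {A : Subgroup G} {x : MonoidAlgebra k G} (hx : x ∈ SubAlg k A)
    {g : G} (hg : ∀ a ∈ A, g * a = a * g) : cj k G g x = x := by
  refine SuppIn.induction (P := fun x => cj k G g x = x) hx ?_ ?_ ?_
  · exact map_zero _
  · intro a b ha hb
    rw [map_add, ha, hb]
  · intro y hy c
    rw [map_smul, cj_single, hg y hy, mul_inv_cancel_right]

theorem mem_sup_of_commute {A B : Subgroup G} (hAB : ∀ a ∈ A, ∀ b ∈ B, a * b = b * a) {x : G}
    (hx : x ∈ A ⊔ B) : ∃ a ∈ A, ∃ b ∈ B, a * b = x := by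
  let P : Subgroup G :=
    { carrier := {x | ∃ a ∈ A, ∃ b ∈ B, a * b = x}
      one_mem' := ⟨1, A.one_mem, 1, B.one_mem, one_mul 1⟩
      mul_mem' := by
        rintro _ _ ⟨a, ha, b, hb, rfl⟩ ⟨a', ha', b', hb', rfl⟩
        refine ⟨a * a', A.mul_mem ha ha', b * b', B.mul_mem hb hb', ?_⟩
        rw [mul_assoc, mul_assoc, ← mul_assoc a', hAB a' ha' b hb, mul_assoc]
      inv_mem' := by
        rintro _ ⟨a, ha, b, hb, rfl⟩
        refine ⟨a⁻¹, A.inv_mem ha, b⁻¹, B.inv_mem hb, ?_⟩
        rw [mul_inv_rev, hAB _ (A.inv_mem ha) _ (B.inv_mem hb)] }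
  have hA : A ≤ P := fun a ha => ⟨a, ha, 1, B.one_mem, mul_one a⟩
  have hB : B ≤ P := fun b hb => ⟨1, A.one_mem, b, hb, one_mul b⟩
  exact (sup_le hA hB) hx

variable [Finite G]

theorem tr_mem_SubAlg {H K N : Subgroup G} (hK : K ≤ N) {a : MonoidAlgebra k G}
    (ha : a ∈ SubAlg k N) : tr (cj k G) H K a ∈ SubAlg k N := by
  have _ := Fintype.ofFinite (K ⧸ H.subgroupOf K)
  rw [tr_def]
  refine Subalgebra.sum_mem _ fun q _ => ?_
  exact SuppIn.conj ha _ fun s hs =>
    N.mul_mem (N.mul_mem (hK (q.out : K).2) hs) (N.inv_mem (hK (q.out : K).2))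

theorem tr_prod {A B W : Subgroup G} (hWB : W ≤ B)
    (hAB : ∀ a ∈ A, ∀ b ∈ B, a * b = b * a) (hI : A ⊓ B ≤ W) {x y : MonoidAlgebra k G}
    (hx : x ∈ SubAlg k A) (hxW : x ∈ Fix (cj k G) W) (hy : y ∈ SubAlg k B)
    (hyW : y ∈ Fix (cj k G) W) :
    tr (cj k G) W A x * tr (cj k G) W B y = tr (cj k G) W (A ⊔ B) (x * y) := by
  have _ := Fintype.ofFinite (A ⧸ W.subgroupOf A)
  have _ := Fintype.ofFinite (B ⧸ W.subgroupOf B)
  have hxy : x * y ∈ Fix (cj k G) W := (Fix (cj k G) W).mul_mem hxW hyW
  rw [tr_eq_sum' (ι := (A ⧸ W.subgroupOf A) × (B ⧸ W.subgroupOf B)) hxy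
    (fun i => ((i.1.out : A) : G) * ((i.2.out : B) : G)),
    tr_def, tr_def, Finset.sum_mul_sum, Fintype.sum_prod_type]
  · refine Finset.sum_congr rfl fun q _ => Finset.sum_congr rfl fun r _ => ?_
    have h1 : cj k G ((r.out : B) : G) x = x :=
      cj_eq_self_of_commute hx fun a ha => (hAB a ha _ (r.out : B).2).symm
    have h2 : cj k G ((q.out : A) : G) (cj k G ((r.out : B) : G) y) =
        cj k G ((r.out : B) : G) y := by
      refine cj_eq_self_of_commute (A := B) ?_ fun b hb => hAB _ (q.out : A).2 b hb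
      exact SuppIn.conj hy _ fun s hs =>
        B.mul_mem (B.mul_mem (r.out : B).2 hs) (B.inv_mem (r.out : B).2)
    change _ = cj k G (((q.out : A) : G) * ((r.out : B) : G)) (x * y)
    rw [map_mul_act, map_mul (cj k G ((r.out : B) : G)), h1, map_mul (cj k G ((q.out : A) : G)),
      h2]
  · intro i
    exact (A ⊔ B).mul_mem (le_sup_left (a := A) (i.1.out : A).2)
      (le_sup_right (b := B) (i.2.out : B).2)
  · rintro ⟨q, r⟩ ⟨q', r'⟩ h
    change ((((q.out : A) : G) * ((r.out : B) : G)))⁻¹ *
      (((q'.out : A) : G) * ((r'.out : B) : G)) ∈ W at h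
    have hu : ((q.out : A) : G)⁻¹ * ((q'.out : A) : G) ∈ A :=
      A.mul_mem (A.inv_mem (q.out : A).2) (q'.out : A).2
    have hv : ((r.out : B) : G)⁻¹ * ((r'.out : B) : G) ∈ B :=
      B.mul_mem (B.inv_mem (r.out : B).2) (r'.out : B).2
    have h1 : ((((q.out : A) : G) * ((r.out : B) : G)))⁻¹ *
        (((q'.out : A) : G) * ((r'.out : B) : G)) =
        (((q.out : A) : G)⁻¹ * ((q'.out : A) : G)) *
          (((r.out : B) : G)⁻¹ * ((r'.out : B) : G)) := by
      have h2 := hAB _ hu _ (B.inv_mem (r.out : B).2)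
      calc ((((q.out : A) : G) * ((r.out : B) : G)))⁻¹ *
            (((q'.out : A) : G) * ((r'.out : B) : G))
          = ((r.out : B) : G)⁻¹ * (((q.out : A) : G)⁻¹ * ((q'.out : A) : G)) *
              ((r'.out : B) : G) := by group
        _ = (((q.out : A) : G)⁻¹ * ((q'.out : A) : G)) * ((r.out : B) : G)⁻¹ *
              ((r'.out : B) : G) := by rw [h2]
        _ = _ := by group
    rw [h1] at h
    have huB : ((q.out : A) : G)⁻¹ * ((q'.out : A) : G) ∈ B := by
      have h3 := B.mul_mem (hWB h) (B.inv_mem hv)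
      rwa [mul_inv_cancel_right] at h3
    have huW : ((q.out : A) : G)⁻¹ * ((q'.out : A) : G) ∈ W := hI ⟨hu, huB⟩
    have hvW : ((r.out : B) : G)⁻¹ * ((r'.out : B) : G) ∈ W := by
      have h3 := W.mul_mem (W.inv_mem huW) h
      rwa [inv_mul_cancel_left] at h3
    refine Prod.ext ?_ ?_
    · change q = q'
      rw [← QuotientGroup.out_eq' q, ← QuotientGroup.out_eq' q', QuotientGroup.eq,
        Subgroup.mem_subgroupOf]
      exact huW
    · change r = r'
      rw [← QuotientGroup.out_eq' r, ← QuotientGroup.out_eq' r', QuotientGroup.eq,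
        Subgroup.mem_subgroupOf]
      exact hvW
  · intro g hg
    obtain ⟨a, ha, b, hb, rfl⟩ := mem_sup_of_commute hAB hg
    refine ⟨(((⟨a, ha⟩ : A) : A ⧸ W.subgroupOf A), ((⟨b, hb⟩ : B) : B ⧸ W.subgroupOf B)), ?_⟩
    have h1 : ((((⟨a, ha⟩ : A) : A ⧸ W.subgroupOf A).out : A) : A ⧸ W.subgroupOf A) =
        ((⟨a, ha⟩ : A) : A ⧸ W.subgroupOf A) := QuotientGroup.out_eq' _
    have h2 : ((((⟨b, hb⟩ : B) : B ⧸ W.subgroupOf B).out : B) : B ⧸ W.subgroupOf B) =
        ((⟨b, hb⟩ : B) : B ⧸ W.subgroupOf B) := QuotientGroup.out_eq' _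
    rw [QuotientGroup.eq, Subgroup.mem_subgroupOf] at h1 h2
    set q := (((⟨a, ha⟩ : A) : A ⧸ W.subgroupOf A).out : A)
    set r := (((⟨b, hb⟩ : B) : B ⧸ W.subgroupOf B).out : B)
    have h1' : (q : G)⁻¹ * a ∈ W := h1
    have h2' : (r : G)⁻¹ * b ∈ W := h2
    change ((q : G) * (r : G))⁻¹ * (a * b) ∈ W
    have h3 : ((q : G) * (r : G))⁻¹ * (a * b) = ((q : G)⁻¹ * a) * ((r : G)⁻¹ * b) := by
      have h4 := hAB _ (A.mul_mem (A.inv_mem q.2) ha) _ (B.inv_mem r.2)
      calc ((q : G) * (r : G))⁻¹ * (a * b) = (r : G)⁻¹ * ((q : G)⁻¹ * a) * b := by group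
        _ = ((q : G)⁻¹ * a) * (r : G)⁻¹ * b := by rw [h4]
        _ = _ := by group
    rw [h3]
    exact W.mul_mem h1' h2'

theorem exists_prod_tr {ι : Type*} (S : ι → Subgroup G) {W : Subgroup G}
    (e : MonoidAlgebra k G) (z : ι → MonoidAlgebra k G)
    (s : Finset ι)
    (hW : ∀ i ∈ s, W ≤ S i)
    (hcent : ∀ i ∈ s, ∀ x ∈ S i, (∀ y ∈ S i, x * y = y * x) → x ∈ W)
    (hcomm : ∀ i ∈ s, ∀ j ∈ s, i ≠ j → ∀ x ∈ S i, ∀ y ∈ S j, x * y = y * x)
    (hWc : ∀ i ∈ s, ∀ w ∈ W, ∀ x ∈ S i, w * x = x * w)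
    (hz : ∀ i ∈ s, z i ∈ SubAlg k (S i)) (hzW : ∀ i ∈ s, z i ∈ Fix (cj k G) W)
    (he : ∀ i ∈ s, tr (cj k G) W (S i) (z i) * e = e) :
    ∃ z' ∈ SubAlg k (W ⊔ s.sup S), z' ∈ Fix (cj k G) W ∧
      tr (cj k G) W (W ⊔ s.sup S) z' * e = e := by
  classical
  induction s using Finset.induction_on with
  | empty =>
    refine ⟨1, Subalgebra.one_mem _, Subalgebra.one_mem _, ?_⟩
    rw [Finset.sup_empty, sup_bot_eq, tr_of_mem_Fix (Subalgebra.one_mem _), Subgroup.relIndex_self,
      Nat.cast_one, one_smul, one_mul]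
  | insert i s hi ih =>
    obtain ⟨z', hz', hz'W, hz'e⟩ := ih (fun j hj => hW j (Finset.mem_insert_of_mem hj))
      (fun j hj => hcent j (Finset.mem_insert_of_mem hj))
      (fun j hj l hl => hcomm j (Finset.mem_insert_of_mem hj) l (Finset.mem_insert_of_mem hl))
      (fun j hj => hWc j (Finset.mem_insert_of_mem hj))
      (fun j hj => hz j (Finset.mem_insert_of_mem hj))
      (fun j hj => hzW j (Finset.mem_insert_of_mem hj))
      (fun j hj => he j (Finset.mem_insert_of_mem hj))
    have hi' := Finset.mem_insert_self i s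
    have hle : W ⊔ s.sup S ≤ Subgroup.centralizer (S i : Set G) := by
      refine sup_le ?_ (Finset.sup_le ?_)
      · intro w hw
        rw [Subgroup.mem_centralizer_iff]
        intro x hx
        exact (hWc i hi' w hw x hx).symm
      · intro j hj w hw
        rw [Subgroup.mem_centralizer_iff]
        intro x hx
        have hij : i ≠ j := fun h => hi (h ▸ hj)
        exact hcomm i hi' j (Finset.mem_insert_of_mem hj) hij x hx w hw
    have hAB : ∀ a ∈ W ⊔ s.sup S, ∀ b ∈ S i, a * b = b * a := fun a ha b hb =>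
      (Subgroup.mem_centralizer_iff.mp (hle ha) b hb).symm
    have heq : W ⊔ (insert i s).sup S = (W ⊔ s.sup S) ⊔ S i := by
      rw [Finset.sup_insert, sup_assoc, sup_comm (S i)]
    refine ⟨z' * z i, ?_, (Fix (cj k G) W).mul_mem hz'W (hzW i hi'), ?_⟩
    · rw [heq]
      exact (SubAlg k _).mul_mem (SubAlg_mono le_sup_left hz')
        (SubAlg_mono le_sup_right (hz i hi'))
    · rw [heq, ← tr_prod (hW i hi') hAB (fun x hx => by
        obtain ⟨hx1, hx2⟩ := Subgroup.mem_inf.mp hx
        exact hcent i hi' x hx2 (fun y hy => hAB x hx1 y hy)) hz' hz'W (hz i hi') (hzW i hi'),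
        mul_assoc, he i hi', hz'e]

theorem block_tr {N W : Subgroup G} (hWN : W ≤ N) {f b z : MonoidAlgebra k G}
    (hf : IsBlockOf N f) (hfb : f * b ≠ 0)
    (hz : z ∈ SubAlg k N) (hzW : z ∈ Fix (cj k G) W) (hXb : tr (cj k G) W N z * b = b) :
    ∃ z' ∈ SubAlg k N, z' ∈ Fix (cj k G) W ∧ f = tr (cj k G) W N z' := by
  set X := tr (cj k G) W N z with hX
  have hXZ : X ∈ ZAlg k N := ⟨tr_mem_SubAlg (le_refl N) hz, tr_mem_Fix hzW⟩
  have hx : f * X ∈ ZAlg k N := (ZAlg k N).mul_mem hf.mem hXZ
  have hXf : X * f = f * X := ZAlg_comm X hXZ f hf.mem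
  have hxf : f * X * f = f * X := by rw [mul_assoc, hXf, ← mul_assoc, hf.idem.eq]
  rcases hf.dichotomy ZAlg_comm hx hxf with ⟨n, hn⟩ | ⟨y, hy, hyf, hxy⟩
  · exfalso
    apply hfb
    have key : ∀ n : ℕ, (f * X) ^ n * (f * b) = f * b := by
      intro n
      induction n with
      | zero => rw [pow_zero, one_mul]
      | succ n ih =>
        rw [pow_succ, mul_assoc, ← mul_assoc (f * X), hxf, mul_assoc f X b, hXb, ih]
    rw [← key n, hn, zero_mul]
  · have hfy : f * y ∈ ZAlg k N := (ZAlg k N).mul_mem hf.mem hy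
    refine ⟨z * (f * y), (SubAlg k N).mul_mem hz hfy.1,
      (Fix (cj k G) W).mul_mem hzW (Fix_mono _ hWN hfy.2), ?_⟩
    rw [← tr_mul hfy.2, ← hX, ← mul_assoc, hXf, hxy]

theorem cj_tr (g : G) {H K : Subgroup G} {a : MonoidAlgebra k G} (ha : a ∈ Fix (cj k G) H) :
    cj k G g (tr (cj k G) H K a) = tr (cj k G) (conjS g H) (conjS g K) (cj k G g a) := by
  have _ := Fintype.ofFinite (K ⧸ H.subgroupOf K)
  rw [tr_def, map_sum]
  rw [tr_eq_sum' (ι := K ⧸ H.subgroupOf K) (H := conjS g H) (K := conjS g K)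
    (conj_mem_Fix ha g fun h hh => mem_conjS.mp hh)
    (fun q => g * ((q.out : K) : G) * g⁻¹)]
  · refine Finset.sum_congr rfl fun q _ => ?_
    rw [map_mul_act, map_mul_act, map_inv_act]
  · intro q
    rw [mem_conjS]
    simp [mul_assoc]
  · intro q r hqr
    rw [mem_conjS] at hqr
    rw [← QuotientGroup.out_eq' q, ← QuotientGroup.out_eq' r, QuotientGroup.eq,
      Subgroup.mem_subgroupOf]
    simpa [mul_assoc] using hqr
  · intro x hx
    rw [mem_conjS] at hx
    refine ⟨((⟨_, hx⟩ : K) : K ⧸ H.subgroupOf K), ?_⟩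
    have h1 : ((((⟨_, hx⟩ : K) : K ⧸ H.subgroupOf K).out : K) : K ⧸ H.subgroupOf K) =
        ((⟨_, hx⟩ : K) : K ⧸ H.subgroupOf K) := QuotientGroup.out_eq' _
    rw [QuotientGroup.eq, Subgroup.mem_subgroupOf] at h1
    rw [mem_conjS]
    simpa [mul_assoc] using h1

theorem eq_tr_of_not_dvd (p : ℕ) [CharP k p] {H K : Subgroup G} (h : ¬ p ∣ H.relIndex K)
    {a : MonoidAlgebra k G} (ha : a ∈ Fix (cj k G) K) :
    a = tr (cj k G) H K (((H.relIndex K : k))⁻¹ • a) := by
  have h1 : (H.relIndex K : k) ≠ 0 := by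
    rwa [Ne, CharP.cast_eq_zero_iff k p]
  rw [tr_smul, tr_of_mem_Fix ha, smul_smul, inv_mul_cancel₀ h1, one_smul]

end

end Vale.Agent.P180
end
end

section

section

namespace Vale.Agent.P180

open scoped Nat

set_option linter.unusedSectionVars false

section Groups

variable {p : ℕ} [Fact p.Prime] {G : Type*} [Group G] [Finite G]

theorem exists_normal_pSubgroup {Z X : Subgroup G} (hZ : ∀ z ∈ Z, ∀ g, z * g = g * z)
    (hp : ¬ p ∣ Nat.card Z) (hZX : Z ≤ X) [X.Normal] (hX : ∀ x ∈ X, ∃ n : ℕ, x ^ p ^ n ∈ Z) :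
    ∃ P : Subgroup G, P.Normal ∧ IsPGroup p P ∧ P ≤ X ∧ X ≤ Z ⊔ P := by
  have hXn : X.Normal := inferInstance
  let Z' := Z.subgroupOf X
  have hZ'c : ∀ z ∈ Z', ∀ x, z * x = x * z := fun z hz x => Subtype.ext (hZ _ hz _)
  have hZ'n : Z'.Normal := by
    constructor
    intro z hz g
    rw [← hZ'c z hz g, mul_inv_cancel_right]
    exact hz
  have hq : IsPGroup p (X ⧸ Z') := by
    intro q
    induction q using QuotientGroup.induction_on with
    | H x =>
      obtain ⟨n, hn⟩ := hX x x.2
      refine ⟨n, ?_⟩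
      rw [← QuotientGroup.mk_pow, QuotientGroup.eq_one_iff]
      exact hn
  obtain ⟨j, hj⟩ := IsPGroup.iff_card.mp hq
  have hcZ : Nat.card Z' = Nat.card Z :=
    Nat.card_congr (Subgroup.subgroupOfEquivOfLe hZX).toEquiv
  have hcopp : Nat.Coprime (Nat.card Z') (p ^ j) := by
    rw [hcZ]
    exact Nat.Coprime.pow_right _ ((Nat.Prime.coprime_iff_not_dvd Fact.out).mpr hp).symm
  have hcop : Nat.Coprime (Nat.card Z') Z'.index := by
    rwa [Subgroup.index, hj]
  obtain ⟨H, hH⟩ := Subgroup.exists_right_complement'_of_coprime hcop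
  have hcH : Nat.card H = p ^ j := by
    have h1 := hH.card_mul_card
    have h2 := Subgroup.card_mul_index Z'
    rw [← h2, Subgroup.index, hj] at h1
    exact Nat.eq_of_mul_eq_mul_left Nat.card_pos h1
  have hdec : ∀ x : X, ∃ z ∈ Z', ∃ h ∈ H, z * h = x := by
    intro x
    obtain ⟨⟨z, h⟩, hzh⟩ := hH.2 x
    exact ⟨z, z.2, h, h.2, hzh⟩
  refine ⟨H.map X.subtype, ?_, (IsPGroup.of_card hcH).map X.subtype, Subgroup.map_subtype_le H, ?_⟩
  · constructor
    rintro _ ⟨h, hh, rfl⟩ g
    have hx : g * (X.subtype h) * g⁻¹ ∈ X := hXn.conj_mem h h.2 g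
    obtain ⟨z, hz, h', hh', hzh⟩ := hdec ⟨_, hx⟩
    have e1 : h ^ p ^ j = 1 := by
      have : (⟨h, hh⟩ : H) ^ p ^ j = 1 := by rw [← hcH]; exact pow_card_eq_one'
      exact congrArg Subtype.val this
    have e2 : h' ^ p ^ j = 1 := by
      have : (⟨h', hh'⟩ : H) ^ p ^ j = 1 := by rw [← hcH]; exact pow_card_eq_one'
      exact congrArg Subtype.val this
    have e3 : (⟨g * (X.subtype h) * g⁻¹, hx⟩ : X) ^ p ^ j = 1 := by
      apply Subtype.ext
      change (g * (h : G) * g⁻¹) ^ p ^ j = 1
      rw [conj_pow]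
      have : (h : G) ^ p ^ j = 1 := congrArg Subtype.val e1
      rw [this]
      group
    rw [← hzh, (show Commute z h' from hZ'c z hz h').mul_pow, e2, mul_one] at e3
    have e4 : z ^ Nat.card Z' = 1 := by
      have : (⟨z, hz⟩ : Z') ^ Nat.card Z' = 1 := pow_card_eq_one'
      exact congrArg Subtype.val this
    have e5 : z = 1 := by
      have h1 := Nat.dvd_gcd (orderOf_dvd_of_pow_eq_one e4) (orderOf_dvd_of_pow_eq_one e3)
      rw [hcopp] at h1
      exact orderOf_eq_one_iff.mp (Nat.dvd_one.mp h1)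
    rw [e5, one_mul] at hzh
    exact ⟨h', hh', congrArg Subtype.val hzh⟩
  · intro x hx
    obtain ⟨z, hz, h, hh, hzh⟩ := hdec ⟨x, hx⟩
    have : x = (z : G) * (h : G) := (congrArg Subtype.val hzh).symm
    rw [this]
    exact (Z ⊔ _).mul_mem (le_sup_left (a := Z) hz)
      (le_sup_right (b := H.map X.subtype) ⟨h, hh, rfl⟩)

theorem exists_Op : ∃ V : Subgroup G, V.Normal ∧ IsPGroup p V ∧
    ∀ P : Subgroup G, P.Normal → IsPGroup p P → P ≤ V := by
  obtain ⟨V, hV⟩ := Set.Finite.exists_maximal
    (s := {V : Subgroup G | V.Normal ∧ IsPGroup p V}) (Set.toFinite _)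
    ⟨⊥, inferInstance, IsPGroup.of_bot⟩
  refine ⟨V, hV.prop.1, hV.prop.2, ?_⟩
  intro P hP hPp
  have hVn := hV.prop.1
  have h1 : V ⊔ P ≤ V := hV.le_of_ge ⟨inferInstance, hV.prop.2.to_sup_of_normal_right hPp⟩
    le_sup_left
  exact le_sup_right.trans h1

theorem index_centralizer_le (V : Subgroup G) [V.Normal] :
    (Subgroup.centralizer (V : Set G)).index ≤ (Nat.card V)! := by
  have h1 : (MulAut.conjNormal : G →* MulAut V).ker ≤ Subgroup.centralizer (V : Set G) := by
    intro g hg
    rw [Subgroup.mem_centralizer_iff]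
    intro v hv
    have h2 := congrArg (fun f : MulAut V => ((f ⟨v, hv⟩ : V) : G)) (MonoidHom.mem_ker.mp hg)
    have h3 : g * v * g⁻¹ = v := by
      have h4 : ((MulAut.conjNormal g (⟨v, hv⟩ : V) : V) : G) = g * v * g⁻¹ :=
        MulAut.conjNormal_apply g _
      rw [← h4]
      exact h2
    rw [mul_inv_eq_iff_eq_mul] at h3
    exact h3.symm
  have h2 := Subgroup.index_antitone h1
  refine h2.trans ?_
  rw [Subgroup.index_ker]
  refine (Nat.card_le_card_of_injective _ (Subgroup.subtype_injective _)).trans ?_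
  have h3 : Nat.card (MulAut V) ≤ Nat.card (Equiv.Perm V) :=
    Nat.card_le_card_of_injective (fun f : MulAut V => f.toEquiv)
      (fun _ _ h => MulEquiv.toEquiv_injective h)
  rwa [Nat.card_perm] at h3

theorem inf_eq_bot_of_not_dvd {Z Y : Subgroup G} (hp : ¬ p ∣ Nat.card Z) (hY : IsPGroup p Y) :
    Z ⊓ Y = ⊥ := by
  rw [← disjoint_iff]
  apply Subgroup.disjoint_of_coprime_natCard
  obtain ⟨j, hj⟩ := IsPGroup.iff_card.mp hY
  rw [hj]
  exact Nat.Coprime.pow_right _ ((Nat.Prime.coprime_iff_not_dvd Fact.out).mpr hp).symm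

theorem relIndex_sup_eq {Z Y : Subgroup G} (hp : ¬ p ∣ Nat.card Z) (hY : IsPGroup p Y)
    [Y.Normal] : Y.relIndex (Z ⊔ Y) = Nat.card Z := by
  rw [Subgroup.relIndex_sup_right, ← Subgroup.inf_relIndex_right, inf_comm,
    inf_eq_bot_of_not_dvd hp hY, Subgroup.relIndex_bot_left]

theorem card_sup_eq {Z Y : Subgroup G} (hp : ¬ p ∣ Nat.card Z) (hY : IsPGroup p Y)
    [Y.Normal] : Nat.card (Z ⊔ Y : Subgroup G) = Nat.card Z * Nat.card Y := by
  have h1 := Subgroup.card_mul_index (Y.subgroupOf (Z ⊔ Y))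
  have h2 : (Y.subgroupOf (Z ⊔ Y)).index = Nat.card Z := relIndex_sup_eq hp hY
  rw [h2, Nat.card_congr (Subgroup.subgroupOfEquivOfLe (le_sup_right (a := Z) (b := Y))).toEquiv]
    at h1
  rw [← h1, mul_comm]

end Groups

end Vale.Agent.P180
end
end

section

section

namespace Vale.Agent.P180

universe u v w

section Twisted

variable {k : Type v} [Field k] {E : Type u} [Ring E] [Algebra k E]

/-- Nonzero scalars as units of `E`. -/
noncomputable abbrev scal (k : Type v) [Field k] (E : Type u) [Ring E] [Algebra k E] :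
    kˣ →* Eˣ := Units.map (algebraMap k E : k →* E)

theorem scal_injective (k : Type v) [Field k] (E : Type u) [Ring E] [Algebra k E] [Nontrivial E] :
    Function.Injective (scal k E) := by
  intro a b h
  apply Units.ext
  have := congrArg (fun x : Eˣ => (x : E)) h
  exact (algebraMap k E).injective this

theorem scal_commute (c : kˣ) (x : Eˣ) : scal k E c * x = x * scal k E c :=
  Units.ext (Algebra.commutes (c : k) (x : E))

theorem scal_mul_val (c : kˣ) (x : Eˣ) : ((scal k E c * x : Eˣ) : E) = (c : k) • (x : E) := by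
  rw [Units.val_mul, Algebra.smul_def]; rfl

/-- The algebra map `kH → E` attached to a group homomorphism `H → Eˣ`. -/
noncomputable abbrev liftU {H : Type} [Group H] (φ : H →* Eˣ) : MonoidAlgebra k H →ₐ[k] E :=
  MonoidAlgebra.lift k E H ((Units.coeHom E).comp φ)

theorem liftU_single {H : Type} [Group H] (φ : H →* Eˣ) (h : H) (c : k) :
    liftU φ (MonoidAlgebra.single h c) = c • (φ h : E) := by
  rw [MonoidAlgebra.lift_single]; rfl

/-- Elements mapping to scalars. -/
noncomputable def scalSub (k : Type v) [Field k] {H : Type} [Group H] (φ : H →* Eˣ) [Algebra k E] : Subgroup H :=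
  (scal k E).range.comap φ

theorem exists_chi (k : Type v) [Field k] {E : Type u} [Ring E] [Algebra k E]
    [Nontrivial E] {H : Type} [Group H] (φ : H →* Eˣ)
    (hφ : Function.Injective φ) : ∃ χ : scalSub k φ →* kˣ, (∀ z, scal k E (χ z) = φ z) ∧
      Function.Injective χ := by
  have hZ : ∀ z : scalSub k φ, ∃ c : kˣ, scal k E c = φ z := fun z => z.2
  choose χ' hχ' using hZ
  refine ⟨
    { toFun := χ'
      map_one' := scal_injective k E (by rw [hχ']; simp)
      map_mul' := fun a b => scal_injective k E (by rw [hχ', map_mul, hχ', hχ']; simp) },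
    hχ', ?_⟩
  intro a b hab
  apply Subtype.ext
  apply hφ
  rw [← hχ', ← hχ']
  exact congrArg _ hab

theorem card_ne_zero_of_injective {Z : Type*} [Group Z] [Finite Z] (χ : Z →* kˣ)
    (h : Function.Injective χ) : ((Nat.card Z : ℕ) : k) ≠ 0 := by
  let f : Z →* k := (Units.coeHom k).comp χ
  have hf : Function.Injective f := fun a b h' => h (Units.ext h')
  have hcyc : IsCyclic Z := isCyclic_of_injective_ringHom f hf
  obtain ⟨g, hg⟩ := hcyc.exists_generator
  have h1 : orderOf g = Nat.card Z := orderOf_eq_card_of_forall_mem_zpowers hg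
  have h2 : orderOf (f g) = Nat.card Z := by rw [orderOf_injective f hf, h1]
  have h3 : IsPrimitiveRoot (f g) (Nat.card Z) := by
    rw [← h2]; exact IsPrimitiveRoot.orderOf (f g)
  have : NeZero (Nat.card Z) := ⟨Nat.card_pos.ne'⟩
  exact h3.neZero'.out

theorem scalSub_central (k : Type v) [Field k] {E : Type u} [Ring E] [Algebra k E]
    {H : Type} [Group H] (φ : H →* Eˣ)
    (hφ : Function.Injective φ) (z : scalSub k φ) (h : H) : (z : H) * h = h * z := by
  obtain ⟨c, hc⟩ := z.2
  apply hφ
  rw [map_mul, map_mul, ← hc, scal_commute]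

theorem exists_eps [Nontrivial E] {H : Type} [Group H] [Finite H] (φ : H →* Eˣ)
    (hφ : Function.Injective φ) :
    ∃ ε : MonoidAlgebra k H, ε ∈ Subalgebra.center k (MonoidAlgebra k H) ∧ IsIdempotentElem ε ∧
      liftU φ ε = 1 ∧ (∀ (h : H) (c : kˣ), φ h = scal k E c →
        ε * MonoidAlgebra.single h 1 = (c : k) • ε) := by
  classical
  have := Fintype.ofFinite H
  obtain ⟨χ, hχ, hχinj⟩ := exists_chi k φ hφ
  have hcard : ((Nat.card (scalSub k φ) : ℕ) : k) ≠ 0 := card_ne_zero_of_injective χ hχinj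
  obtain ⟨ε, hε⟩ : ∃ ε : MonoidAlgebra k H, ε = ((Nat.card (scalSub k φ) : ℕ) : k)⁻¹ •
      ∑ z : scalSub k φ, ((χ z)⁻¹ : kˣ).1 • MonoidAlgebra.single (z : H) (1 : k) := ⟨_, rfl⟩
  have hεz : ∀ z : scalSub k φ, ε * MonoidAlgebra.single (z : H) 1 = ((χ z : kˣ) : k) • ε := by
    intro z
    rw [hε, smul_mul_assoc, smul_comm]
    congr 1
    rw [Finset.sum_mul, Finset.smul_sum]
    refine Fintype.sum_equiv (Equiv.mulRight z) _ _ ?_
    intro w
    simp only [Equiv.coe_mulRight, smul_mul_assoc, MonoidAlgebra.single_mul_single, one_mul,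
      map_mul, Subgroup.coe_mul, mul_inv_rev, Units.val_mul, smul_smul]
    congr 1
    simp
  have hεc : ∀ h : H, ε * MonoidAlgebra.single h 1 = MonoidAlgebra.single h 1 * ε := by
    intro h
    rw [hε, smul_mul_assoc, mul_smul_comm, Finset.sum_mul, Finset.mul_sum]
    congr 1
    refine Finset.sum_congr rfl fun z _ => ?_
    rw [smul_mul_assoc, mul_smul_comm, MonoidAlgebra.single_mul_single,
      MonoidAlgebra.single_mul_single, scalSub_central k φ hφ]
  refine ⟨ε, ?_, ?_, ?_, ?_⟩
  · rw [Subalgebra.mem_center_iff]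
    intro x
    induction x using MonoidAlgebra.induction_linear with
    | zero => simp
    | add f g hf hg => rw [add_mul, mul_add, hf, hg]
    | single a b =>
      have : MonoidAlgebra.single a b = b • (MonoidAlgebra.single a 1 : MonoidAlgebra k H) := by
        simp
      rw [this, smul_mul_assoc, mul_smul_comm, hεc]
  · change ε * ε = ε
    conv_lhs => rhs; rw [hε]
    rw [mul_smul_comm, Finset.mul_sum]
    have : ∀ z : scalSub k φ,
        ε * (((χ z)⁻¹ : kˣ) : k) • MonoidAlgebra.single (z : H) (1 : k) = ε := by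
      intro z
      rw [mul_smul_comm, hεz, smul_smul]
      simp
    rw [Finset.sum_congr rfl fun z _ => this z]
    simp only [Finset.sum_const, Finset.card_univ, ← Nat.card_eq_fintype_card]
    rw [← Nat.cast_smul_eq_nsmul k, smul_smul, inv_mul_cancel₀ hcard, one_smul]
  · simp only [hε, map_smul, map_sum, liftU_single]
    have : ∀ z : scalSub k φ, (((χ z)⁻¹ : kˣ) : k) • (1 : k) • ((φ (z : H) : Eˣ) : E) = 1 := by
      intro z
      have h1 : ((φ (z : H) : Eˣ) : E) = algebraMap k E ((χ z : kˣ) : k) := by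
        rw [← hχ]; rfl
      rw [h1, one_smul, Algebra.algebraMap_eq_smul_one, smul_smul]
      simp
    rw [Finset.sum_congr rfl fun z _ => this z]
    simp only [Finset.sum_const, Finset.card_univ, ← Nat.card_eq_fintype_card]
    rw [← Nat.cast_smul_eq_nsmul k, smul_smul, inv_mul_cancel₀ hcard, one_smul]
  · intro h c hc
    have hmem : h ∈ scalSub k φ := ⟨c, hc.symm⟩
    have h2 := hεz ⟨h, hmem⟩
    have h3 : χ ⟨h, hmem⟩ = c := by
      apply scal_injective k E
      rw [hχ, hc]
    rw [h3] at h2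
    exact h2

theorem twisted_idempotent [Nontrivial E] {H : Type} [Group H] [Finite H] (φ : H →* Eˣ)
    (hφ : Function.Injective φ) {ι : Type w} (r : ι → H) (B : Module.Basis ι k E)
    (hB : ∀ i, B i = (φ (r i) : E)) (hsc : ∀ h, ∃ (c : kˣ) (i : ι), φ h = scal k E c * φ (r i)) :
    ∃ (ε : MonoidAlgebra k H) (s : E →ₗ[k] MonoidAlgebra k H),
      ε ∈ Subalgebra.center k (MonoidAlgebra k H) ∧ IsIdempotentElem ε ∧
      (∀ x, s (liftU φ x) = ε * x) ∧ (∀ y, liftU φ (s y) = y) := by
  obtain ⟨ε, hεc, hεε, hΦε, hεz⟩ := exists_eps (k := k) φ hφ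
  obtain ⟨s, hs⟩ : ∃ s : E →ₗ[k] MonoidAlgebra k H,
      ∀ i, s (B i) = ε * MonoidAlgebra.single (r i) 1 :=
    ⟨B.constr k fun i => ε * MonoidAlgebra.single (r i) 1, fun i => B.constr_basis k _ i⟩
  refine ⟨ε, s, hεc, hεε, ?_, ?_⟩
  · intro x
    have : s.comp (liftU φ).toLinearMap = LinearMap.mulLeft k ε := by
      refine MonoidAlgebra.lhom_ext' fun h => LinearMap.ext_ring ?_
      obtain ⟨c, i, hci⟩ := hsc h
      have hz : φ (h * (r i)⁻¹) = scal k E c := by
        rw [map_mul, hci, map_inv, mul_assoc, mul_inv_cancel, mul_one]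
      have h2 := hεz _ _ hz
      have h1 : (MonoidAlgebra.single h 1 : MonoidAlgebra k H) =
          MonoidAlgebra.single (h * (r i)⁻¹) 1 * MonoidAlgebra.single (r i) 1 := by
        simp
      have h3 : ε * MonoidAlgebra.single h (1 : k) = (c : k) • s (B i) := by
        rw [h1, ← mul_assoc, h2, smul_mul_assoc, hs]
      have h4 : liftU φ (MonoidAlgebra.single h (1 : k)) = (c : k) • B i := by
        rw [liftU_single, one_smul, hci, scal_mul_val, hB]
      have h5 : s (liftU φ (MonoidAlgebra.single h (1 : k))) =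
          ε * MonoidAlgebra.single h (1 : k) := by
        rw [h3, h4, map_smul]
      exact h5
    exact congrArg (fun f => f x) this
  · intro y
    have : (liftU φ).toLinearMap.comp s = LinearMap.id := by
      apply B.ext
      intro i
      rw [LinearMap.comp_apply, hs, LinearMap.id_apply, AlgHom.toLinearMap_apply, map_mul,
        hΦε, one_mul, liftU_single, one_smul, hB]
    exact congrArg (fun f => f y) this

/-- The norm on units. -/
noncomputable def normU (k : Type v) [Field k] (E : Type u) [Ring E] [Algebra k E] : Eˣ →* kˣ :=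
  Units.map (Algebra.norm k : E →* k)

theorem normU_scal {ι : Type w} [Fintype ι] (B : Module.Basis ι k E) (c : kˣ) :
    normU k E (scal k E c) = c ^ Fintype.card ι := by
  apply Units.ext
  rw [Units.val_pow_eq_pow_val]
  exact Algebra.norm_algebraMap_of_basis B (c : k)

theorem exists_unit_pow_eq [IsAlgClosed k] {n : ℕ} (hn : 0 < n) (c : kˣ) :
    ∃ d : kˣ, d ^ n = c := by
  obtain ⟨z, hz⟩ := IsAlgClosed.exists_pow_nat_eq (c : k) hn
  have hz0 : z ≠ 0 := by
    rintro rfl
    rw [zero_pow hn.ne'] at hz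
    exact c.ne_zero hz.symm
  exact ⟨Units.mk0 z hz0, Units.ext (by simpa using hz)⟩

theorem twisted_group [IsAlgClosed k] [Nontrivial E] (Γ : Subgroup Eˣ)
    (hscal : ∀ c : kˣ, scal k E c ∈ Γ) {ι : Type w} [Fintype ι]
    (l : ι → Eˣ) (hl : ∀ i, l i ∈ Γ) (B : Module.Basis ι k E) (hB : ∀ i, B i = (l i : E))
    (hΓ : ∀ γ ∈ Γ, ∃ (c : kˣ) (i : ι), γ = scal k E c * l i) :
    ∃ (H : Type) (_ : Group H) (_ : Finite H) (φ : H →* Eˣ) (r : ι → H)
      (B' : Module.Basis ι k E),
      Function.Injective φ ∧ (∀ h, φ h ∈ Γ) ∧ (∀ i, B' i = (φ (r i) : E)) ∧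
      (∀ h, ∃ (c : kˣ) (i : ι), φ h = scal k E c * φ (r i)) ∧
      (∀ i, ∃ c : kˣ, φ (r i) = scal k E c * l i) ∧
      Nat.card H ≤ Fintype.card ι ^ 2 := by
  classical
  have hne : Nonempty ι := B.index_nonempty
  have hn : 0 < Fintype.card ι := Fintype.card_pos
  have h1 : ∀ i, ∃ c : kˣ, normU k E (scal k E c * l i) = 1 := by
    intro i
    obtain ⟨d, hd⟩ := exists_unit_pow_eq (k := k) hn (normU k E (l i))⁻¹
    refine ⟨d, ?_⟩
    rw [map_mul, normU_scal B, hd, inv_mul_cancel]
  choose c hc using h1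
  let H₀ : Subgroup Eˣ := Γ ⊓ (normU k E).ker
  let L : ι → H₀ := fun i => ⟨scal k E (c i) * l i, Γ.mul_mem (hscal _) (hl i), hc i⟩
  have h2 : ∀ h : H₀, ∃ (i : ι) (t : rootsOfUnity (Fintype.card ι) k),
      (h : Eˣ) = scal k E (t : kˣ) * L i := by
    intro h
    obtain ⟨a, i, hai⟩ := hΓ h h.2.1
    refine ⟨i, ⟨a * (c i)⁻¹, ?_⟩, ?_⟩
    · rw [mem_rootsOfUnity, mul_pow, ← normU_scal B, inv_pow, ← normU_scal B]
      have h3 : normU k E (h : Eˣ) = 1 := h.2.2
      have h4 := hc i
      rw [hai, map_mul] at h3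
      rw [map_mul] at h4
      rw [← div_eq_mul_inv, div_eq_one]
      exact mul_right_cancel (h3.trans h4.symm)
    · change (h : Eˣ) = scal k E (a * (c i)⁻¹) * (scal k E (c i) * l i)
      rw [hai, map_mul, map_inv]
      group
  choose ix t ht using h2
  have hinj : Function.Injective fun h : H₀ => (ix h, t h) := by
    intro a b hab
    simp only [Prod.mk.injEq] at hab
    apply Subtype.ext
    rw [ht a, ht b, hab.1, hab.2]
  have : NeZero (Fintype.card ι) := ⟨hn.ne'⟩
  have hfin : Finite H₀ := Finite.of_injective _ hinj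
  have hcard : Nat.card H₀ ≤ Fintype.card ι ^ 2 := by
    refine (Nat.card_le_card_of_injective _ hinj).trans ?_
    rw [Nat.card_prod, Nat.card_eq_fintype_card, pow_two]
    exact Nat.mul_le_mul_left _ (card_rootsOfUnity k (Fintype.card ι))
  obtain ⟨H, hG, hF, ⟨e⟩⟩ := Finite.exists_type_univ_nonempty_mulEquiv.{u, 0} H₀
  have hLl : ∀ i, ((L i : H₀) : Eˣ) = scal k E (c i) * l i := fun i => rfl
  refine ⟨H, hG, Finite.of_fintype H, H₀.subtype.comp e.symm.toMonoidHom, fun i => e (L i),
    B.unitsSMul c, ?_, ?_, ?_, ?_, ?_, ?_⟩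
  · exact Subtype.val_injective.comp e.symm.injective
  · intro h
    exact (e.symm h).2.1
  · intro i
    rw [Module.Basis.unitsSMul_apply, hB]
    simp only [MonoidHom.comp_apply, MulEquiv.coe_toMonoidHom, MulEquiv.symm_apply_apply,
      Subgroup.coe_subtype]
    rw [hLl, scal_mul_val]
    rfl
  · intro h
    refine ⟨t (e.symm h), ix (e.symm h), ?_⟩
    simp only [MonoidHom.comp_apply, MulEquiv.coe_toMonoidHom, MulEquiv.symm_apply_apply,
      Subgroup.coe_subtype]
    exact ht _
  · intro i
    refine ⟨c i, ?_⟩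
    simp only [MonoidHom.comp_apply, MulEquiv.coe_toMonoidHom, MulEquiv.symm_apply_apply,
      Subgroup.coe_subtype]
    rfl
  · rw [← Nat.card_congr e.toEquiv]
    exact hcard

/-- Primitive idempotents of the centre of an algebra. -/
structure IsPCI (k : Type v) [Field k] {A : Type u} [Ring A] [Algebra k A] (b : A) : Prop where
  central : b ∈ Subalgebra.center k A
  idem : IsIdempotentElem b
  ne_zero : b ≠ 0
  primitive : ∀ c ∈ Subalgebra.center k A, IsIdempotentElem c → c * b = c → c = 0 ∨ c = b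

section Transfer

variable {F : Type v} [Field F] {M : Type v} [Ring M] [Algebra F M]
variable {H : Type} [Group H] {φ : H →* Mˣ} {ε : MonoidAlgebra F H} {s : M →ₗ[F] MonoidAlgebra F H}

theorem s_eps (hs1 : ∀ x, s (liftU φ x) = ε * x) (hs2 : ∀ y, liftU φ (s y) = y) (y : M) :
    ε * s y = s y := by
  rw [← hs1, hs2]

theorem s_mul_left (hεc : ε ∈ Subalgebra.center F (MonoidAlgebra F H))
    (hs1 : ∀ x, s (liftU φ x) = ε * x) (hs2 : ∀ y, liftU φ (s y) = y)
    (x : MonoidAlgebra F H) (y : M) : x * s y = s (liftU φ x * y) := by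
  conv_lhs => rw [← s_eps hs1 hs2 y]
  rw [← mul_assoc, (Subalgebra.mem_center_iff.mp hεc) x, mul_assoc, ← hs1, map_mul, hs2]

theorem s_mul_right (hεc : ε ∈ Subalgebra.center F (MonoidAlgebra F H))
    (hs1 : ∀ x, s (liftU φ x) = ε * x) (hs2 : ∀ y, liftU φ (s y) = y)
    (x : MonoidAlgebra F H) (y : M) : s y * x = s (y * liftU φ x) := by
  conv_lhs => rw [← s_eps hs1 hs2 y]
  rw [mul_assoc, ← hs1, map_mul, hs2]

theorem isBlock_s (hεc : ε ∈ Subalgebra.center F (MonoidAlgebra F H))
    (hs1 : ∀ x, s (liftU φ x) = ε * x) (hs2 : ∀ y, liftU φ (s y) = y)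
    {β : M} (hβ : IsPCI F β) : IsBlock (s β) where
  central := by
    rw [Subalgebra.mem_center_iff]
    intro x
    rw [s_mul_left hεc hs1 hs2, s_mul_right hεc hs1 hs2,
      (Subalgebra.mem_center_iff.mp hβ.central)]
  idem := by
    change s β * s β = s β
    rw [s_mul_left hεc hs1 hs2, hs2, hβ.idem.eq]
  ne_zero := by
    intro h
    apply hβ.ne_zero
    rw [← hs2 β, h, map_zero]
  primitive := by
    intro c hc hcc hcb
    have h1 : ε * c = c := by
      rw [← hcb, ← mul_assoc, ← (Subalgebra.mem_center_iff.mp hεc) c, mul_assoc, s_eps hs1 hs2]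
    have h2 : liftU φ c ∈ Subalgebra.center F M := by
      rw [Subalgebra.mem_center_iff]
      intro y
      rw [← hs2 y, ← map_mul, ← map_mul, (Subalgebra.mem_center_iff.mp hc)]
    have h3 : IsIdempotentElem (liftU φ c) := by
      change liftU φ c * liftU φ c = liftU φ c
      rw [← map_mul, hcc.eq]
    have h4 : liftU φ c * β = liftU φ c := by
      conv_lhs => rw [← hs2 β]
      rw [← map_mul, hcb]
    rcases hβ.primitive _ h2 h3 h4 with h | h
    · left
      rw [← h1, ← hs1, h, map_zero]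
    · right
      rw [← h1, ← hs1, h]

/-- The corner of `s β` in `kH` is the corner of `β` in `E`. -/
noncomputable def cornerEquiv (hεc : ε ∈ Subalgebra.center F (MonoidAlgebra F H))
    (hs1 : ∀ x, s (liftU φ x) = ε * x) (hs2 : ∀ y, liftU φ (s y) = y)
    {β : M} (hβ : IsIdempotentElem β) (hsβ : IsIdempotentElem (s β)) :
    hsβ.Corner ≃ₐ[F] hβ.Corner where
  toFun x := cornerOf hβ (liftU φ x.1)
    (by conv_lhs => lhs; rw [← hs2 β]
        rw [← map_mul, corner_left])
    (by conv_lhs => rhs; rw [← hs2 β]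
        rw [← map_mul, corner_right])
  invFun y := cornerOf hsβ (s y.1)
    (by rw [s_mul_left hεc hs1 hs2, hs2, corner_left])
    (by rw [s_mul_left hεc hs1 hs2, hs2, corner_right])
  left_inv x := by
    apply corner_ext
    change s (liftU φ x.1) = x.1
    rw [hs1]
    conv_lhs => rw [← corner_left hsβ x]
    rw [← mul_assoc, s_eps hs1 hs2, corner_left]
  right_inv y := by
    apply corner_ext
    change liftU φ (s y.1) = y.1
    rw [hs2]
  map_mul' x y := by
    apply corner_ext
    exact map_mul (liftU φ) x.1 y.1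
  map_add' x y := by
    apply corner_ext
    exact map_add (liftU φ) x.1 y.1
  commutes' r := by
    apply corner_ext
    change liftU φ (r • s β) = r • β
    rw [map_smul, hs2]

end Transfer

end Twisted

end Vale.Agent.P180
end
end

section

section

namespace Vale.Agent.P180

set_option linter.unusedSectionVars false

theorem simple_of_equiv {G H : Type*} [Group G] [Group H] (e : G ≃* H) (hG : IsSimpleGroup G) :
    IsSimpleGroup H := by
  have hnt : Nontrivial H := e.symm.toEquiv.nontrivial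
  exact IsSimpleGroup.isSimpleGroup_of_surjective e.toMonoidHom e.surjective

theorem exists_maximal_normal (G : Type*) [Group G] [Finite G] [Nontrivial G] :
    ∃ N : Subgroup G, ∃ _ : N.Normal, N ≠ ⊤ ∧ IsSimpleGroup (G ⧸ N) := by
  obtain ⟨N, hN⟩ := Set.Finite.exists_maximal
    (s := {N : Subgroup G | N.Normal ∧ N ≠ ⊤}) (Set.toFinite _) ⟨⊥, inferInstance, bot_ne_top⟩
  have hNn : N.Normal := hN.prop.1
  refine ⟨N, hNn, hN.prop.2, ?_⟩
  have hnt : Nontrivial (G ⧸ N) := QuotientGroup.nontrivial_iff.mpr hN.prop.2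
  refine { eq_bot_or_eq_top_of_normal := ?_ }
  intro M hM
  have hsurj := QuotientGroup.mk'_surjective N
  have hM1 : (M.comap (QuotientGroup.mk' N)).map (QuotientGroup.mk' N) = M :=
    Subgroup.map_comap_eq_self_of_surjective hsurj M
  have hNM : N ≤ M.comap (QuotientGroup.mk' N) := by
    intro x hx
    rw [Subgroup.mem_comap, QuotientGroup.mk'_apply, (QuotientGroup.eq_one_iff x).mpr hx]
    exact M.one_mem
  by_cases htop : M.comap (QuotientGroup.mk' N) = ⊤
  · right
    rw [← hM1, htop, Subgroup.map_top_of_surjective _ hsurj]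
  · left
    have h1 : M.comap (QuotientGroup.mk' N) ≤ N :=
      hN.le_of_ge ⟨hM.comap _, htop⟩ hNM
    rw [← hM1, Subgroup.map_eq_bot_iff, QuotientGroup.ker_mk']
    exact h1

/-- Bounded composition factors imply bounded simple sections. -/
theorem cls_of_compositionFactors {p m : ℕ} (d : ℕ) : ∀ {G : Type} [Group G] [Finite G],
    Nat.card G ≤ d →
    (∀ K : Subgroup G, K.IsSubnormal → ∀ (L : Subgroup K) [L.Normal], IsSimpleGroup (K ⧸ L) →
      p ∣ Nat.card (K ⧸ L) → Nat.card (K ⧸ L) ≤ m) → Cls p m G := by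
  induction d with
  | zero =>
    intro G _ _ h0
    exact absurd (Nat.le_zero.mp h0) Nat.card_pos.ne'
  | succ d ih =>
    intro G _ _ hd h
    rcases subsingleton_or_nontrivial G with hs | hnt
    · intro K S _ _ f hf _
      have : Subsingleton S := hf.subsingleton
      exact absurd (inferInstance : Nontrivial S) (not_nontrivial S)
    · obtain ⟨N, hN, hNtop, hsimple⟩ := exists_maximal_normal G
      have hNsub : N.IsSubnormal := hN.isSubnormal
      refine Cls.extension (QuotientGroup.mk' N) ?_ ?_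
      · intro K S _ _ f hf hp
        have h1 : Nat.card S ∣ Nat.card K := Subgroup.card_dvd_of_surjective f hf
        have h2 : Nat.card K ∣ Nat.card (G ⧸ N) := Subgroup.card_subgroup_dvd_card K
        have h3 : p ∣ Nat.card (G ⧸ N) := hp.trans (h1.trans h2)
        let eqv : (G ⧸ N) ≃* ((⊤ : Subgroup G) ⧸ N.subgroupOf ⊤) :=
          QuotientGroup.congr N (N.subgroupOf ⊤) Subgroup.topEquiv.symm (by
            ext x
            constructor
            · rintro ⟨y, hy, rfl⟩
              exact hy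
            · intro hx
              exact ⟨x.1, hx, rfl⟩)
        have hcard : Nat.card (G ⧸ N) = Nat.card ((⊤ : Subgroup G) ⧸ N.subgroupOf ⊤) :=
          Nat.card_congr eqv.toEquiv
        have h4 := h ⊤ Subgroup.IsSubnormal.top (N.subgroupOf ⊤) (simple_of_equiv eqv hsimple)
          (by rwa [← hcard])
        rw [← hcard] at h4
        exact (Nat.le_of_dvd Nat.card_pos (h1.trans h2)).trans h4
      · rw [QuotientGroup.ker_mk']
        refine ih ?_ ?_
        · have h1 : Nat.card N ≠ Nat.card G := fun h => hNtop (Subgroup.eq_top_of_card_eq N h)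
          have h2 := Subgroup.card_le_card_group N
          omega
        · intro K hK L hL hs hp
          let eK : K ≃* K.map N.subtype := K.equivMapOfInjective N.subtype N.subtype_injective
          have hLn : (L.map eK.toMonoidHom).Normal := hL.map _ eK.surjective
          let eqv : (K ⧸ L) ≃* ((K.map N.subtype) ⧸ L.map eK.toMonoidHom) :=
            QuotientGroup.congr L _ eK rfl
          have hcard : Nat.card (K ⧸ L) = Nat.card ((K.map N.subtype) ⧸ L.map eK.toMonoidHom) :=
            Nat.card_congr eqv.toEquiv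
          have h4 := h (K.map N.subtype) (Subgroup.IsSubnormal.trans' hK hNsub)
            (L.map eK.toMonoidHom) (simple_of_equiv eqv hs) (by rwa [← hcard])
          rwa [← hcard] at h4

end Vale.Agent.P180
end
end

section

section

namespace Vale.Agent.P180

universe u

section Family

variable {k : Type u} [Field k]

theorem finite_blocks (k : Type u) [Field k] (G : Type) [Group G] [Finite G] :
    Finite {c : MonoidAlgebra k G // IsBlock c} := by
  have hlin : LinearIndependent k
      (fun c : {c : MonoidAlgebra k G // IsBlock c} => (c : MonoidAlgebra k G)) := by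
    rw [linearIndependent_iff']
    intro s g hg i hi
    have h1 := congrArg (fun x => x * (i : MonoidAlgebra k G)) hg
    simp only [Finset.sum_mul, zero_mul, smul_mul_assoc] at h1
    rw [Finset.sum_eq_single i] at h1
    · rw [i.2.idem.eq] at h1
      rcases smul_eq_zero.mp h1 with h2 | h2
      · exact h2
      · exact absurd h2 i.2.ne_zero
    · intro j _ hji
      have h2 := IsPrimIn.eq_or_mul_eq_zero (k := k) ZAlg_comm (isBlock_iff.mp j.2)
        (isBlock_iff.mp i.2)
      rcases h2 with h2 | h2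
      · exact absurd (Subtype.ext h2) hji
      · rw [h2, smul_zero]
    · intro h
      exact absurd hi h
  exact hlin.finite_of_isNoetherian

/-- Corners are preserved by algebra isomorphisms. -/
noncomputable def cornerCongr {A B : Type*} [Ring A] [Algebra k A] [Ring B] [Algebra k B]
    (f : A ≃ₐ[k] B) {e : A} (he : IsIdempotentElem e) (hf : IsIdempotentElem (f e)) :
    he.Corner ≃ₐ[k] hf.Corner where
  toFun x := cornerOf hf (f x.1) (by rw [← map_mul, corner_left]) (by rw [← map_mul, corner_right])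
  invFun y := cornerOf he (f.symm y.1)
    (by
      apply f.injective
      rw [map_mul, f.apply_symm_apply, corner_left])
    (by
      apply f.injective
      rw [map_mul, f.apply_symm_apply, corner_right])
  left_inv x := corner_ext (f.symm_apply_apply x.1)
  right_inv y := corner_ext (f.apply_symm_apply y.1)
  map_mul' x y := corner_ext (map_mul f x.1 y.1)
  map_add' x y := corner_ext (map_add f x.1 y.1)
  commutes' r := corner_ext (map_smul f r e)

/-- Transport of blocks along a group isomorphism. -/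
theorem isBlock_transport {G H : Type} [Group G] [Group H] (f : G ≃* H)
    {b : MonoidAlgebra k G} (hb : IsBlock b) :
    ∃ hc : IsBlock (MonoidAlgebra.domCongr k k f b),
      Nonempty (hb.Alg ≃ₐ[k] hc.Alg) := by
  let φ := MonoidAlgebra.domCongr k k f
  have hc : IsBlock (φ b) := by
    refine ⟨?_, ?_, ?_, ?_⟩
    · rw [Subalgebra.mem_center_iff]
      intro x
      rw [← φ.apply_symm_apply x, ← map_mul, ← map_mul, (Subalgebra.mem_center_iff.mp hb.central)]
    · change φ b * φ b = φ b
      rw [← map_mul, hb.idem.eq]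
    · intro h
      exact hb.ne_zero ((map_eq_zero_iff _ φ.injective).mp h)
    · intro c hc hcc hcb
      have h1 : φ.symm c ∈ Subalgebra.center k (MonoidAlgebra k G) := by
        rw [Subalgebra.mem_center_iff]
        intro x
        apply φ.injective
        rw [map_mul, map_mul, φ.apply_symm_apply, (Subalgebra.mem_center_iff.mp hc)]
      have h2 : IsIdempotentElem (φ.symm c) := by
        change φ.symm c * φ.symm c = φ.symm c
        rw [← map_mul, hcc.eq]
      have h3 : φ.symm c * b = φ.symm c := by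
        apply φ.injective
        rw [map_mul, φ.apply_symm_apply, hcb]
      rcases hb.primitive _ h1 h2 h3 with h | h
      · left
        have := congrArg φ h
        rwa [φ.apply_symm_apply, map_zero] at this
      · right
        have := congrArg φ h
        rwa [φ.apply_symm_apply] at this
  exact ⟨hc, ⟨cornerCongr φ hb.idem hc.idem⟩⟩

/-- Multiplication tables of groups of order `n`. -/
abbrev GrpTable (n : ℕ) : Type :=
  {t : Fin n → Fin n → Fin n // ∃ inst : Group (Fin n), ∀ a b, inst.mul a b = t a b}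

/-- Index set of the groups of order at most `F`. -/
abbrev GrpIdx (F : ℕ) : Type := Σ n : Fin (F + 1), GrpTable n

/-- The chosen group structure. -/
@[instance_reducible]
noncomputable def GrpIdx.inst {F : ℕ} (i : GrpIdx F) : Group (Fin i.1) := i.2.2.choose

theorem GrpIdx.inst_mul {F : ℕ} (i : GrpIdx F) (a b : Fin i.1) :
    i.inst.mul a b = i.2.1 a b := i.2.2.choose_spec a b

/-- The groups of order at most `F` fall into finitely many isomorphism classes. -/
theorem exists_grpIdx (F : ℕ) (G : Type) [Group G] [Finite G] (hG : Nat.card G ≤ F) :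
    ∃ i : GrpIdx F, Nonempty (@MulEquiv G (Fin i.1) _ i.inst.toMul) := by
  have _ := Fintype.ofFinite G
  let e : G ≃ Fin (Nat.card G) := Finite.equivFin G
  let inst : Group (Fin (Nat.card G)) := e.symm.group
  let t : GrpTable (Nat.card G) := ⟨fun a b => inst.mul a b, inst, fun _ _ => rfl⟩
  let i : GrpIdx F := ⟨⟨Nat.card G, by omega⟩, t⟩
  refine ⟨i, ⟨@MulEquiv.mk G (Fin i.1) _ i.inst.toMul e ?_⟩⟩
  intro x y
  have h1 := i.inst_mul (e x) (e y)
  refine Eq.trans ?_ h1.symm
  change e (x * y) = e (e.symm (e x) * e.symm (e y))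
  simp

/-- Blocks of groups of order at most `F` fall into finitely many isomorphism classes. -/
theorem finite_family (k : Type u) [Field k] (F : ℕ) :
    ∃ (N : ℕ) (H : Fin N → Type) (_ : ∀ i, Group (H i)) (_ : ∀ i, Finite (H i))
      (c : ∀ i, MonoidAlgebra k (H i)) (hc : ∀ i, IsBlock (c i)),
      ∀ (G : Type) [Group G] [Finite G], Nat.card G ≤ F → ∀ (b : MonoidAlgebra k G)
        (hb : IsBlock b), ∃ i, Nonempty (hb.Alg ≃ₐ[k] (hc i).Alg) := by
  classical
  let J : Type u := Σ i : GrpIdx F, {c : @MonoidAlgebra k (Fin i.1) _ // @IsBlock k _ _ i.inst c}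
  have hJ : Finite J := by
    have : ∀ i : GrpIdx F, Finite {c : @MonoidAlgebra k (Fin i.1) _ // @IsBlock k _ _ i.inst c} :=
      fun i => @finite_blocks k _ _ i.inst _
    infer_instance
  let eJ := Finite.equivFin J
  refine ⟨Nat.card J, fun j => Fin (eJ.symm j).1.1, fun j => (eJ.symm j).1.inst,
    fun j => inferInstance, fun j => (eJ.symm j).2.1, fun j => (eJ.symm j).2.2, ?_⟩
  intro G _ _ hG b hb
  obtain ⟨i, ⟨f⟩⟩ := exists_grpIdx F G hG
  let _ := i.inst
  obtain ⟨hc, ⟨g⟩⟩ := isBlock_transport f hb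
  let j : J := ⟨i, ⟨_, hc⟩⟩
  refine ⟨eJ j, ?_⟩
  have key : ∀ j' : J, j' = j → (letI := j'.1.inst
      Nonempty (hb.Alg ≃ₐ[k] (IsBlock.Alg (G := Fin j'.1.1) j'.2.2))) := by
    rintro _ rfl
    exact ⟨g⟩
  exact key (eJ.symm (eJ j)) (eJ.symm_apply_apply j)

end Family

end Vale.Agent.P180
end
end

section

section

namespace Vale.Agent.P180

universe u

section Blocks

variable {k : Type u} [Field k] {G : Type} [Group G]

/-- The two-sided ideal `kGb` as a `k[G × G]`-module: `(g, h) • x = g x h⁻¹`. -/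
noncomputable def IsBlock.rep {b : MonoidAlgebra k G} (hb : IsBlock b) :
    Representation k (G × G) (LinearMap.range (LinearMap.mulRight k b)) where
  toFun x :=
    { toFun := fun v => ⟨MonoidAlgebra.single x.1 1 * v.1 * MonoidAlgebra.single x.2⁻¹ 1, by
        obtain ⟨a, ha⟩ := v.2
        refine ⟨MonoidAlgebra.single x.1 1 * a * MonoidAlgebra.single x.2⁻¹ 1, ?_⟩
        have hc := (Subalgebra.mem_center_iff.mp hb.central) (MonoidAlgebra.single x.2⁻¹ 1)
        rw [← ha]
        simp only [LinearMap.mulRight_apply]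
        rw [mul_assoc, hc]
        simp only [mul_assoc]⟩
      map_add' := fun v w => Subtype.ext (by simp [mul_add, add_mul])
      map_smul' := fun c v => Subtype.ext (by simp) }
  map_one' := LinearMap.ext fun v => Subtype.ext (by simp [← MonoidAlgebra.one_def])
  map_mul' x y := LinearMap.ext fun v => Subtype.ext (by
    have h1 : (MonoidAlgebra.single (x * y).1 1 : MonoidAlgebra k G) =
        MonoidAlgebra.single x.1 1 * MonoidAlgebra.single y.1 1 := by simp
    have h2 : (MonoidAlgebra.single (x * y).2⁻¹ 1 : MonoidAlgebra k G) =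
        MonoidAlgebra.single y.2⁻¹ 1 * MonoidAlgebra.single x.2⁻¹ 1 := by simp
    simp only [LinearMap.coe_mk, AddHom.coe_mk, Module.End.mul_apply, h1, h2, mul_assoc])

/-- The `k[G × G]`-module `kGb` is a direct summand of a module induced from the diagonal subgroup
`{(x, x) : x ∈ D}`. -/
def IsBlock.IsSummand {b : MonoidAlgebra k G} (hb : IsBlock b) (D : Subgroup G) : Prop :=
  ∃ (W : Type u) (_ : AddCommGroup W) (_ : Module k W) (ρ : Representation k D W)
    (i : hb.rep.IntertwiningMap (Representation.ind (diagHom D) ρ))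
    (q : (Representation.ind (diagHom D) ρ).IntertwiningMap hb.rep), ∀ v, q (i v) = v

theorem IsBlock.isSummand {b : MonoidAlgebra k G} (hb : IsBlock b) {D : Subgroup G}
    (h : IsSummandOfInduced b D) : hb.IsSummand D := by
  obtain ⟨W, _, _, ρ, i, q, hi, hq, hqb, hqi⟩ := h
  refine ⟨W, inferInstance, inferInstance, ρ, ?_, ?_, ?_⟩
  · exact
      { toLinearMap := i ∘ₗ (LinearMap.range (LinearMap.mulRight k b)).subtype
        isIntertwining' := by
          intro t
          ext v
          exact hi t.1 t.2 v.1 }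
  · exact
      { toLinearMap := q.codRestrict (LinearMap.range (LinearMap.mulRight k b))
          (fun w => ⟨q w, hqb w⟩)
        isIntertwining' := by
          intro t
          refine LinearMap.ext fun w => Subtype.ext ?_
          exact hq t.1 t.2 w }
  · rintro ⟨v, a, rfl⟩
    apply Subtype.ext
    refine hqi _ ?_
    change a * b * b = a * b
    rw [mul_assoc, hb.idem.eq]

end Blocks

end Vale.Agent.P180
end
end

section

section

namespace Vale.Agent.P180

set_option linter.unusedSectionVars false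

universe u

open Representation

section Filt

variable {k : Type u} [Field k] {H : Type} [Group H]

open scoped Classical in
/-- Restriction of the support to a set. -/
noncomputable def filtS (k : Type u) [Field k] {H : Type} (S : Set H) :
    MonoidAlgebra k H →ₗ[k] MonoidAlgebra k H where
  toFun a := MonoidAlgebra.ofCoeff (a.coeff.filter fun x : H => x ∈ S)
  map_add' a b := by
    apply MonoidAlgebra.coeff_injective
    simp [Finsupp.filter_add]
  map_smul' r a := by
    apply MonoidAlgebra.coeff_injective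
    simp [Finsupp.filter_smul]

open scoped Classical in
theorem filtS_single (S : Set H) (x : H) (c : k) :
    filtS k S (MonoidAlgebra.single x c) = if x ∈ S then MonoidAlgebra.single x c else 0 := by
  apply MonoidAlgebra.coeff_injective
  change (MonoidAlgebra.single x c).coeff.filter (fun x : H => x ∈ S) = _
  rw [MonoidAlgebra.coeff_single]
  split_ifs with h
  · rw [Finsupp.filter_single_of_pos _ h, MonoidAlgebra.coeff_single]
  · rw [Finsupp.filter_single_of_neg _ h, MonoidAlgebra.coeff_zero]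

variable {D : Type} [Group D] (φ : D →* H) {W : Type u} [AddCommGroup W] [Module k W]
  (ρ : Representation k D W)

/-- Projection of the induced module onto the component of the trivial coset. -/
noncomputable def piInd : IndV φ ρ →ₗ[k] IndV φ ρ :=
  Coinvariants.map _ _ ⟨(filtS k (φ.range : Set H)).rTensor W, fun d => by
    apply TensorProduct.ext
    refine MonoidAlgebra.lhom_ext' fun h => LinearMap.ext_ring ?_
    ext w
    classical
    have h1 : φ d * h ∈ (φ.range : Set H) ↔ h ∈ (φ.range : Set H) := by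
      constructor
      · intro h2
        have := φ.range.mul_mem (φ.range.inv_mem ⟨d, rfl⟩) h2
        simpa using this
      · intro h2
        exact φ.range.mul_mem ⟨d, rfl⟩ h2
    have h2 : filtS k (φ.range : Set H) (MonoidAlgebra.single (φ d * h) 1) =
        leftRegular k H (φ d) (filtS k (φ.range : Set H) (MonoidAlgebra.single h 1)) := by
      rw [filtS_single, filtS_single]
      by_cases hh : h ∈ (φ.range : Set H)
      · rw [if_pos hh, if_pos (h1.mpr hh)]
        simp
      · rw [if_neg hh, if_neg (fun h3 => hh (h1.mp h3)), map_zero]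
    change filtS k (φ.range : Set H) (leftRegular k H (φ d) (MonoidAlgebra.single h 1)) ⊗ₜ[k]
        (ρ d w) = leftRegular k H (φ d) (filtS k (φ.range : Set H) (MonoidAlgebra.single h 1)) ⊗ₜ[k]
        (ρ d w)
    have h3 : leftRegular k H (φ d) (MonoidAlgebra.single h (1 : k)) =
        MonoidAlgebra.single (φ d * h) 1 := by simp
    rw [h3, h2]⟩

open scoped Classical in
theorem piInd_mk (h : H) (w : W) :
    piInd φ ρ (IndV.mk φ ρ h w) = if h ∈ φ.range then IndV.mk φ ρ h w else 0 := by
  change Coinvariants.mk _ ((filtS k (φ.range : Set H)).rTensor W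
    (TensorProduct.mk k _ _ (MonoidAlgebra.single h 1) w)) = _
  rw [TensorProduct.mk_apply, LinearMap.rTensor_tmul, filtS_single]
  change Coinvariants.mk _ ((if h ∈ φ.range then MonoidAlgebra.single h (1 : k) else 0) ⊗ₜ[k] w) = _
  split_ifs with hh
  · rfl
  · rw [TensorProduct.zero_tmul, map_zero]

end Filt

section Main

variable {k : Type u} [Field k] {G : Type} [Group G] [Finite G]
variable (D : Subgroup G) {W : Type u} [AddCommGroup W] [Module k W] (ρ : Representation k D W)

theorem mem_range_diagHom {x : G × G} : x ∈ (diagHom D).range ↔ x.1 = x.2 ∧ x.2 ∈ D := by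
  constructor
  · rintro ⟨d, rfl⟩
    exact ⟨rfl, d.2⟩
  · rintro ⟨h1, h2⟩
    exact ⟨⟨x.2, h2⟩, Prod.ext h1.symm rfl⟩

/-- The decomposition of the identity of the induced module. -/
theorem sum_piInd [Fintype G] [Fintype (G ⧸ D)] (w : IndV (diagHom D) ρ) :
    ∑ q : G ⧸ D, ∑ g : G, ind (diagHom D) ρ (g * q.out, q.out)
      (piInd (diagHom D) ρ (ind (diagHom D) ρ (g * q.out, q.out)⁻¹ w)) = w := by
  classical
  have key : ∑ q : G ⧸ D, ∑ g : G, (ind (diagHom D) ρ (g * q.out, q.out)) ∘ₗ
      (piInd (diagHom D) ρ ∘ₗ (ind (diagHom D) ρ (g * q.out, q.out)⁻¹)) = LinearMap.id := by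
    apply IndV.hom_ext
    intro h
    refine LinearMap.ext fun w => ?_
    have h1 : ∀ (q : G ⧸ D) (g : G), ind (diagHom D) ρ (g * q.out, q.out)
        (piInd (diagHom D) ρ (ind (diagHom D) ρ (g * q.out, q.out)⁻¹
          (IndV.mk (diagHom D) ρ h w))) =
        if (q = ((h.2⁻¹ : G) : G ⧸ D) ∧ g = h.1⁻¹ * h.2) then IndV.mk (diagHom D) ρ h w
        else 0 := by
      intro q g
      rw [ind_mk, inv_inv, piInd_mk]
      have h2 : h * (g * q.out, q.out) ∈ (diagHom D).range ↔
          (q = ((h.2⁻¹ : G) : G ⧸ D) ∧ g = h.1⁻¹ * h.2) := by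
        rw [mem_range_diagHom]
        simp only [Prod.fst_mul, Prod.snd_mul]
        constructor
        · rintro ⟨h3, h4⟩
          refine ⟨?_, ?_⟩
          · rw [← QuotientGroup.out_eq' q]
            symm
            rw [QuotientGroup.eq, inv_inv]
            exact h4
          · rw [← mul_assoc] at h3
            have h5 := mul_right_cancel h3
            rw [← h5]; group
        · rintro ⟨h3, h4⟩
          refine ⟨?_, ?_⟩
          · rw [h4]; group
          · rw [← QuotientGroup.out_eq' q] at h3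
            have h5 := h3.symm
            rw [QuotientGroup.eq, inv_inv] at h5
            exact h5
      by_cases h3 : h * (g * q.out, q.out) ∈ (diagHom D).range
      · rw [if_pos h3, if_pos (h2.mp h3), ind_mk, mul_assoc, mul_inv_cancel, mul_one]
      · rw [if_neg h3, if_neg (fun h4 => h3 (h2.mpr h4)), map_zero]
    rw [LinearMap.id_comp, LinearMap.comp_apply, LinearMap.sum_apply]
    rw [Finset.sum_congr rfl fun q _ => (LinearMap.sum_apply _ _ _).trans
      (Finset.sum_congr rfl fun g _ => h1 q g)]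
    rw [Finset.sum_eq_single ((h.2⁻¹ : G) : G ⧸ D), Finset.sum_eq_single (h.1⁻¹ * h.2)]
    · simp
    · intro g _ hg
      rw [if_neg]
      rintro ⟨_, h3⟩
      exact hg h3
    · intro h3
      exact absurd (Finset.mem_univ _) h3
    · intro q _ hq
      apply Finset.sum_eq_zero
      intro g _
      rw [if_neg]
      rintro ⟨h3, _⟩
      exact hq h3
    · intro h3
      exact absurd (Finset.mem_univ _) h3
  have := congrArg (fun f => f w) key
  simpa [LinearMap.sum_apply] using this

theorem piInd_comm (d : D) (w : IndV (diagHom D) ρ) :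
    piInd (diagHom D) ρ (ind (diagHom D) ρ (diagHom D d) w) =
      ind (diagHom D) ρ (diagHom D d) (piInd (diagHom D) ρ w) := by
  classical
  have key : piInd (diagHom D) ρ ∘ₗ ind (diagHom D) ρ (diagHom D d) =
      ind (diagHom D) ρ (diagHom D d) ∘ₗ piInd (diagHom D) ρ := by
    apply IndV.hom_ext
    intro h
    refine LinearMap.ext fun w => ?_
    change piInd (diagHom D) ρ (ind (diagHom D) ρ (diagHom D d) (IndV.mk (diagHom D) ρ h w)) =
      ind (diagHom D) ρ (diagHom D d) (piInd (diagHom D) ρ (IndV.mk (diagHom D) ρ h w))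
    rw [ind_mk, piInd_mk, piInd_mk]
    have h1 : h * (diagHom D d)⁻¹ ∈ (diagHom D).range ↔ h ∈ (diagHom D).range := by
      constructor
      · intro h2
        have := (diagHom D).range.mul_mem h2 ⟨d, rfl⟩
        simpa using this
      · intro h2
        exact (diagHom D).range.mul_mem h2 ((diagHom D).range.inv_mem ⟨d, rfl⟩)
    by_cases hh : h ∈ (diagHom D).range
    · rw [if_pos hh, if_pos (h1.mpr hh), ind_mk]
    · rw [if_neg hh, if_neg (fun h3 => hh (h1.mp h3)), map_zero]
  exact congrArg (fun f => f w) key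

theorem exists_trace {b : MonoidAlgebra k G} (hb : IsBlock b) {D : Subgroup G}
    (h : hb.IsSummand D) : ∃ a ∈ Fix (cj k G) D, b = tr (cj k G) D ⊤ a := by
  obtain ⟨W, _, _, ρ, i, q, hqi⟩ := h
  have _ := Fintype.ofFinite G
  have _ := Fintype.ofFinite (G ⧸ D)
  have hbV : b ∈ LinearMap.range (LinearMap.mulRight k b) := ⟨b, hb.idem⟩
  let vb : LinearMap.range (LinearMap.mulRight k b) := ⟨b, hbV⟩
  let E : LinearMap.range (LinearMap.mulRight k b) →ₗ[k] LinearMap.range (LinearMap.mulRight k b) :=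
    q.toLinearMap ∘ₗ piInd (diagHom D) ρ ∘ₗ i.toLinearMap
  have hi : ∀ (t : G × G) v, i (hb.rep t v) = ind (diagHom D) ρ t (i v) := fun t v =>
    congrArg (fun f => f v) (i.isIntertwining' t)
  have hq : ∀ (t : G × G) v, q (ind (diagHom D) ρ t v) = hb.rep t (q v) := fun t v =>
    congrArg (fun f => f v) (q.isIntertwining' t)
  have hE : ∀ v, E v = q (piInd (diagHom D) ρ (i v)) := fun v => rfl
  have hEd : ∀ (d : D) v, E (hb.rep (diagHom D d) v) = hb.rep (diagHom D d) (E v) := by
    intro d v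
    rw [hE, hi, piInd_comm, hq, hE]
  have hid : ∀ v, ∑ x : G ⧸ D, ∑ g : G, hb.rep (g * x.out, x.out)
      (E (hb.rep (g * x.out, x.out)⁻¹ v)) = v := by
    intro v
    conv_rhs => rw [← hqi v, ← sum_piInd D ρ (i v)]
    rw [map_sum]
    refine Finset.sum_congr rfl fun x _ => ?_
    rw [map_sum]
    refine Finset.sum_congr rfl fun g _ => ?_
    rw [hq, hE, hi]
  have hrep : ∀ (t : G × G) (v : LinearMap.range (LinearMap.mulRight k b)),
      (hb.rep t v).1 = MonoidAlgebra.single t.1 1 * v.1 * MonoidAlgebra.single t.2⁻¹ 1 :=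
    fun t v => rfl
  have hcomm : ∀ x, x * b = b * x := fun x => (Subalgebra.mem_center_iff.mp hb.central) x
  have hvb : ∀ u v : G, hb.rep (u, v) vb = hb.rep (u * v⁻¹, 1) vb := by
    intro u v
    apply Subtype.ext
    rw [hrep, hrep]
    change MonoidAlgebra.single u 1 * b * MonoidAlgebra.single v⁻¹ 1 =
      MonoidAlgebra.single (u * v⁻¹) 1 * b * MonoidAlgebra.single 1⁻¹ 1
    rw [mul_assoc, ← hcomm, ← mul_assoc, MonoidAlgebra.single_mul_single, one_mul, inv_one,
      ← MonoidAlgebra.one_def, mul_one]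
  let a : MonoidAlgebra k G := ∑ h : G, MonoidAlgebra.single h 1 * (E (hb.rep (h⁻¹, 1) vb)).1
  have hcj : ∀ x : G, cj k G x a = ∑ h : G, MonoidAlgebra.single (x * h) 1 *
      (E (hb.rep (h⁻¹, 1) vb)).1 * MonoidAlgebra.single x⁻¹ 1 := by
    intro x
    rw [cj_eq]
    simp only [a]
    rw [Finset.mul_sum, Finset.sum_mul]
    refine Finset.sum_congr rfl fun h _ => ?_
    rw [← mul_assoc, MonoidAlgebra.single_mul_single, one_mul]
  have haF : a ∈ Fix (cj k G) D := by
    intro d hd
    rw [hcj]
    simp only [a]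
    refine Fintype.sum_equiv (MulAut.conj d).toEquiv _ _ ?_
    intro h
    change MonoidAlgebra.single (d * h) 1 * (E (hb.rep (h⁻¹, 1) vb)).1 *
      MonoidAlgebra.single d⁻¹ 1 = MonoidAlgebra.single (d * h * d⁻¹) 1 *
        (E (hb.rep ((d * h * d⁻¹)⁻¹, 1) vb)).1
    have h1 : hb.rep ((d * h * d⁻¹)⁻¹, 1) vb = hb.rep (diagHom D ⟨d, hd⟩)
        (hb.rep (h⁻¹, 1) vb) := by
      have h2 : hb.rep (diagHom D ⟨d, hd⟩) (hb.rep (h⁻¹, 1) vb) =
          hb.rep (diagHom D ⟨d, hd⟩ * (h⁻¹, 1)) vb := by
        rw [map_mul]; rfl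
      have h3 : diagHom D ⟨d, hd⟩ * (h⁻¹, (1 : G)) = (d * h⁻¹, d * 1) := rfl
      rw [h2, h3, hvb (d * h⁻¹)]
      congr 3
      group
    rw [h1, hEd, hrep]
    change _ = MonoidAlgebra.single (d * h * d⁻¹) 1 * (MonoidAlgebra.single d 1 *
      (E (hb.rep (h⁻¹, 1) vb)).1 * MonoidAlgebra.single d⁻¹ 1)
    simp only [← mul_assoc, MonoidAlgebra.single_mul_single, mul_one]
    congr 3
    group
  refine ⟨a, haF, ?_⟩
  have hbs := congrArg Subtype.val (hid vb)
  rw [tr_top_eq_sum haF]
  change _ = b at hbs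
  rw [← hbs, AddSubmonoidClass.coe_finsetSum]
  refine Finset.sum_congr rfl fun x _ => ?_
  rw [AddSubmonoidClass.coe_finsetSum, hcj]
  symm
  refine Fintype.sum_equiv (MulAut.conj x.out).toEquiv _ _ ?_
  intro h
  have h5 : hb.rep (x.out * h * x.out⁻¹ * x.out, x.out)⁻¹ vb = hb.rep (h⁻¹, 1) vb := by
    rw [Prod.inv_mk, hvb]
    congr 3
    group
  change _ = (hb.rep (x.out * h * x.out⁻¹ * x.out, x.out)
      (E (hb.rep (x.out * h * x.out⁻¹ * x.out, x.out)⁻¹ vb))).1
  rw [hrep, h5]
  have h6 : x.out * h * x.out⁻¹ * x.out = x.out * h := by group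
  rw [h6]

end Main

end Vale.Agent.P180
end
end
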