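import Vale.Agent.P180.MathlibUsed
import Vale.Agent.P180.Bdl.B1

set_option linter.all false

section

section

namespace Vale.Agent.P180

open scoped Classical

section Comm

variable {k : Type*} [Field k] {Z : Type*} [CommRing Z] [Algebra k Z]

/-- `e` is a primitive idempotent of the commutative ring `Z`. -/
def IsPrim {Z : Type*} [CommRing Z] (e : Z) : Prop :=
  e * e = e ∧ e ≠ 0 ∧ ∀ f : Z, f * f = f → f * e = f → f = 0 ∨ f = e

theorem unit_or_nilp [FiniteDimensional k Z] {e : Z} (he : IsPrim e) (x : Z) :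
    (∃ n : ℕ, x ^ n * e = 0) ∨ (∃ w : Z, x * w * e = e) := by
  haveI : IsArtinianRing Z := IsArtinianRing.of_finite k Z
  obtain ⟨n, hn⟩ := IsArtinian.monotone_stabilizes
    (⟨fun n => OrderDual.toDual (Ideal.span {x ^ n}), by
      intro a b hab
      change Ideal.span {x ^ b} ≤ Ideal.span {x ^ a}
      rw [Ideal.span_singleton_le_span_singleton]
      exact pow_dvd_pow x hab⟩ : ℕ →o (Ideal Z)ᵒᵈ)
  have h1 : Ideal.span {x ^ n} = Ideal.span {x ^ (2 * n + 1)} := hn (2 * n + 1) (by omega)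
  have h2 : x ^ n ∈ Ideal.span {x ^ (2 * n + 1)} := by
    rw [← h1]; exact Ideal.mem_span_singleton_self _
  rw [Ideal.mem_span_singleton] at h2
  obtain ⟨w, hw⟩ := h2
  -- f = x^(n+1) * w is idempotent and x^n f = x^n
  have hf : (x ^ (n + 1) * w) * (x ^ (n + 1) * w) = x ^ (n + 1) * w := by
    calc (x ^ (n + 1) * w) * (x ^ (n + 1) * w) = x * w * (x ^ (2 * n + 1) * w) := by ring
      _ = x * w * x ^ n := by rw [← hw]
      _ = x ^ (n + 1) * w := by ring
  have hxf : x ^ n * (x ^ (n + 1) * w) = x ^ n := by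
    calc x ^ n * (x ^ (n + 1) * w) = x ^ (2 * n + 1) * w := by ring
      _ = x ^ n := hw.symm
  rcases he.2.2 (x ^ (n + 1) * w * e) (by
      calc (x ^ (n + 1) * w * e) * (x ^ (n + 1) * w * e)
          = ((x ^ (n + 1) * w) * (x ^ (n + 1) * w)) * (e * e) := by ring
        _ = _ := by rw [hf, he.1]) (by rw [mul_assoc, he.1]) with h | h
  · left
    refine ⟨n, ?_⟩
    rw [← hxf]
    calc x ^ n * (x ^ (n + 1) * w) * e = x ^ n * (x ^ (n + 1) * w * e) := by ring
      _ = 0 := by rw [h, mul_zero]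
  · right
    refine ⟨x ^ n * w, ?_⟩
    rw [← h]
    calc x * (x ^ n * w) * (x ^ (n + 1) * w * e)
        = ((x ^ (n + 1) * w) * (x ^ (n + 1) * w)) * e := by ring
      _ = _ := by rw [hf]

theorem exists_scalar [IsAlgClosed k] [FiniteDimensional k Z] {e : Z} (he : IsPrim e) (x : Z) :
    ∃ c : k, ∃ n : ℕ, (x - algebraMap k Z c) ^ n * e = 0 := by
  -- the ideal `e Z` as a subspace stable under `x`
  let V : Submodule k Z := LinearMap.range (LinearMap.mulLeft k e)
  have hV : ∀ v ∈ V, LinearMap.mulLeft k x v ∈ V := by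
    rintro _ ⟨u, rfl⟩
    refine ⟨x * u, ?_⟩
    simp only [LinearMap.mulLeft_apply]
    ring
  haveI : Nontrivial V := by
    refine ⟨⟨⟨e, 1, by simp⟩, 0, ?_⟩⟩
    intro h
    exact he.2.1 (congrArg Subtype.val h)
  obtain ⟨c, hc⟩ := Module.End.exists_eigenvalue ((LinearMap.mulLeft k x).restrict hV)
  obtain ⟨v, hv⟩ := hc.exists_hasEigenvector
  refine ⟨c, ?_⟩
  rcases unit_or_nilp (k := k) he (x - algebraMap k Z c) with h | ⟨w, hw⟩
  · exact h
  · exfalso
    have h1 := hv.apply_eq_smul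
    have h2 : x * (v : Z) = c • (v : Z) := congrArg Subtype.val h1
    obtain ⟨u, hu⟩ := v.2
    simp only [LinearMap.mulLeft_apply] at hu
    have h3 : (v : Z) = 0 := by
      calc (v : Z) = e * v := by rw [← hu, ← mul_assoc, he.1]
        _ = ((x - algebraMap k Z c) * w * e) * v := by rw [hw]
        _ = w * e * (x * v - algebraMap k Z c * v) := by ring
        _ = 0 := by rw [h2, Algebra.smul_def, sub_self, mul_zero]
    exact hv.2 (Subtype.ext h3)

end Comm

end Vale.Agent.P180
end
end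

section

section

set_option linter.style.haveILetI false

namespace Vale.Agent.P180.KP

open scoped Classical

variable {k : Type*} [Field k] {H : Type*} [Group H]

/-- The quotient map on group algebras. -/
noncomputable def qmap (k : Type*) [Field k] {H : Type*} [Group H] (Y : Subgroup H) [Y.Normal] :
    MonoidAlgebra k H →ₐ[k] MonoidAlgebra k (H ⧸ Y) :=
  MonoidAlgebra.mapDomainAlgHom k k (QuotientGroup.mk' Y)

theorem qmap_single (Y : Subgroup H) [Y.Normal] (h : H) (r : k) :
    qmap k Y (MonoidAlgebra.single h r) = MonoidAlgebra.single (QuotientGroup.mk h : H ⧸ Y) r := by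
  simp [qmap]

theorem qmap_surjective (Y : Subgroup H) [Y.Normal] : Function.Surjective (qmap k Y) := by
  intro a
  induction a using MonoidAlgebra.induction_linear with
  | zero => exact ⟨0, map_zero _⟩
  | add a b ha hb =>
    obtain ⟨a', rfl⟩ := ha
    obtain ⟨b', rfl⟩ := hb
    exact ⟨a' + b', map_add _ _ _⟩
  | single x r =>
    refine ⟨MonoidAlgebra.single x.out r, ?_⟩
    rw [qmap_single, QuotientGroup.out_eq']

theorem qmap_cj (Y : Subgroup H) [Y.Normal] (h : H) (a : MonoidAlgebra k H) :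
    qmap k Y (cj k H h a) = MonoidAlgebra.single (QuotientGroup.mk h : H ⧸ Y) 1 * qmap k Y a *
      MonoidAlgebra.single (QuotientGroup.mk h : H ⧸ Y)⁻¹ 1 := by
  rw [cj_eq, map_mul, map_mul, qmap_single, qmap_single]
  rfl

theorem mem_Fix_of_central {Y : Subgroup H} (hY : Y ≤ Subgroup.center H)
    (a : MonoidAlgebra k H) : a ∈ Fix (cj k H) Y := by
  intro y hy
  induction a using MonoidAlgebra.induction_linear with
  | zero => exact map_zero _
  | add a b ha hb => rw [map_add, ha, hb]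
  | single x r =>
    rw [cj_single]
    have := (Subgroup.mem_center_iff.mp (hY hy)) x
    rw [← this, mul_inv_cancel_right]

theorem tr_top_eq_sum [Finite H] {Y : Subgroup H} [Y.Normal] [Fintype (H ⧸ Y)]
    (hY : Y ≤ Subgroup.center H) (a : MonoidAlgebra k H) :
    tr (cj k H) Y ⊤ a = ∑ x : H ⧸ Y, cj k H x.out a := by
  rw [tr_eq_sum' (mem_Fix_of_central hY a) (fun x : H ⧸ Y => x.out)]
  · intro i; trivial
  · intro i j hij
    rw [← QuotientGroup.out_eq' i, ← QuotientGroup.out_eq' j]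
    exact QuotientGroup.eq.mpr hij
  · intro x _
    refine ⟨QuotientGroup.mk x, ?_⟩
    apply QuotientGroup.eq.mp
    exact QuotientGroup.out_eq' _

theorem mem_center_iff_fix (a : MonoidAlgebra k H) :
    a ∈ Subalgebra.center k (MonoidAlgebra k H) ↔ a ∈ Fix (cj k H) ⊤ := by
  rw [Subalgebra.mem_center_iff]
  constructor
  · intro h g _
    rw [cj_eq, h, mul_assoc, MonoidAlgebra.single_mul_single]
    simp [← MonoidAlgebra.one_def]
  · intro h b
    induction b using MonoidAlgebra.induction_linear with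
    | zero => simp
    | add b c hb hc => rw [add_mul, mul_add, hb, hc]
    | single x r =>
      have h1 := h x trivial
      rw [cj_eq] at h1
      have h2 : MonoidAlgebra.single x (1 : k) * a = a * MonoidAlgebra.single x 1 := by
        conv_rhs => rw [← h1]
        rw [mul_assoc _ (MonoidAlgebra.single x⁻¹ (1 : k)), MonoidAlgebra.single_mul_single]
        simp [← MonoidAlgebra.one_def]
      have h3 : MonoidAlgebra.single x r = r • MonoidAlgebra.single x (1 : k) := by
        simp [MonoidAlgebra.smul_single]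
      rw [h3, smul_mul_assoc, h2, mul_smul_comm]

theorem exists_psi_aux [Finite H] [IsAlgClosed k] {Y : Subgroup H} [Y.Normal]
    (hY : Y ≤ Subgroup.center H) (e : Subalgebra.center k (MonoidAlgebra k H)) (he : IsPrim e)
    (hq : qmap k Y e ≠ 0) (a₀ : MonoidAlgebra k H)
    (h0 : (e : MonoidAlgebra k H) = tr (cj k H) Y ⊤ a₀)
    {Q : Type*} [Ring Q] [Algebra k Q] (mk : MonoidAlgebra k (H ⧸ Y) →ₐ[k] Q)
    (hmk : Function.Surjective mk) (hmk0 : ∀ a, mk a = 0 ↔ a * qmap k Y e = 0) :
    ∃ (d : ℕ) (_ : NeZero d) (ψ : Q →ₐ[k] Matrix (Fin d) (Fin d) k),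
      Function.Bijective ψ := by
  letI := Fintype.ofFinite (H ⧸ Y)
  have hecomm : ∀ a : MonoidAlgebra k H, a * e = e * a :=
    fun a => (Subalgebra.mem_center_iff.mp e.2 a)
  have hee : (e : MonoidAlgebra k H) * e = e := congrArg Subtype.val he.1
  have hebeb : qmap k Y e * qmap k Y e = qmap k Y e := by rw [← map_mul, hee]
  have hmke : mk (qmap k Y e) = 1 := by
    have : mk (qmap k Y e - 1) = 0 := by
      rw [hmk0, sub_mul, hebeb, one_mul, sub_self]
    rw [map_sub, map_one, sub_eq_zero] at this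
    exact this
  have htr : ∀ x : MonoidAlgebra k H, mk (qmap k Y (tr (cj k H) Y ⊤ x)) =
      ∑ h : H ⧸ Y, mk (MonoidAlgebra.single h 1) * mk (qmap k Y x) *
        mk (MonoidAlgebra.single h⁻¹ 1) := by
    intro x
    rw [tr_top_eq_sum hY, map_sum, map_sum]
    refine Finset.sum_congr rfl fun h _ => ?_
    rw [qmap_cj, map_mul, map_mul, QuotientGroup.out_eq']
  haveI : FiniteDimensional k Q := Module.Finite.of_surjective mk.toLinearMap hmk
  haveI : IsSemisimpleRing Q := by
    apply semisimple_of_trace mk hmk (mk (qmap k Y a₀))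
    rw [← htr, ← h0, hmke]
  haveI : Nontrivial Q := by
    refine ⟨⟨0, 1, fun h => hq ?_⟩⟩
    have h1 : mk 1 = 0 := by rw [map_one, h]
    rw [hmk0, one_mul] at h1
    exact h1
  -- central idempotents of Q are trivial
  have hcent : ∀ z : Q, (∀ w, w * z = z * w) → z * z = z → z = 0 ∨ z = 1 := by
    intro z hz hzz
    obtain ⟨x', hx'⟩ := hmk z
    obtain ⟨x, rfl⟩ := qmap_surjective Y x'
    let y : Subalgebra.center k (MonoidAlgebra k H) :=
      ⟨tr (cj k H) Y ⊤ (x * a₀), (mem_center_iff_fix _).mpr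
        (tr_mem_Fix (mem_Fix_of_central hY _))⟩
    have hy : mk (qmap k Y y) = z := by
      rw [htr, map_mul, map_mul, hx']
      have : ∀ h : H ⧸ Y, mk (MonoidAlgebra.single h 1) * (z * mk (qmap k Y a₀)) *
          mk (MonoidAlgebra.single h⁻¹ 1) = z * (mk (MonoidAlgebra.single h 1) *
            mk (qmap k Y a₀) * mk (MonoidAlgebra.single h⁻¹ 1)) := by
        intro h
        rw [← mul_assoc (mk (MonoidAlgebra.single h 1)), hz]
        simp only [mul_assoc]
      simp only [this]
      rw [← Finset.mul_sum, ← htr, ← h0, hmke, mul_one]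
    obtain ⟨c, n, hcn⟩ := exists_scalar (k := k) he y
    have h1 : (z - algebraMap k Q c) ^ n = 0 := by
      have h2 := congrArg (fun w : Subalgebra.center k (MonoidAlgebra k H) =>
        mk (qmap k Y (w : MonoidAlgebra k H))) hcn
      simp only [MulMemClass.coe_mul, SubmonoidClass.coe_pow, map_mul,
        map_pow, hmke, mul_one, ZeroMemClass.coe_zero, map_zero] at h2
      change mk (qmap k Y ((y : MonoidAlgebra k H) - algebraMap k (MonoidAlgebra k H) c)) ^ n = 0
        at h2
      rw [map_sub, map_sub, hy, AlgHom.commutes, AlgHom.commutes] at h2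
      exact h2
    by_cases hc : c = 0
    · left
      subst hc
      rw [map_zero, sub_zero] at h1
      rcases n with _ | n
      · rw [pow_zero] at h1
        rw [← mul_one z, h1, mul_zero]
      · have h4 : ∀ m : ℕ, z ^ (m + 1) = z := by
          intro m
          induction m with
          | zero => simp
          | succ m ih => rw [pow_succ, ih, hzz]
        rw [h4] at h1
        exact h1
    · right
      have h4 : (z - algebraMap k Q c) * (1 - z) = (-c) • (1 - z) := by
        rw [sub_mul, mul_sub, hzz, mul_one, sub_self, zero_sub, Algebra.algebraMap_eq_smul_one,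
          smul_mul_assoc, one_mul, neg_smul]
      have h5 : ∀ m : ℕ, (z - algebraMap k Q c) ^ m * (1 - z) = ((-c) ^ m) • (1 - z) := by
        intro m
        induction m with
        | zero => simp
        | succ m ih => rw [pow_succ, mul_assoc, h4, mul_smul_comm, ih, smul_smul, pow_succ,
            mul_comm]
      have h6 := h5 n
      rw [h1, zero_mul] at h6
      have h7 : (-c) ^ n ≠ 0 := pow_ne_zero _ (neg_ne_zero.mpr hc)
      have h8 := (smul_eq_zero.mp h6.symm).resolve_left h7
      exact (sub_eq_zero.mp h8).symm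
  obtain ⟨n, d, hd, ⟨E⟩⟩ := IsSemisimpleRing.exists_algEquiv_pi_matrix_of_isAlgClosed k Q
  have hn : ∀ i : Fin n, (Pi.single i 1 : Π i, Matrix (Fin (d i)) (Fin (d i)) k) = 1 := by
    intro i
    haveI := hd i
    rcases hcent (E.symm (Pi.single i 1)) (by
      intro w
      apply E.injective
      rw [map_mul, map_mul, E.apply_symm_apply]
      ext j : 1
      by_cases hj : j = i
      · subst hj; simp
      · simp [hj]) (by
      rw [← map_mul]
      congr 1
      ext j : 1
      by_cases hj : j = i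
      · subst hj; simp
      · simp [hj]) with h | h
    · exfalso
      rw [map_eq_zero_iff _ E.symm.injective] at h
      have h2 := congrFun h i
      rw [Pi.single_eq_same] at h2
      exact one_ne_zero h2
    · have h2 := congrArg E h
      rw [E.apply_symm_apply, map_one] at h2
      exact h2
  have hn0 : ∃ i : Fin n, True := by
    by_contra hcon
    haveI : IsEmpty (Fin n) := ⟨fun i => hcon ⟨i, trivial⟩⟩
    haveI : Subsingleton Q := E.injective.subsingleton
    exact not_subsingleton Q this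
  obtain ⟨i, -⟩ := hn0
  have hall : ∀ j, j = i := by
    intro j
    by_contra hj
    haveI := hd j
    have h1 := congrFun (hn i) j
    rw [Pi.single_eq_of_ne hj] at h1
    exact zero_ne_one h1
  refine ⟨d i, hd i, (Pi.evalAlgHom k (fun i => Matrix (Fin (d i)) (Fin (d i)) k) i).comp
    E.toAlgHom, ?_, ?_⟩
  · intro a b hab
    apply E.injective
    ext j : 1
    rw [hall j]
    exact hab
  · intro M
    refine ⟨E.symm (Pi.single i M), ?_⟩
    change (E (E.symm (Pi.single i M))) i = M
    rw [E.apply_symm_apply, Pi.single_eq_same]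

/-- The block algebra of a block with central defect group is, modulo the augmentation ideal
of the defect group, a matrix algebra. -/
theorem exists_psi [Finite H] [IsAlgClosed k] {Y : Subgroup H} [Y.Normal]
    (hY : Y ≤ Subgroup.center H) (e : Subalgebra.center k (MonoidAlgebra k H)) (he : IsPrim e)
    (hq : qmap k Y e ≠ 0) (a₀ : MonoidAlgebra k H)
    (h0 : (e : MonoidAlgebra k H) = tr (cj k H) Y ⊤ a₀) :
    ∃ (d : ℕ) (_ : NeZero d) (ψ : MonoidAlgebra k H →ₐ[k] Matrix (Fin d) (Fin d) k),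
      Function.Surjective ψ ∧ ∀ a, ψ a = 0 ↔ qmap k Y (a * e) = 0 := by
  have hecomm : ∀ a : MonoidAlgebra k H, a * e = e * a :=
    fun a => Subalgebra.mem_center_iff.mp e.2 a
  set eb := qmap k Y e with heb
  have hebcomm : ∀ a : MonoidAlgebra k (H ⧸ Y), a * eb = eb * a := by
    intro a
    obtain ⟨a', rfl⟩ := qmap_surjective Y a
    rw [heb, ← map_mul, hecomm, map_mul]
  let I : Ideal (MonoidAlgebra k (H ⧸ Y)) :=
    { carrier := {a | a * eb = 0}
      add_mem' := by
        intro a b ha hb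
        change (a + b) * eb = 0
        rw [add_mul, show a * eb = 0 from ha, show b * eb = 0 from hb, add_zero]
      zero_mem' := zero_mul _
      smul_mem' := by
        intro c a ha
        change c * a * eb = 0
        rw [mul_assoc, show a * eb = 0 from ha, mul_zero] }
  have hI : ∀ a, a ∈ I ↔ a * eb = 0 := fun a => Iff.rfl
  haveI : I.IsTwoSided := by
    constructor
    intro a b ha
    rw [hI] at *
    rw [mul_assoc, hebcomm b, ← mul_assoc, ha, zero_mul]
  have hmk0 : ∀ a : MonoidAlgebra k (H ⧸ Y), Ideal.Quotient.mkₐ k I a = 0 ↔ a * eb = 0 :=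
    fun a => Ideal.Quotient.eq_zero_iff_mem
  obtain ⟨d, hd, ψ, hψ⟩ := exists_psi_aux hY e he hq a₀ h0 (Ideal.Quotient.mkₐ k I)
    (Ideal.Quotient.mkₐ_surjective k I) hmk0
  refine ⟨d, hd, (ψ.comp (Ideal.Quotient.mkₐ k I)).comp (qmap k Y), ?_, ?_⟩
  · exact (hψ.2.comp (Ideal.Quotient.mkₐ_surjective k I)).comp (qmap_surjective Y)
  · intro a
    change ψ (Ideal.Quotient.mkₐ k I (qmap k Y a)) = 0 ↔ _
    rw [map_eq_zero_iff _ hψ.1, hmk0, heb, ← map_mul]

end Vale.Agent.P180.KP
end
end

section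

section

namespace Vale.Agent.P180

set_option linter.unusedSectionVars false

section Transport

variable {k : Type*} [Field k] {G : Type*} [Group G]

theorem incl_coeff (T : Subgroup G) (t : T) (a : MonoidAlgebra k T) :
    (incl k T a).coeff (t : G) = a.coeff t := by
  induction a using MonoidAlgebra.induction_linear with
  | zero => simp
  | add a b ha hb => simp [map_add, ha, hb]
  | single y r =>
    classical
    rw [incl_single, MonoidAlgebra.coeff_single, MonoidAlgebra.coeff_single,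
      Finsupp.single_apply, Finsupp.single_apply]
    by_cases h : y = t
    · rw [if_pos h, if_pos (congrArg Subtype.val h)]
    · rw [if_neg h, if_neg (fun h' => h (Subtype.ext h'))]

theorem incl_mem_SubAlg_iff (T : Subgroup G) (M : Subgroup T) (a : MonoidAlgebra k T) :
    incl k T a ∈ SubAlg k (M.map T.subtype) ↔ a ∈ SubAlg k M := by
  constructor
  · intro h x hx
    have h1 : (x : G) ∈ M.map T.subtype := h x (by rwa [incl_coeff])
    obtain ⟨y, hy, hyx⟩ := h1
    have : y = x := Subtype.ext hyx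
    rwa [← this]
  · intro h x hx
    have hxT : x ∈ T := (incl_mem T a) x hx
    have h1 : a.coeff ⟨x, hxT⟩ ≠ 0 := by
      rw [← incl_coeff]; exact hx
    exact ⟨⟨x, hxT⟩, h _ h1, rfl⟩

theorem incl_mem_ZAlg_map_iff (T : Subgroup G) (M : Subgroup T) (a : MonoidAlgebra k T) :
    incl k T a ∈ ZAlg k (M.map T.subtype) ↔ a ∈ ZAlg k M := by
  rw [mem_ZAlg, mem_ZAlg, incl_mem_SubAlg_iff, incl_mem_Fix_iff]

theorem incl_tr_gen [Finite G] (T : Subgroup G) {R K : Subgroup T} {a : MonoidAlgebra k T}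
    (ha : a ∈ Fix (cj k T) R) :
    incl k T (tr (cj k T) R K a) = tr (cj k G) (R.map T.subtype) (K.map T.subtype)
      (incl k T a) := by
  have _ := Fintype.ofFinite (K ⧸ R.subgroupOf K)
  rw [tr_def, map_sum]
  rw [tr_eq_sum' (ι := K ⧸ R.subgroupOf K) ((incl_mem_Fix_iff T R a).mpr ha)
    (fun q => ((q.out : K) : T) : _ → G)]
  · exact Finset.sum_congr rfl fun q _ => incl_cj T _ a
  · intro q
    exact ⟨_, (q.out : K).2, rfl⟩
  · intro q r hqr
    obtain ⟨y, hy, hyx⟩ := hqr
    rw [← QuotientGroup.out_eq' q, ← QuotientGroup.out_eq' r, QuotientGroup.eq,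
      Subgroup.mem_subgroupOf]
    have : y = ((((q.out : K)⁻¹ * (r.out : K) : K)) : T) := Subtype.ext hyx
    rwa [← this]
  · rintro _ ⟨x, hx, rfl⟩
    refine ⟨((⟨x, hx⟩ : K) : K ⧸ R.subgroupOf K), ?_⟩
    have h1 : ((((⟨x, hx⟩ : K) : K ⧸ R.subgroupOf K).out : K) : K ⧸ R.subgroupOf K) =
        ((⟨x, hx⟩ : K) : K ⧸ R.subgroupOf K) := QuotientGroup.out_eq' _
    rw [QuotientGroup.eq, Subgroup.mem_subgroupOf] at h1
    exact ⟨_, h1, rfl⟩

theorem isBlockOf_map_iff (T : Subgroup G) (M : Subgroup T) (a : MonoidAlgebra k T) :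
    IsBlockOf (M.map T.subtype) (incl k T a) ↔ IsBlockOf M a := by
  constructor
  · intro h
    refine ⟨(incl_mem_ZAlg_map_iff T M a).mp h.mem, ?_, ?_, ?_⟩
    · apply incl_injective (k := k) T
      change incl k T (a * a) = incl k T a
      rw [map_mul]; exact h.idem
    · intro h0
      exact h.ne_zero (by rw [h0, map_zero])
    · intro c hc hcc hca
      rcases h.primitive (incl k T c) ((incl_mem_ZAlg_map_iff T M c).mpr hc)
        (by change incl k T c * incl k T c = incl k T c; rw [← map_mul, hcc.eq])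
        (by rw [← map_mul, hca]) with h1 | h1
      · left
        exact incl_injective (k := k) T (by rw [h1, map_zero])
      · right
        exact incl_injective (k := k) T h1
  · intro h
    refine ⟨(incl_mem_ZAlg_map_iff T M a).mpr h.mem, ?_, ?_, ?_⟩
    · change incl k T a * incl k T a = incl k T a
      rw [← map_mul, h.idem.eq]
    · intro h0
      exact h.ne_zero (incl_injective (k := k) T (by rw [h0, map_zero]))
    · intro c hc hcc hca
      have hcT : c ∈ SubAlg k T := SubAlg_mono (Subgroup.map_subtype_le M) hc.1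
      obtain ⟨c', rfl⟩ := exists_incl T hcT
      rcases h.primitive c' ((incl_mem_ZAlg_map_iff T M c').mp hc)
        (incl_injective (k := k) T (by
          change incl k T (c' * c') = incl k T c'
          rw [map_mul]; exact hcc))
        (incl_injective (k := k) T (by rw [map_mul, hca])) with h1 | h1
      · left; rw [h1, map_zero]
      · right; rw [h1]

theorem isBlockOf_subgroupOf_iff {T M : Subgroup G} (hM : M ≤ T) (a : MonoidAlgebra k T) :
    IsBlockOf (M.subgroupOf T) a ↔ IsBlockOf M (incl k T a) := by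
  rw [← isBlockOf_map_iff, Subgroup.map_subgroupOf_eq_of_le hM]

/-- Relative version of `covering`. -/
theorem covering_rel [Finite G] {E S R : Subgroup G} (hSE : S ≤ E) (hRE : R ≤ E)
    (hnorm : ∀ x ∈ E, ∀ s ∈ S, x * s * x⁻¹ ∈ S) {f e a : MonoidAlgebra k G}
    (hf : IsBlockOf S f) (he : IsIdempotentElem e) (hfe : f * e ≠ 0)
    (haE : a ∈ SubAlg k E) (ha : a ∈ Fix (cj k G) R) (hea : e = tr (cj k G) R E a) :
    ∃ x ∈ E, ∃ z ∈ SubAlg k S, z ∈ Fix (cj k G) (S ⊓ conjS x R) ∧
      f = tr (cj k G) (S ⊓ conjS x R) S z := by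
  obtain ⟨f', rfl⟩ := exists_incl E (SubAlg_mono hSE hf.mem.1)
  obtain ⟨a', rfl⟩ := exists_incl E haE
  have hmapS : (S.subgroupOf E).map E.subtype = S := Subgroup.map_subgroupOf_eq_of_le hSE
  have hmapR : (R.subgroupOf E).map E.subtype = R := Subgroup.map_subgroupOf_eq_of_le hRE
  have htop : (⊤ : Subgroup E).map E.subtype = E := by
    rw [← MonoidHom.range_eq_map, Subgroup.range_subtype]
  have ha' : a' ∈ Fix (cj k E) (R.subgroupOf E) := by
    rw [← incl_mem_Fix_iff, hmapR]; exact ha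
  have hS : (S.subgroupOf E).Normal := by
    constructor
    intro s hs x
    rw [Subgroup.mem_subgroupOf] at hs ⊢
    exact hnorm x x.2 s hs
  have hf' : IsBlockOf (S.subgroupOf E) f' := (isBlockOf_subgroupOf_iff hSE f').mpr hf
  have hea' : e = incl k E (tr (cj k E) (R.subgroupOf E) ⊤ a') := by
    rw [incl_tr_gen E ha', hmapR, htop, hea]
  have he' : IsIdempotentElem (tr (cj k E) (R.subgroupOf E) ⊤ a') := by
    apply incl_injective (k := k) E
    rw [map_mul, ← hea']
    exact he
  obtain ⟨x, z, hz, hzF, hfz⟩ := covering hf' he'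
    (by
      intro h0
      apply hfe
      rw [hea', ← map_mul, h0, map_zero]) ha' rfl
  have hmap2 : ((S.subgroupOf E) ⊓ conjS x (R.subgroupOf E)).map E.subtype =
      S ⊓ conjS (x : G) R := by
    ext y
    constructor
    · rintro ⟨w, hw, rfl⟩
      rw [SetLike.mem_coe, Subgroup.mem_inf, mem_conjS, Subgroup.mem_subgroupOf,
        Subgroup.mem_subgroupOf] at hw
      exact Subgroup.mem_inf.mpr ⟨hw.1, mem_conjS.mpr hw.2⟩
    · intro hy
      rw [Subgroup.mem_inf, mem_conjS] at hy
      refine ⟨⟨y, hSE hy.1⟩, ?_, rfl⟩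
      rw [SetLike.mem_coe, Subgroup.mem_inf, mem_conjS, Subgroup.mem_subgroupOf,
        Subgroup.mem_subgroupOf]
      exact hy
  refine ⟨x, x.2, incl k E z, ?_, ?_, ?_⟩
  · have := (incl_mem_SubAlg_iff E _ z).mpr hz
    rwa [hmapS] at this
  · rw [← hmap2, incl_mem_Fix_iff]
    exact hzF
  · conv_lhs => rw [hfz]
    rw [incl_tr_gen E hzF, hmap2, hmapS]

end Transport

end Vale.Agent.P180
end
end

section

section

namespace Vale.Agent.P180

set_option linter.unusedSectionVars false

section Fixed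

theorem exists_fixed (p : ℕ) [Fact p.Prime] {k : Type*} [Field k] [CharP k p] {V : Type*}
    [Group V] [Finite V] (hV : IsPGroup p V) {M : Type*} [AddCommGroup M] [Module k M]
    (ρ : V →* (M →ₗ[k] M)) (W : Submodule k M) (hW : ∀ v, ∀ x ∈ W, ρ v x ∈ W)
    (h : W ≠ ⊥) : ∃ x ∈ W, x ≠ 0 ∧ ∀ v, ρ v x = x := by
  obtain ⟨x, hxW, hx0⟩ := (Submodule.ne_bot_iff W).mp h
  let _ : Algebra (ZMod p) k := ZMod.algebra k p
  let _ : Module (ZMod p) M := Module.compHom M (algebraMap (ZMod p) k)
  let X : Submodule (ZMod p) M := Submodule.span (ZMod p) (Set.range fun v => ρ v x)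
  have hXfin : Module.Finite (ZMod p) X :=
    Module.Finite.span_of_finite (ZMod p) (Set.finite_range _)
  have hXf : Finite X := Module.finite_of_finite (ZMod p)
  have hsm : ∀ (c : ZMod p) (y : M), c • y = (algebraMap (ZMod p) k c) • y := fun _ _ => rfl
  have hXW : ∀ y ∈ X, y ∈ W := by
    intro y hy
    induction hy using Submodule.span_induction with
    | mem y hy =>
      obtain ⟨v, rfl⟩ := hy
      exact hW v x hxW
    | zero => exact W.zero_mem
    | add y z _ _ hy hz => exact W.add_mem hy hz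
    | smul c y _ hy => rw [hsm]; exact W.smul_mem _ hy
  have hXV : ∀ v, ∀ y ∈ X, ρ v y ∈ X := by
    intro v y hy
    induction hy using Submodule.span_induction with
    | mem y hy =>
      obtain ⟨w, rfl⟩ := hy
      apply Submodule.subset_span
      refine ⟨v * w, ?_⟩
      change ρ (v * w) x = ρ v (ρ w x)
      rw [map_mul]; rfl
    | zero => rw [map_zero]; exact X.zero_mem
    | add y z _ _ hy hz => rw [map_add]; exact X.add_mem hy hz
    | smul c y _ hy => rw [hsm, map_smul, ← hsm]; exact X.smul_mem _ hy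
  let _ : MulAction V X :=
    { smul := fun v y => ⟨ρ v y.1, hXV v y.1 y.2⟩
      one_smul := fun y => Subtype.ext (by
        change ρ 1 y.1 = y.1
        rw [map_one]; rfl)
      mul_smul := fun v w y => Subtype.ext (by
        change ρ (v * w) y.1 = ρ v (ρ w y.1)
        rw [map_mul]; rfl) }
  have hx1 : ρ 1 x = x := by rw [map_one]; rfl
  have hxX : x ∈ X := Submodule.subset_span ⟨1, hx1⟩
  have hord : addOrderOf (⟨x, hxX⟩ : X) = p := by
    apply addOrderOf_eq_prime
    · apply Subtype.ext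
      change p • x = 0
      rw [← Nat.cast_smul_eq_nsmul k, CharP.cast_eq_zero, zero_smul]
    · intro h0
      exact hx0 (congrArg Subtype.val h0)
  have hdvd : p ∣ Nat.card X := by
    have h1 := addOrderOf_dvd_natCard (⟨x, hxX⟩ : X)
    rwa [hord] at h1
  have h0 : (0 : X) ∈ MulAction.fixedPoints V X := by
    intro v
    apply Subtype.ext
    change ρ v 0 = 0
    rw [map_zero]
  obtain ⟨y, hy, hy0⟩ := hV.exists_fixed_point_of_prime_dvd_card_of_fixed_point X hdvd h0
  refine ⟨y.1, hXW y.1 y.2, ?_, ?_⟩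
  · intro h1
    exact hy0 (Subtype.ext h1).symm
  · intro v
    exact congrArg Subtype.val (hy v)

end Fixed

section Aug

variable {k : Type*} [Field k] {G : Type*} [Group G]

/-- The augmentation. -/
noncomputable def aug (k : Type*) [Field k] (G : Type*) [Group G] : MonoidAlgebra k G →ₐ[k] k :=
  MonoidAlgebra.lift k k G (1 : G →* k)

theorem aug_single (g : G) (c : k) : aug k G (MonoidAlgebra.single g c) = c := by
  rw [aug, MonoidAlgebra.lift_single]
  simp

theorem aug_cj (g : G) (a : MonoidAlgebra k G) : aug k G (cj k G g a) = aug k G a := by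
  rw [cj_eq, map_mul, map_mul, aug_single, aug_single]
  simp

theorem aug_tr [Finite G] (H K : Subgroup G) (a : MonoidAlgebra k G) :
    aug k G (tr (cj k G) H K a) = (H.relIndex K : k) * aug k G a := by
  have _ := Fintype.ofFinite (K ⧸ H.subgroupOf K)
  rw [tr_def, map_sum]
  simp only [aug_cj]
  rw [Finset.sum_const, Finset.card_univ, Subgroup.relIndex, Subgroup.index,
    Nat.card_eq_fintype_card, nsmul_eq_mul]

theorem aug_eq_one (p : ℕ) [Fact p.Prime] [CharP k p] [Finite G] {V : Subgroup G}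
    (hV : IsPGroup p V) {e : MonoidAlgebra k G} (he : e ∈ ZAlg k V) (hi : IsIdempotentElem e)
    (h0 : e ≠ 0) : aug k G e = 1 := by
  let ρ : V →* (MonoidAlgebra k G →ₗ[k] MonoidAlgebra k G) :=
    { toFun := fun v => LinearMap.mulLeft k (MonoidAlgebra.single (v : G) 1)
      map_one' := by
        rw [Subgroup.coe_one, ← MonoidAlgebra.one_def, LinearMap.mulLeft_one]
        rfl
      map_mul' := by
        intro v w
        rw [Subgroup.coe_mul]
        have : (MonoidAlgebra.single ((v : G) * (w : G)) (1 : k)) =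
            MonoidAlgebra.single (v : G) 1 * MonoidAlgebra.single (w : G) 1 := by
          rw [MonoidAlgebra.single_mul_single, one_mul]
        rw [this, LinearMap.mulLeft_mul]
        rfl }
  have hρ : ∀ (v : V) (a : MonoidAlgebra k G), ρ v a = MonoidAlgebra.single (v : G) 1 * a :=
    fun _ _ => rfl
  let W : Submodule k (MonoidAlgebra k G) := LinearMap.range (LinearMap.mulLeft k e)
  have hcomm : ∀ v ∈ V, MonoidAlgebra.single v 1 * e = e * MonoidAlgebra.single v (1 : k) :=
    mem_Fix_cj_iff.mp he.2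
  obtain ⟨w, hw, hw0, hfix⟩ := exists_fixed p hV ρ W (by
    rintro v _ ⟨y, rfl⟩
    refine ⟨MonoidAlgebra.single (v : G) 1 * y, ?_⟩
    rw [hρ, LinearMap.mulLeft_apply, LinearMap.mulLeft_apply, ← mul_assoc, ← mul_assoc,
      hcomm v v.2]) (by
    rw [Submodule.ne_bot_iff]
    exact ⟨e, ⟨e, hi⟩, h0⟩)
  have hew : e * w = w := by
    obtain ⟨y, rfl⟩ := hw
    rw [LinearMap.mulLeft_apply, ← mul_assoc, hi.eq]
  have key : ∀ u ∈ SubAlg k V, u * w = aug k G u • w := by
    intro u hu
    refine SuppIn.induction (P := fun u => u * w = aug k G u • w) hu ?_ ?_ ?_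
    · simp
    · intro x y hx hy
      rw [add_mul, hx, hy, map_add, add_smul]
    · intro x hx c
      have := hfix ⟨x, hx⟩
      rw [hρ] at this
      rw [smul_mul_assoc, this, map_smul, aug_single, smul_eq_mul, mul_one]
  have h1 : w = aug k G e • w := by
    conv_lhs => rw [← hew]
    exact key e he.1
  have h2 : (aug k G e - 1) • w = 0 := by
    rw [sub_smul, one_smul, ← h1, sub_self]
  rcases smul_eq_zero.mp h2 with h3 | h3
  · exact sub_eq_zero.mp h3
  · exact absurd h3 hw0

theorem op_le (p : ℕ) [Fact p.Prime] [CharP k p] [Finite G] {V D : Subgroup G} [V.Normal]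
    (hV : IsPGroup p V) {b a : MonoidAlgebra k G} (hb : IsIdempotentElem b) (hb0 : b ≠ 0)
    (ha : a ∈ Fix (cj k G) D) (hba : b = tr (cj k G) D ⊤ a) : V ≤ D := by
  have hbF : b ∈ Fix (cj k G) ⊤ := by rw [hba]; exact tr_mem_Fix ha
  obtain ⟨e, he, hbe⟩ := exists_isPrimIn (ZAlg k V) ZAlg_comm hb0
  have hcomm : e * b = b * e := commute_of_mem (SubAlg_top e) hbF
  obtain ⟨x, z, hz, hzF, hez⟩ := covering he hb (by rwa [hcomm]) ha hba
  have h1 := aug_eq_one p hV he.mem he.idem he.ne_zero
  rw [hez, aug_tr] at h1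
  have h2 : (((V ⊓ conjS x D).relIndex V : ℕ) : k) ≠ 0 := by
    intro h0
    rw [h0, zero_mul] at h1
    exact zero_ne_one h1
  obtain ⟨n, hn⟩ := hV.index ((V ⊓ conjS x D).subgroupOf V)
  have hn' : (V ⊓ conjS x D).relIndex V = p ^ n := hn
  have hn0 : n = 0 := by
    by_contra hne
    apply h2
    rw [hn', CharP.cast_eq_zero_iff k p]
    exact dvd_pow_self p hne
  rw [hn0, pow_zero, Subgroup.relIndex_eq_one] at hn'
  intro v hv
  have h3 : x * v * x⁻¹ ∈ V := ‹V.Normal›.conj_mem v hv x
  have h4 := (Subgroup.mem_inf.mp (hn' h3)).2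
  rw [mem_conjS] at h4
  simpa [mul_assoc] using h4

end Aug

end Vale.Agent.P180
end
end

section

section

namespace Vale.Agent.P180

open scoped Nat

set_option linter.unusedSectionVars false

section

variable {k : Type*} [Field k] {G : Type*} [Group G] [Finite G]

/-- A block of a normal subgroup that is stable acts as the identity on any block above it. -/
theorem mul_stable_eq {N : Subgroup G} {b e : MonoidAlgebra k G} (hb : IsBlockOf ⊤ b)
    (he : IsBlockOf N e) (hst : ∀ g, cj k G g e = e) (hbe : b * e ≠ 0) : b * e = b := by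
  have heF : e ∈ Fix (cj k G) ⊤ := fun g _ => hst g
  have heZ : e ∈ ZAlg k (⊤ : Subgroup G) := ⟨SubAlg_top e, heF⟩
  have hc : b * e = e * b := ZAlg_comm b hb.mem e heZ
  have h1 : IsIdempotentElem (b * e) := by
    change b * e * (b * e) = b * e
    rw [hc, mul_assoc, ← mul_assoc b e, hc, mul_assoc e b b, hb.idem.eq, ← mul_assoc, he.idem.eq]
  rcases hb.primitive _ ((ZAlg k _).mul_mem hb.mem heZ) h1 (by
    rw [hc, mul_assoc, hb.idem.eq]) with h | h
  · exact absurd h hbe
  · exact h

/-- If `f` is a block of `S ≤ E`, fixed by `E`, then `f * e ∈ {0, e}` for a block `e` of `E`. -/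
theorem mul_block_eq {S E : Subgroup G} (hSE : S ≤ E) {f e : MonoidAlgebra k G}
    (hf : IsBlockOf S f) (hfE : f ∈ Fix (cj k G) E) (he : IsBlockOf E e) (hef : e * f ≠ 0) :
    f * e = e := by
  have hfZ : f ∈ ZAlg k E := ⟨SubAlg_mono hSE hf.mem.1, hfE⟩
  have hc : e * f = f * e := ZAlg_comm e he.mem f hfZ
  have h1 : IsIdempotentElem (f * e) := by
    change f * e * (f * e) = f * e
    rw [← hc, mul_assoc, ← mul_assoc f e, ← hc, mul_assoc e f f, hf.idem.eq, ← mul_assoc,
      he.idem.eq]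
  rcases he.primitive _ ((ZAlg k _).mul_mem hfZ he.mem) h1 (by
    rw [mul_assoc, he.idem.eq]) with h | h
  · exact absurd (hc.trans h) hef
  · exact h

end

section

universe u

variable {k : Type u} [Field k]

end

end Vale.Agent.P180
end
end

section

section

namespace Vale.Agent.P180

open scoped Nat

set_option linter.unusedSectionVars false

section

universe u

variable {k : Type u} [Field k]

theorem caseC_bound' {p m n : ℕ} [Fact p.Prime] [CharP k p] {G : Type} [Group G] [Finite G]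
    {M : Subgroup G} [M.Normal] (hM : Cls p m M) {Z : Subgroup G}
    (hZ : ∀ z ∈ Z, ∀ g, z * g = g * z) (hpZ : ¬ p ∣ Nat.card Z)
    {D : Subgroup G} (hDM : D ≤ M) {a b : MonoidAlgebra k G} (hb : IsBlock b)
    (ha : a ∈ Fix (cj k G) D)
    (hba : b = tr (cj k G) D ⊤ a) (hDn : Nat.card D ≤ n)
    (hST : ∀ N : Subgroup G, N.Normal → ∀ e : MonoidAlgebra k G, IsBlockOf N e → b * e ≠ 0 →
      ∀ g, cj k G g e = e)
    (hNR : ∀ N Y : Subgroup G, N.Normal → Y.Normal → Z ≤ N → Y ≤ N → IsPGroup p Y →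
      (∀ y ∈ Y, ∀ x ∈ N, y * x = x * y) → ∀ e : MonoidAlgebra k G, IsBlockOf N e →
      b * e ≠ 0 → (∃ z ∈ SubAlg k N, z ∈ Fix (cj k G) Y ∧ e = tr (cj k G) Y N z) →
      Nat.card N = Nat.card Z * Nat.card Y) :
    Z.index ≤ n ! * (n * m)! * n := by
  classical
  have hb1 := isBlock_iff.mp hb
  have hbF : b ∈ Fix (cj k G) ⊤ := hb1.mem.2
  have hbc : ∀ x, x * b = b * x := fun x => commute_of_mem (SubAlg_top x) hbF
  have hZn : Z.Normal := by
    constructor
    intro z hz g
    rw [← hZ z hz g, mul_inv_cancel_right]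
    exact hz
  obtain ⟨V, hVn, hVp, hVmax⟩ := exists_Op (p := p) (G := G)
  have hVD : V ≤ D := op_le p hVp hb.idem hb.ne_zero ha hba
  have hVcard : Nat.card V ≤ n := (Nat.card_le_card_of_injective _
    (Subgroup.inclusion_injective hVD)).trans hDn
  set C := Subgroup.centralizer (V : Set G) with hCdef
  have hCn : C.Normal := inferInstance
  set Y0 := V ⊓ C with hY0
  have hY0n : Y0.Normal := inferInstance
  have hY0p : IsPGroup p Y0 := hVp.to_le inf_le_left
  set W := Z ⊔ Y0 with hWdef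
  have hWn : W.Normal := inferInstance
  have hZC : Z ≤ C := by
    intro z hz
    rw [hCdef, Subgroup.mem_centralizer_iff]
    intro v _
    exact (hZ z hz v).symm
  have hWC : W ≤ C := sup_le hZC inf_le_right
  have hcent : ∀ w ∈ W, ∀ c ∈ C, w * c = c * w := by
    have h1 : W ≤ Subgroup.centralizer (C : Set G) := by
      refine sup_le ?_ ?_
      · intro z hz
        rw [Subgroup.mem_centralizer_iff]
        intro v _
        exact (hZ z hz v).symm
      · intro y hy
        rw [Subgroup.mem_centralizer_iff]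
        intro c hc
        exact ((Subgroup.mem_centralizer_iff.mp hc) y (Subgroup.mem_inf.mp hy).1).symm
    intro w hw c hc
    exact (Subgroup.mem_centralizer_iff.mp (h1 hw) c hc).symm
  have hcardW : Nat.card W = Nat.card Z * Nat.card Y0 := card_sup_eq hpZ hY0p
  have hrelW : Y0.relIndex W = Nat.card Z := relIndex_sup_eq hpZ hY0p
  have hY0W : Y0 ≤ W := le_sup_right
  -- the application of the group theory
  obtain ⟨𝒮, h1, h2, h3, h4⟩ := group_theory_W' C W M hM hWC hcent (by
    intro X hXn hWX hXC hXW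
    refine ⟨?_, ?_, ?_⟩
    · intro hX
      apply hXW
      refine le_antisymm ?_ hWX
      have hX' : ∀ x ∈ X, ∃ n : ℕ, x ^ p ^ n ∈ Z := by
        intro x hx
        obtain ⟨i, hi⟩ := hX x hx
        obtain ⟨z, hz, y, hy, hzy⟩ := mem_sup_of_commute (fun z hz y _ => hZ z hz y) hi
        obtain ⟨j, hj⟩ := hY0p ⟨y, hy⟩
        have hj' : y ^ p ^ j = 1 := congrArg Subtype.val hj
        refine ⟨i + j, ?_⟩
        rw [pow_add, pow_mul, ← hzy, (show Commute z y from hZ z hz y).mul_pow, hj', mul_one]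
        exact Z.pow_mem hz _
      obtain ⟨P, hPn, hPp, hPX, hXP⟩ := exists_normal_pSubgroup hZ hpZ
        ((le_sup_left (a := Z) (b := Y0)).trans hWX) hX'
      refine hXP.trans (sup_le le_sup_left ?_)
      exact (le_inf (hVmax P hPn hPp) (hPX.trans hXC)).trans hY0W
    · by_contra hnd
      apply hXW
      have hY0X : Y0 ≤ X := hY0W.trans hWX
      have hnd' : ¬ p ∣ Y0.relIndex X := by
        rw [← Subgroup.relIndex_mul_relIndex _ _ _ hY0W hWX, hrelW]
        intro hd
        rcases (Nat.Prime.dvd_mul Fact.out).mp hd with h | h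
        · exact hpZ h
        · exact hnd h
      obtain ⟨e, he, hbe⟩ := exists_isPrimIn (ZAlg k X) ZAlg_comm hb.ne_zero
      have hcard := hNR X Y0 hXn hY0n ((le_sup_left (a := Z) (b := Y0)).trans hWX) hY0X hY0p
        (fun y hy x hx => hcent y (hY0W hy) x (hXC hx)) e he hbe
        ⟨_, Subalgebra.smul_mem _ he.mem.1 _, Subalgebra.smul_mem _ (Fix_mono _ hY0X he.mem.2) _,
          eq_tr_of_not_dvd p hnd' he.mem.2⟩
      rw [← hcardW] at hcard
      exact (Subgroup.eq_of_le_of_card_ge hWX hcard.le).symm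
    · intro hXM
      apply hXW
      have hY0X : Y0 ≤ X := hY0W.trans hWX
      obtain ⟨e, he, hbe⟩ := exists_isPrimIn (ZAlg k X) ZAlg_comm hb.ne_zero
      obtain ⟨x, z, hz, hzF, hez⟩ := covering he hb.idem (by rwa [hbc e]) ha hba
      have hQW : X ⊓ conjS x D ≤ W := by
        intro q hq
        obtain ⟨hq1, hq2⟩ := Subgroup.mem_inf.mp hq
        refine hXM (Subgroup.mem_inf.mpr ⟨hq1, ?_⟩)
        rw [mem_conjS] at hq2
        have h5 := (inferInstance : M.Normal).conj_mem _ (hDM hq2) x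
        simpa [mul_assoc] using h5
      have hnd : ¬ p ∣ Y0.relIndex W := by rw [hrelW]; exact hpZ
      have hz2F : tr (cj k G) (X ⊓ conjS x D) W z ∈ Fix (cj k G) W := tr_mem_Fix hzF
      have h5 := eq_tr_of_not_dvd p hnd hz2F
      have hcard := hNR X Y0 hXn hY0n ((le_sup_left (a := Z) (b := Y0)).trans hWX) hY0X hY0p
        (fun y hy x hx => hcent y (hY0W hy) x (hXC hx)) e he hbe
        ⟨_, Subalgebra.smul_mem _ (tr_mem_SubAlg hWX hz) _,
          Subalgebra.smul_mem _ (Fix_mono _ hY0W hz2F) _, by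
          rw [← tr_tr (Subalgebra.smul_mem _ (Fix_mono _ hY0W hz2F) _) hY0W hWX, ← h5,
            tr_tr hzF hQW hWX]
          exact hez⟩
      rw [← hcardW] at hcard
      exact (Subgroup.eq_of_le_of_card_ge hWX hcard.le).symm)
  -- the subgroup `E`
  set E := W ⊔ sSup 𝒮 with hE
  have hSE : ∀ S ∈ 𝒮, S ≤ E := fun S hS => (le_sSup hS).trans le_sup_right
  have hsupn : ∀ 𝒯 : Set (Subgroup G),
      (∀ S ∈ 𝒯, ∀ g : G, S.map (MulAut.conj g).toMonoidHom ∈ 𝒯) → (W ⊔ sSup 𝒯).Normal := by
    intro 𝒯 h𝒯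
    have h5 : (sSup 𝒯).Normal := by
      constructor
      intro x hx g
      have h6 : sSup 𝒯 ≤ (sSup 𝒯).comap (MulAut.conj g).toMonoidHom := by
        refine sSup_le fun S hS => ?_
        rw [← Subgroup.map_le_iff_le_comap]
        exact le_sSup (h𝒯 S hS g)
      exact h6 hx
    infer_instance
  have hEn : E.Normal := hsupn 𝒮 h3
  have hWcentE : ∀ S ∈ 𝒮, ∀ w ∈ W, ∀ x ∈ S, w * x = x * w :=
    fun S hS w hw x hx => hcent w hw x ((h1 S hS).2.1 hx)
  obtain ⟨e, he, hbe⟩ := exists_isPrimIn (ZAlg k E) ZAlg_comm hb.ne_zero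
  have hest := hST E hEn e he hbe
  have hbee : b * e = b := mul_stable_eq hb1 he hest hbe
  obtain ⟨x, a', ha'E, ha'F, hea'⟩ := covering he hb.idem (by rwa [hbc e]) ha hba
  set R := E ⊓ conjS x D with hR
  have hRcard : Nat.card R ≤ n := by
    refine le_trans ?_ hDn
    have h5 : Nat.card (conjS x D) = Nat.card D :=
      Nat.card_congr (D.equivMapOfInjective _ (MulAut.conj x).injective).symm.toEquiv
    rw [← h5]
    exact Nat.card_le_card_of_injective _ (Subgroup.inclusion_injective inf_le_right)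
  -- blocks of `S` are fixed by `E`
  have hfix : ∀ S ∈ 𝒮, ∀ f : MonoidAlgebra k G, IsBlockOf S f → f ∈ Fix (cj k G) E := by
    intro S hS f hf
    have h5 : E ≤ stabE f := by
      refine sup_le ?_ (sSup_le ?_)
      · exact (h1 S hS).1.trans (le_stabE hf)
      · intro S' hS'
        by_cases hSS : S = S'
        · rw [← hSS]; exact le_stabE hf
        · intro y hy
          rw [mem_stabE]
          exact cj_eq_self_of_commute hf.mem.1 fun s hs => (h2 S hS S' hS' hSS s hs y hy).symm
    exact fun g hg => h5 hg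
  -- normality of `S` in `E`
  have hSinv : ∀ S ∈ 𝒮, ∀ y ∈ E, ∀ s ∈ S, y * s * y⁻¹ ∈ S := by
    intro S hS
    have h5 : E ≤ Subgroup.normalizer (S : Set G) := by
      refine sup_le ?_ (sSup_le ?_)
      · exact (h1 S hS).1.trans Subgroup.le_normalizer
      · intro S' hS'
        by_cases hSS : S = S'
        · rw [← hSS]; exact Subgroup.le_normalizer
        · intro y hy
          rw [Subgroup.mem_normalizer_iff]
          intro s
          have h6 := h2 S hS S' hS' hSS
          constructor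
          · intro hs
            rw [← h6 s hs y hy, mul_inv_cancel_right]
            exact hs
          · intro hs
            have h7 := h6 _ hs y hy
            have h8 : y * s * y⁻¹ = s := by
              calc y * s * y⁻¹ = y⁻¹ * (y * (y * s * y⁻¹)) := by group
                _ = y⁻¹ * (y * s * y⁻¹ * y) := by rw [h7]
                _ = s := by group
            rwa [h8] at hs
    intro y hy s hs
    exact (Subgroup.mem_normalizer_iff.mp (h5 hy) s).mp hs
  -- the set `J`
  let J : Set (Subgroup G) := {S | S ∈ 𝒮 ∧ ∃ z ∈ SubAlg k S, z ∈ Fix (cj k G) W ∧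
    tr (cj k G) W S z * e = e}
  have hconjW : ∀ g : G, conjS g W = W := by
    intro g
    ext y
    rw [mem_conjS]
    constructor
    · intro hy
      have := hWn.conj_mem _ hy g
      simpa [mul_assoc] using this
    · intro hy
      have := hWn.conj_mem _ hy g⁻¹
      simpa [mul_assoc] using this
  have hJ : ∀ S, S ∉ J := by
    intro S0 hS0
    have hJconj : ∀ S ∈ J, ∀ g : G, S.map (MulAut.conj g).toMonoidHom ∈ J := by
      rintro S ⟨hS, z, hz, hzW, hze⟩ g
      refine ⟨h3 S hS g, cj k G g z, ?_, ?_, ?_⟩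
      · exact SuppIn.conj hz g fun s hs => mem_conjS.mpr (by simpa [mul_assoc] using hs)
      · have := conj_mem_Fix hzW g (H' := W) fun h hh => by
          simpa using hWn.conj_mem h hh g⁻¹
        exact this
      · have h5 := cj_tr g (K := S) hzW
        rw [hconjW] at h5
        change tr (cj k G) W (conjS g S) (cj k G g z) * e = e
        rw [← h5]
        conv_lhs => rhs; rw [← hest g]
        rw [← map_mul, hze, hest]
    have hJfin : J.Finite := Set.toFinite J
    let s : Finset (Subgroup G) := hJfin.toFinset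
    have hmem : ∀ {S}, S ∈ s ↔ S ∈ J := hJfin.mem_toFinset
    have hsup : s.sup id = sSup J := by
      rw [Finset.sup_id_eq_sSup, hJfin.coe_toFinset]
    choose! z hz using fun (S : Subgroup G) (hS : S ∈ J) => hS.2
    obtain ⟨z', hz', hz'W, hz'e⟩ := exists_prod_tr (k := k) (id : Subgroup G → Subgroup G)
      (W := W) e z s
      (fun S hS => (h1 S (hmem.mp hS).1).1)
      (fun S hS => (h1 S (hmem.mp hS).1).2.2.2)
      (fun S hS S' hS' hne => h2 S (hmem.mp hS).1 S' (hmem.mp hS').1 hne)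
      (fun S hS => hWcentE S (hmem.mp hS).1)
      (fun S hS => (hz S (hmem.mp hS)).1)
      (fun S hS => (hz S (hmem.mp hS)).2.1)
      (fun S hS => (hz S (hmem.mp hS)).2.2)
    rw [hsup] at hz' hz'e
    set N := W ⊔ sSup J with hN
    have hNn : N.Normal := hsupn J hJconj
    have hWN : W ≤ N := le_sup_left
    obtain ⟨f, hf, hbf⟩ := exists_isPrimIn (ZAlg k N) ZAlg_comm hb.ne_zero
    have hz'b : tr (cj k G) W N z' * b = b := by
      conv_lhs => rw [← hbee, ← hbc, ← mul_assoc, hz'e]
      rw [hbc, hbee]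
    obtain ⟨z2, hz2, hz2W, hfz2⟩ := block_tr hWN hf (by rwa [hbc]) hz' hz'W hz'b
    have hnd : ¬ p ∣ Y0.relIndex W := by rw [hrelW]; exact hpZ
    have h5 := eq_tr_of_not_dvd p hnd hz2W
    have hcard := hNR N Y0 hNn hY0n ((le_sup_left (a := Z) (b := Y0)).trans hWN)
      (hY0W.trans hWN) hY0p
      (fun y hy x hx => by
        have h6 : N ≤ C := sup_le hWC (sSup_le fun S hS => (h1 S hS.1).2.1)
        exact hcent y (hY0W hy) x (h6 hx)) f hf hbf
      ⟨_, Subalgebra.smul_mem _ hz2 _, Subalgebra.smul_mem _ (Fix_mono _ hY0W hz2W) _, by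
        rw [hfz2]
        conv_lhs => rw [h5]
        rw [tr_tr (Subalgebra.smul_mem _ (Fix_mono _ hY0W hz2W) _) hY0W hWN]⟩
    rw [← hcardW] at hcard
    have hNW : W = N := Subgroup.eq_of_le_of_card_ge hWN hcard.le
    apply (h1 S0 hS0.1).2.2.1
    refine le_antisymm ?_ (h1 S0 hS0.1).1
    rw [hNW]
    exact (le_sSup hS0).trans le_sup_right
  -- the elements `r_S`
  have hr : ∀ S ∈ 𝒮, ∃ r ∈ R, r ∈ S ∧ r ∉ W := by
    intro S hS
    obtain ⟨f, hf, hef⟩ := exists_isPrimIn (ZAlg k S) ZAlg_comm he.ne_zero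
    have hfE := hfix S hS f hf
    have hfe : f * e = e := mul_block_eq (hSE S hS) hf hfE he hef
    obtain ⟨y, hy, z, hz, hzF, hfz⟩ := covering_rel (hSE S hS) inf_le_left (hSinv S hS) hf
      he.idem (by rw [hfe]; exact he.ne_zero) ha'E ha'F hea'
    by_contra hcon
    push Not at hcon
    have hle : S ⊓ conjS y R ≤ W := by
      intro r hr
      obtain ⟨hr1, hr2⟩ := Subgroup.mem_inf.mp hr
      rw [mem_conjS] at hr2
      have h5 : y⁻¹ * r * y ∈ S := by
        have := hSinv S hS y⁻¹ (E.inv_mem hy) r hr1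
        rwa [inv_inv] at this
      have h6 := hcon _ hr2 h5
      have := hWn.conj_mem _ h6 y
      simpa [mul_assoc] using this
    apply hJ S
    refine ⟨hS, tr (cj k G) (S ⊓ conjS y R) W z, tr_mem_SubAlg (h1 S hS).1 hz, tr_mem_Fix hzF, ?_⟩
    rw [tr_tr hzF hle (h1 S hS).1, ← hfz, hfe]
  choose! r hr1 hr2 hr3 using hr
  have hcard𝒮 : Nat.card 𝒮 ≤ n := by
    refine le_trans (Nat.card_le_card_of_injective
      (fun S : 𝒮 => (⟨r S.1, hr1 S.1 S.2⟩ : R)) ?_) hRcard
    rintro ⟨S, hS⟩ ⟨S', hS'⟩ hSS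
    have h5 : r S = r S' := congrArg Subtype.val hSS
    by_contra hne
    have hne' : S ≠ S' := fun h => hne (Subtype.ext h)
    apply hr3 S hS
    refine (h1 S hS).2.2.2 _ (hr2 S hS) fun y hy => ?_
    rw [h5]
    exact (h2 S hS S' hS' hne' y hy _ (hr2 S' hS')).symm
  -- the final bound
  have hZW : Z ≤ W := le_sup_left
  have e1 : Z.index = Z.relIndex W * (W.relIndex C * C.index) := by
    rw [Subgroup.relIndex_mul_index hWC, Subgroup.relIndex_mul_index hZW]
  have e2 : Z.relIndex W ≤ n := by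
    have h5 := Subgroup.card_mul_index (Z.subgroupOf W)
    rw [hcardW, Nat.card_congr (Subgroup.subgroupOfEquivOfLe hZW).toEquiv] at h5
    have h6 : Z.relIndex W = Nat.card Y0 := Nat.eq_of_mul_eq_mul_left Nat.card_pos h5
    rw [h6]
    exact (Nat.card_le_card_of_injective _ (Subgroup.inclusion_injective inf_le_left)).trans
      hVcard
  have e3 : W.relIndex C ≤ (n * m)! :=
    h4.trans (Nat.factorial_le (Nat.mul_le_mul_right m hcard𝒮))
  have e4 : C.index ≤ n ! := (index_centralizer_le V).trans (Nat.factorial_le hVcard)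
  rw [e1]
  calc Z.relIndex W * (W.relIndex C * C.index) ≤ n * ((n * m)! * n !) :=
        Nat.mul_le_mul e2 (Nat.mul_le_mul e3 e4)
    _ = n ! * (n * m)! * n := by ring

end

end Vale.Agent.P180
end
end

section

section

namespace Vale.Agent.P180

open scoped Nat

set_option linter.unusedSectionVars false

section Solv

theorem Cls.mono {p m m' : ℕ} (h : m ≤ m') {G : Type} [Group G] (hG : Cls p m G) :
    Cls p m' G := fun K S _ _ f hf hp => (hG K S f hf hp).trans h

theorem Cls.of_injective {p m : ℕ} {G H : Type} [Group G] [Group H] (hG : Cls p m G)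
    (f : H →* G) (hf : Function.Injective f) : Cls p m H := by
  have h1 := hG.subgroup f.range
  exact h1.of_surjective (MonoidHom.ofInjective hf).symm.toMonoidHom
    (MonoidHom.ofInjective hf).symm.surjective

theorem Cls.of_solvable {p : ℕ} [Fact p.Prime] {L : Type} [Group L] [Finite L] [Group.IsSolvable L] :
    Cls p p L := by
  intro K S _ _ f hf hp
  have h1 : Group.IsSolvable S := Group.isSolvable_of_surjective hf
  have h2 : Finite S := Finite.of_surjective f hf
  have h3 : ∀ a b : S, a * b = b * a := IsSimpleGroup.comm_iff_isSolvable.mpr h1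
  let _ : CommGroup S := { (inferInstance : Group S) with mul_comm := h3 }
  have h4 : (Nat.card S).Prime := IsSimpleGroup.prime_card
  exact ((Nat.prime_dvd_prime_iff_eq Fact.out h4).mp hp).symm.le

theorem solvable_of_central {p : ℕ} [Fact p.Prime] {L : Type} [Group L] [Finite L]
    {Z : Subgroup L} (hZ : ∀ z ∈ Z, ∀ g, z * g = g * z) {j : ℕ} (hj : Z.index = p ^ j) :
    Group.IsSolvable L := by
  have hZn : Z.Normal := by
    constructor
    intro z hz g
    rw [← hZ z hz g, mul_inv_cancel_right]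
    exact hz
  have h1 : IsPGroup p (L ⧸ Z) := IsPGroup.of_card (n := j) hj
  have h2 : Group.IsNilpotent (L ⧸ Z) := h1.isNilpotent
  have h3 : Group.IsSolvable Z := Group.isSolvable_of_comm fun a b => Subtype.ext (hZ a a.2 b)
  refine Group.isSolvable_of_ker_le_range Z.subtype (QuotientGroup.mk' Z) ?_
  rw [QuotientGroup.ker_mk', Subgroup.range_subtype]

end Solv

section

universe u

variable {p m n : ℕ} [Fact p.Prime] {k : Type u} [Field k] [CharP k p]

end

end Vale.Agent.P180
end
end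

section

section

set_option linter.style.haveILetI false
set_option linter.unusedSectionVars false

namespace Vale.Agent.P180.KP

open scoped Classical

section

variable {k : Type*} [Field k] {G : Type*} [Group G]

/-- inclusion of group algebras -/
noncomputable def incl (k : Type*) [Field k] {G : Type*} [Group G] (N : Subgroup G) :
    MonoidAlgebra k N →ₐ[k] MonoidAlgebra k G := MonoidAlgebra.mapDomainAlgHom k k N.subtype

theorem incl_single (N : Subgroup G) (n : N) (r : k) :
    incl k N (MonoidAlgebra.single n r) = MonoidAlgebra.single (n : G) r := by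
  simp [incl]

theorem incl_coeff (N : Subgroup G) (a : MonoidAlgebra k N) (n : N) :
    (incl k N a).coeff n = a.coeff n := by
  induction a using MonoidAlgebra.induction_linear with
  | zero => simp
  | add a b ha hb => rw [map_add, MonoidAlgebra.coeff_add, MonoidAlgebra.coeff_add,
      Finsupp.add_apply, Finsupp.add_apply, ha, hb]
  | single m r =>
    rw [incl_single, MonoidAlgebra.coeff_single, MonoidAlgebra.coeff_single, Finsupp.single_apply,
      Finsupp.single_apply]
    simp only [Subtype.ext_iff]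

theorem incl_injective (N : Subgroup G) : Function.Injective (incl k N) := by
  intro a b hab
  ext n
  rw [← incl_coeff, ← incl_coeff, hab]

theorem incl_mem (N : Subgroup G) (a : MonoidAlgebra k N) : incl k N a ∈ SubAlg k N := by
  induction a using MonoidAlgebra.induction_linear with
  | zero => rw [map_zero]; exact Subalgebra.zero_mem _
  | add a b ha hb => rw [map_add]; exact Subalgebra.add_mem _ ha hb
  | single m r => rw [incl_single]; exact single_mem_SubAlg m.2 r

theorem exists_incl {N : Subgroup G} {a : MonoidAlgebra k G} (ha : a ∈ SubAlg k N) :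
    ∃ a' : MonoidAlgebra k N, incl k N a' = a := by
  refine SuppIn.induction (P := fun a => ∃ a' : MonoidAlgebra k N, incl k N a' = a) ha
    ⟨0, map_zero _⟩ ?_ ?_
  · rintro _ _ ⟨x, rfl⟩ ⟨y, rfl⟩
    exact ⟨x + y, map_add _ _ _⟩
  · intro x hx c
    refine ⟨c • MonoidAlgebra.single ⟨x, hx⟩ 1, ?_⟩
    rw [map_smul, incl_single]

theorem incl_cj (N : Subgroup G) (n : N) (a : MonoidAlgebra k N) :
    incl k N (cj k N n a) = cj k G n (incl k N a) := by
  rw [cj_eq, cj_eq, map_mul, map_mul, incl_single, incl_single]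
  rfl

theorem incl_mem_ZAlg (N : Subgroup G) (a : MonoidAlgebra k N) :
    incl k N a ∈ ZAlg k N ↔ a ∈ Subalgebra.center k (MonoidAlgebra k N) := by
  rw [mem_center_iff_fix, mem_ZAlg]
  constructor
  · rintro ⟨-, h⟩ n _
    apply incl_injective N
    rw [incl_cj]
    exact h n n.2
  · intro h
    refine ⟨incl_mem N a, fun n hn => ?_⟩
    have := h ⟨n, hn⟩ trivial
    rw [← incl_cj N ⟨n, hn⟩, this]

theorem incl_tr [Finite G] (N Y : Subgroup G) [(Y.subgroupOf N).Normal]
    (hY : Y.subgroupOf N ≤ Subgroup.center N) (a : MonoidAlgebra k N) :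
    incl k N (tr (cj k N) (Y.subgroupOf N) ⊤ a) = tr (cj k G) Y N (incl k N a) := by
  letI := Fintype.ofFinite (N ⧸ Y.subgroupOf N)
  rw [tr_top_eq_sum hY, map_sum, tr_def]
  exact Finset.sum_congr rfl fun q _ => incl_cj N _ _

end

section Psi

variable {k : Type*} [Field k] {H : Type*} [Group H]
variable {C : Type*} [CommGroup C] [Finite C]

theorem sum_mul_coeff [Fintype C] (κ : C →* H) (hκ : Function.Injective κ) (Y : Subgroup H)
    [Y.Normal] (hY : κ.range = Y) (b : MonoidAlgebra k H) (n : H) :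
    ((∑ c : C, MonoidAlgebra.single (κ c) (1 : k)) * b).coeff n =
      (qmap k Y b).coeff (QuotientGroup.mk n) := by
  induction b using MonoidAlgebra.induction_linear with
  | zero => simp
  | add a b ha hb => rw [map_add, mul_add, MonoidAlgebra.coeff_add, MonoidAlgebra.coeff_add,
      Finsupp.add_apply, Finsupp.add_apply, ha, hb]
  | single m r =>
    rw [qmap_single, Finset.sum_mul]
    simp only [MonoidAlgebra.single_mul_single, one_mul]
    rw [MonoidAlgebra.coeff_sum, Finsupp.finsetSum_apply]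
    simp only [MonoidAlgebra.coeff_single, Finsupp.single_apply]
    by_cases h : (QuotientGroup.mk m : H ⧸ Y) = QuotientGroup.mk n
    · rw [if_pos h]
      have h1 : n * m⁻¹ ∈ Y := by
        have h2 := (QuotientGroup.eq.mp h)
        have h3 := (inferInstance : Y.Normal).conj_mem _ h2 m
        simpa [mul_assoc] using h3
      rw [← hY] at h1
      obtain ⟨c, hc⟩ := h1
      rw [Finset.sum_eq_single c]
      · rw [if_pos]
        rw [hc]; group
      · intro c' _ hc'
        rw [if_neg]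
        intro h4
        apply hc'
        apply hκ
        rw [hc, ← h4]; group
      · intro h5; exact absurd (Finset.mem_univ c) h5
    · rw [if_neg h]
      apply Finset.sum_eq_zero
      intro c _
      rw [if_neg]
      intro h4
      apply h
      rw [QuotientGroup.eq, ← h4]
      have h5 : κ c ∈ Y := by rw [← hY]; exact ⟨c, rfl⟩
      have h6 := (inferInstance : Y.Normal).conj_mem _ h5 m⁻¹
      simpa [mul_assoc] using h6

theorem sum_mul_eq_zero_iff [Fintype C] (κ : C →* H) (hκ : Function.Injective κ) (Y : Subgroup H)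
    [Y.Normal] (hY : κ.range = Y) (b : MonoidAlgebra k H) :
    (∑ c : C, MonoidAlgebra.single (κ c) (1 : k)) * b = 0 ↔ qmap k Y b = 0 := by
  constructor
  · intro h
    ext x
    induction x using QuotientGroup.induction_on with
    | H n => rw [← sum_mul_coeff κ hκ Y hY, h]; simp
  · intro h
    ext n
    rw [sum_mul_coeff κ hκ Y hY, h]; simp

/-- elements of the kernel of `k[H] → k[H/Y]` -/
theorem exists_of_qmap_eq_zero [Fintype C] (κ : C →* H) (Y : Subgroup H)
    [Y.Normal] (hY : κ.range = Y) (a : MonoidAlgebra k H) (ha : qmap k Y a = 0) :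
    ∃ b : C → MonoidAlgebra k H, a = ∑ c : C, (MonoidAlgebra.single (κ c) (1 : k) - 1) * b c := by
  let s : MonoidAlgebra k (H ⧸ Y) →ₗ[k] MonoidAlgebra k H :=
    MonoidAlgebra.mapDomainLinearMap k k (fun x : H ⧸ Y => x.out)
  have hs : ∀ (x : H ⧸ Y) (r : k), s (MonoidAlgebra.single x r) =
      MonoidAlgebra.single x.out r := by
    intro x r
    exact MonoidAlgebra.mapDomainLinearMap_single _ _ _
  have key : ∀ a : MonoidAlgebra k H, ∃ b : C → MonoidAlgebra k H,
      a - s (qmap k Y a) = ∑ c : C, (MonoidAlgebra.single (κ c) (1 : k) - 1) * b c := by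
    intro a
    induction a using MonoidAlgebra.induction_linear with
    | zero => exact ⟨0, by simp⟩
    | add a b ha hb =>
      obtain ⟨b1, h1⟩ := ha
      obtain ⟨b2, h2⟩ := hb
      refine ⟨b1 + b2, ?_⟩
      simp only [map_add, Pi.add_apply, mul_add, Finset.sum_add_distrib, ← h1, ← h2]
      abel
    | single n r =>
      rw [qmap_single, hs]
      have h1 : n * ((QuotientGroup.mk n : H ⧸ Y).out)⁻¹ ∈ Y := by
        have h2 : ((QuotientGroup.mk n : H ⧸ Y).out)⁻¹ * n ∈ Y := by
          apply QuotientGroup.eq.mp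
          exact QuotientGroup.out_eq' _
        have h3 := (inferInstance : Y.Normal).conj_mem _ h2 (QuotientGroup.mk n : H ⧸ Y).out
        simpa [mul_assoc] using h3
      obtain ⟨c, hc⟩ : n * ((QuotientGroup.mk n : H ⧸ Y).out)⁻¹ ∈ κ.range := by
        rw [hY]; exact h1
      refine ⟨Pi.single c (MonoidAlgebra.single (QuotientGroup.mk n : H ⧸ Y).out r), ?_⟩
      rw [Finset.sum_eq_single c]
      · rw [Pi.single_eq_same, sub_mul, one_mul, MonoidAlgebra.single_mul_single, one_mul, hc]
        have h6 : n * ((QuotientGroup.mk n : H ⧸ Y).out)⁻¹ * (QuotientGroup.mk n : H ⧸ Y).out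
            = n := by group
        congr 2
        exact h6.symm
      · intro c' _ hc'
        rw [Pi.single_eq_of_ne hc', mul_zero]
      · intro h5; exact absurd (Finset.mem_univ c) h5
  obtain ⟨b, hb⟩ := key a
  refine ⟨b, ?_⟩
  rw [← hb, ha, map_zero, sub_zero]

end Psi

section Kap

variable {k : Type*} [Field k] {G : Type*} [Group G]
variable {C : Type*} [CommGroup C] [Finite C]

/-- The map of group algebras induced by `κ : C → G`. -/
noncomputable def kap (k : Type*) [Field k] {G : Type*} [Group G]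
    {C : Type*} [CommGroup C] (κ : C →* G) : MonoidAlgebra k C →ₐ[k] MonoidAlgebra k G :=
  MonoidAlgebra.mapDomainAlgHom k k κ

theorem kap_single (κ : C →* G) (c : C) (r : k) :
    kap k κ (MonoidAlgebra.single c r) = MonoidAlgebra.single (κ c) r := by
  simp [kap]

/-- the sum of the elements of `C` in `k[G]` -/
noncomputable def sigG (k : Type*) [Field k] {G : Type*} [Group G]
    {C : Type*} [CommGroup C] [Finite C] (κ : C →* G) : MonoidAlgebra k G :=
  kap k κ (sig k C)

theorem sigG_eq [Fintype C] (κ : C →* G) :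
    sigG k κ = ∑ c : C, MonoidAlgebra.single (κ c) (1 : k) := by
  unfold sigG sig
  rw [map_sum]
  simp only [kap_single]
  exact Finset.sum_congr (by ext; simp) fun _ _ => rfl

theorem kap_mem {κ : C →* G} {N : Subgroup G} (hN : ∀ c, κ c ∈ N) (l : MonoidAlgebra k C) :
    kap k κ l ∈ SubAlg k N := by
  induction l using MonoidAlgebra.induction_linear with
  | zero => rw [map_zero]; exact Subalgebra.zero_mem _
  | add a b ha hb => rw [map_add]; exact Subalgebra.add_mem _ ha hb
  | single m r => rw [kap_single]; exact single_mem_SubAlg (hN m) r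

theorem kap_fix {κ : C →* G} {N : Subgroup G} (hc : ∀ c, ∀ n ∈ N, κ c * n = n * κ c)
    (l : MonoidAlgebra k C) : kap k κ l ∈ Fix (cj k G) N := by
  induction l using MonoidAlgebra.induction_linear with
  | zero => rw [map_zero]; exact Subalgebra.zero_mem _
  | add a b ha hb => rw [map_add]; exact Subalgebra.add_mem _ ha hb
  | single m r =>
    rw [kap_single]
    intro n hn
    rw [cj_single, ← hc m n hn, mul_inv_cancel_right]

theorem kap_comm {κ : C →* G} {N : Subgroup G} (hc : ∀ c, ∀ n ∈ N, κ c * n = n * κ c)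
    (l : MonoidAlgebra k C) {a : MonoidAlgebra k G} (ha : a ∈ SubAlg k N) :
    kap k κ l * a = a * kap k κ l :=
  (commute_of_mem ha (kap_fix hc l)).symm

variable {p : ℕ} [Fact p.Prime] [CharP k p]

/-- Lifting a residue basis to a `k[C]`-basis. -/
theorem free_family [Finite G] (hC : IsPGroup p C) (κ : C →* G)
    (P : Submodule k (MonoidAlgebra k G)) (hP : ∀ l, ∀ m ∈ P, kap k κ l * m ∈ P)
    (hPσ : ∀ m ∈ P, sigG k κ * m = 0 → ∃ b : C → MonoidAlgebra k G, (∀ c, b c ∈ P) ∧
      m = ∑ᶠ c : C, (MonoidAlgebra.single (κ c) (1 : k) - 1) * b c)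
    {ι : Type*} [Fintype ι] (v : ι → MonoidAlgebra k G) (hv : ∀ i, v i ∈ P)
    (hspan : ∀ m ∈ P, ∃ c : ι → k, sigG k κ * (m - ∑ l, c l • v l) = 0)
    (hind : ∀ c : ι → k, sigG k κ * ∑ l, c l • v l = 0 → c = 0) :
    (∀ m ∈ P, ∃ l : ι → MonoidAlgebra k C, m = ∑ i, kap k κ (l i) * v i) ∧
      (∀ l : ι → MonoidAlgebra k C, ∑ i, kap k κ (l i) * v i = 0 → l = 0) := by
  letI : Module (MonoidAlgebra k C) (MonoidAlgebra k G) := Module.compHom _ (kap k κ).toRingHom
  have hsmul : ∀ (l : MonoidAlgebra k C) (a : MonoidAlgebra k G), l • a = kap k κ l * a :=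
    fun _ _ => rfl
  have halg : ∀ (c : k) (a : MonoidAlgebra k G),
      algebraMap k (MonoidAlgebra k C) c • a = c • a := by
    intro c a
    rw [hsmul, AlgHom.commutes, Algebra.smul_def]
  let M : Submodule (MonoidAlgebra k C) (MonoidAlgebra k G) :=
    { carrier := {m | m ∈ P}
      add_mem' := fun ha hb => P.add_mem ha hb
      zero_mem' := P.zero_mem
      smul_mem' := fun l m hm => hP l m hm }
  let w : ι → M := fun i => ⟨v i, hv i⟩
  have hval : ∀ c : ι → k, (((∑ l, algebraMap k (MonoidAlgebra k C) (c l) • w l : M)) :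
      MonoidAlgebra k G) = ∑ l, c l • v l := by
    intro c
    rw [Submodule.coe_sum]
    refine Finset.sum_congr rfl fun l _ => ?_
    rw [Submodule.coe_smul]
    exact halg _ _
  letI := Fintype.ofFinite C
  obtain ⟨h1, h2⟩ := basis_of_residue (k := k) hC w (by
      intro m
      obtain ⟨c, hc⟩ := hspan m m.2
      refine ⟨c, ?_⟩
      set x : M := m - ∑ l, algebraMap k (MonoidAlgebra k C) (c l) • w l with hx
      have hxv : (x : MonoidAlgebra k G) = m - ∑ l, c l • v l := by
        rw [hx, Submodule.coe_sub, hval]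
      obtain ⟨b, hbP, hb⟩ := hPσ x x.2 (by rw [hxv]; exact hc)
      rw [finsum_eq_sum_of_fintype] at hb
      have hx2 : x = ∑ c : C, ((MonoidAlgebra.single c (1 : k) - 1 : MonoidAlgebra k C)) •
          (⟨b c, hbP c⟩ : M) := by
        apply Subtype.ext
        rw [Submodule.coe_sum, hb]
        refine Finset.sum_congr rfl fun c _ => ?_
        rw [Submodule.coe_smul, hsmul, map_sub, map_one, kap_single]
      rw [hx2]
      refine Submodule.sum_mem _ fun c _ => ?_
      apply Submodule.smul_mem_smul _ Submodule.mem_top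
      rw [RingHom.mem_ker, map_sub, map_one]
      change aug k C _ - 1 = 0
      rw [aug_single, sub_self]) (by
      intro c hc
      apply hind
      have h3 := congrArg Subtype.val hc
      rw [Submodule.coe_smul, hval] at h3
      exact h3)
  constructor
  · intro m hm
    have h3 : (⟨m, hm⟩ : M) ∈ Submodule.span (MonoidAlgebra k C) (Set.range w) := h2 trivial
    rw [Submodule.mem_span_range_iff_exists_fun] at h3
    obtain ⟨l, hl⟩ := h3
    refine ⟨l, ?_⟩
    have h4 := congrArg Subtype.val hl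
    rw [Submodule.coe_sum] at h4
    exact h4.symm
  · intro l hl
    rw [Fintype.linearIndependent_iff] at h1
    funext i
    apply h1 l
    apply Subtype.ext
    rw [Submodule.coe_sum]
    exact hl

end Kap

end Vale.Agent.P180.KP
end
end

section

section

set_option linter.style.haveILetI false
set_option linter.unusedSectionVars false

namespace Vale.Agent.P180.KP

open scoped Classical

section CB

variable {k : Type*} [Field k] {G : Type*} [Group G]
variable {C : Type*} [CommGroup C] [Finite C]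

/-- `e` is a block of the subgroup `N`, with defect group the central subgroup `κ(C)` of `N`. -/
structure CB (N : Subgroup G) (κ : C →* G) [Finite G] (e : MonoidAlgebra k G) : Prop where
  inj : Function.Injective κ
  mem : ∀ c, κ c ∈ N
  comm : ∀ c, ∀ n ∈ N, κ c * n = n * κ c
  block : IsBlockOf N e
  trace : ∃ a₀ ∈ SubAlg k N, e = tr (cj k G) κ.range N a₀

variable [Finite G] {N : Subgroup G} {κ : C →* G} {e : MonoidAlgebra k G}

theorem CB.kap_comm (h : CB N κ e) (l : MonoidAlgebra k C) {a : MonoidAlgebra k G}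
    (ha : a ∈ SubAlg k N) : kap k κ l * a = a * kap k κ l :=
  Vale.Agent.P180.KP.kap_comm h.comm l ha

theorem CB.e_comm (h : CB N κ e) {a : MonoidAlgebra k G} (ha : a ∈ SubAlg k N) :
    a * e = e * a := commute_of_mem ha h.block.mem.2

theorem CB.e_mem (h : CB N κ e) : e ∈ SubAlg k N := h.block.mem.1

/-- `κ` as a map to `N` -/
def CB.kN (h : CB N κ e) : C →* N := κ.codRestrict N h.mem

theorem CB.kN_inj (h : CB N κ e) : Function.Injective h.kN := by
  intro a b hab
  exact h.inj (congrArg Subtype.val hab)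

theorem CB.kN_range (h : CB N κ e) : h.kN.range = κ.range.subgroupOf N := by
  ext x
  rw [Subgroup.mem_subgroupOf]
  constructor
  · rintro ⟨c, rfl⟩
    exact ⟨c, rfl⟩
  · rintro ⟨c, hc⟩
    exact ⟨c, Subtype.ext hc⟩

theorem CB.central (h : CB N κ e) : κ.range.subgroupOf N ≤ Subgroup.center N := by
  rw [← h.kN_range]
  rintro _ ⟨c, rfl⟩
  rw [Subgroup.mem_center_iff]
  intro n
  exact Subtype.ext (h.comm c n n.2).symm

theorem CB.normal (h : CB N κ e) : (κ.range.subgroupOf N).Normal := by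
  constructor
  intro n hn g
  have := (Subgroup.mem_center_iff.mp (h.central hn)) g
  rw [this, mul_inv_cancel_right]
  exact hn

theorem CB.incl_sum (h : CB N κ e) [Fintype C] :
    incl k N (∑ c : C, MonoidAlgebra.single (h.kN c) (1 : k)) = sigG k κ := by
  rw [sigG_eq, map_sum]
  exact Finset.sum_congr rfl fun c _ => incl_single N _ _

theorem CB.sig_iff (h : CB N κ e) (a : MonoidAlgebra k N) :
    haveI := h.normal
    qmap k (κ.range.subgroupOf N) a = 0 ↔ sigG k κ * incl k N a = 0 := by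
  haveI := h.normal
  letI := Fintype.ofFinite C
  rw [← sum_mul_eq_zero_iff h.kN h.kN_inj _ h.kN_range, ← h.incl_sum, ← map_mul,
    map_eq_zero_iff _ (incl_injective N)]

theorem CB.exists_of_sig (h : CB N κ e) {a : MonoidAlgebra k G} (ha : a ∈ SubAlg k N)
    (hs : sigG k κ * a = 0) : ∃ b : C → MonoidAlgebra k G, (∀ c, b c ∈ SubAlg k N) ∧
      a = ∑ᶠ c : C, (MonoidAlgebra.single (κ c) (1 : k) - 1) * b c := by
  haveI := h.normal
  letI := Fintype.ofFinite C
  obtain ⟨a, rfl⟩ := exists_incl ha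
  rw [← h.sig_iff] at hs
  obtain ⟨b, hb⟩ := exists_of_qmap_eq_zero h.kN _ h.kN_range a hs
  refine ⟨fun c => incl k N (b c), fun c => incl_mem N _, ?_⟩
  rw [finsum_eq_sum_of_fintype]
  conv_lhs => rw [hb]
  rw [map_sum]
  refine Finset.sum_congr rfl fun c _ => ?_
  rw [map_mul, map_sub, map_one, incl_single]
  rfl

variable {p : ℕ} [Fact p.Prime] [CharP k p]

theorem CB.nilp (h : CB N κ e) (hC : IsPGroup p C) :
    ∃ n : ℕ, ∀ a ∈ SubAlg k N, sigG k κ * a = 0 → a ^ n = 0 := by
  letI : Module (MonoidAlgebra k C) (MonoidAlgebra k G) := Module.compHom _ (kap k κ).toRingHom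
  have hsmul : ∀ (l : MonoidAlgebra k C) (a : MonoidAlgebra k G), l • a = kap k κ l * a :=
    fun _ _ => rfl
  letI := Fintype.ofFinite C
  obtain ⟨n, hn⟩ := augIdeal_nilpotent (k := k) hC
  set J : Ideal (MonoidAlgebra k C) := RingHom.ker (aug k C) with hJ
  refine ⟨n, fun a ha hs => ?_⟩
  obtain ⟨b, hb, hb'⟩ := h.exists_of_sig ha hs
  rw [finsum_eq_sum_of_fintype] at hb'
  have hmul : ∀ (m : ℕ) (x : MonoidAlgebra k G), x ∈ SubAlg k N →
      ∀ y : MonoidAlgebra k G, y ∈ J ^ m • (⊤ : Submodule (MonoidAlgebra k C) (MonoidAlgebra k G)) →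
      x * y ∈ J ^ m • (⊤ : Submodule (MonoidAlgebra k C) (MonoidAlgebra k G)) := by
    intro m x hx y hy
    refine Submodule.smul_induction_on hy ?_ ?_
    · intro l hl z _
      rw [hsmul, ← mul_assoc, ← h.kap_comm l hx, mul_assoc, ← hsmul]
      exact Submodule.smul_mem_smul hl trivial
    · intro y z hy hz
      rw [mul_add]
      exact Submodule.add_mem _ hy hz
  have key : ∀ m : ℕ, a ^ m ∈ J ^ m • (⊤ : Submodule (MonoidAlgebra k C) (MonoidAlgebra k G)) := by
    intro m
    induction m with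
    | zero => simp
    | succ m ih =>
      have h1 : a ^ (m + 1) = ∑ c : C, (MonoidAlgebra.single c (1 : k) - 1 : MonoidAlgebra k C) •
          (b c * a ^ m) := by
        rw [pow_succ']
        conv_lhs => lhs; rw [hb']
        rw [Finset.sum_mul]
        refine Finset.sum_congr rfl fun c _ => ?_
        rw [hsmul, map_sub, map_one, kap_single, mul_assoc]
      rw [h1, pow_succ', Submodule.mul_smul]
      refine Submodule.sum_mem _ fun c _ => ?_
      apply Submodule.smul_mem_smul
      · rw [hJ, RingHom.mem_ker, map_sub, map_one]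
        change aug k C _ - 1 = 0
        rw [aug_single, sub_self]
      · exact hmul m _ (hb c) _ ih
  have h2 := key n
  rw [hn] at h2
  simpa using h2

theorem CB.sig_e_ne_zero (h : CB N κ e) (hC : IsPGroup p C) : sigG k κ * e ≠ 0 := by
  intro hs
  obtain ⟨n, hn⟩ := h.nilp hC
  have h1 := hn e h.e_mem hs
  rcases n with _ | n
  · rw [pow_zero] at h1
    exact h.block.ne_zero (by rw [← one_mul e, h1, zero_mul])
  · rw [h.block.idem.pow_succ_eq] at h1
    exact h.block.ne_zero h1

theorem CB.exists_psi [IsAlgClosed k] (h : CB N κ e) (hC : IsPGroup p C) :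
    ∃ (d : ℕ) (_ : NeZero d) (ψ : MonoidAlgebra k G →ₗ[k] Matrix (Fin d) (Fin d) k),
      (∀ a ∈ SubAlg k N, ∀ b ∈ SubAlg k N, ψ (a * b) = ψ a * ψ b) ∧ ψ 1 = 1 ∧
      (∀ M, ∃ a ∈ SubAlg k N, ψ a = M) ∧
      (∀ a ∈ SubAlg k N, ψ a = 0 ↔ sigG k κ * (a * e) = 0) := by
  haveI := h.normal
  obtain ⟨e', he'⟩ := exists_incl h.e_mem
  have hZ : e' ∈ Subalgebra.center k (MonoidAlgebra k N) := by
    rw [← incl_mem_ZAlg, he']; exact h.block.mem
  have hprim : IsPrim (⟨e', hZ⟩ : Subalgebra.center k (MonoidAlgebra k N)) := by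
    refine ⟨?_, ?_, ?_⟩
    · apply Subtype.ext
      apply incl_injective N
      change incl k N (e' * e') = incl k N e'
      rw [map_mul, he']
      exact h.block.idem
    · intro h0
      apply h.block.ne_zero
      have h1 : e' = 0 := congrArg Subtype.val h0
      rw [← he', h1]
      exact map_zero _
    · rintro ⟨f, hf⟩ hff hfe
      have h1 : f * f = f := congrArg Subtype.val hff
      have h2 : f * e' = f := congrArg Subtype.val hfe
      rcases h.block.primitive (incl k N f) ((incl_mem_ZAlg N f).mpr hf)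
        (by change incl k N f * incl k N f = _; rw [← map_mul, h1])
        (by rw [← he', ← map_mul, h2]) with h3 | h3
      · left
        apply Subtype.ext
        exact (map_eq_zero_iff _ (incl_injective N)).mp h3
      · right
        apply Subtype.ext
        apply incl_injective N
        rw [h3, he']
  obtain ⟨a₀, ha₀, htr⟩ := h.trace
  obtain ⟨a₀, rfl⟩ := exists_incl ha₀
  have htr' : e' = tr (cj k N) (κ.range.subgroupOf N) ⊤ a₀ := by
    apply incl_injective N
    rw [he', htr, incl_tr N κ.range h.central]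
  have hq : qmap k (κ.range.subgroupOf N) e' ≠ 0 := by
    intro h0
    rw [h.sig_iff, he'] at h0
    exact h.sig_e_ne_zero hC h0
  obtain ⟨d, hd, ψ, hψ1, hψ2⟩ := Vale.Agent.P180.KP.exists_psi h.central ⟨e', hZ⟩ hprim hq a₀ htr'
  obtain ⟨r, hr⟩ := (incl k N).toLinearMap.exists_leftInverse_of_injective
    (LinearMap.ker_eq_bot.mpr (incl_injective N))
  have hr' : ∀ a, r (incl k N a) = a := fun a => congrArg (fun f => f a) hr
  refine ⟨d, hd, ψ.toLinearMap.comp r, ?_, ?_, ?_, ?_⟩
  · intro a ha b hb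
    obtain ⟨a, rfl⟩ := exists_incl ha
    obtain ⟨b, rfl⟩ := exists_incl hb
    rw [← map_mul]
    simp only [LinearMap.comp_apply, hr']
    exact map_mul ψ a b
  · have : (1 : MonoidAlgebra k G) = incl k N 1 := (map_one _).symm
    rw [this, LinearMap.comp_apply, hr']
    exact map_one ψ
  · intro M
    obtain ⟨a, ha⟩ := hψ1 M
    refine ⟨incl k N a, incl_mem N a, ?_⟩
    rw [LinearMap.comp_apply, hr']
    exact ha
  · intro a ha
    obtain ⟨a, rfl⟩ := exists_incl ha
    rw [LinearMap.comp_apply, hr', ← he', ← map_mul, ← h.sig_iff]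
    exact hψ2 a

theorem CB.exists_i [IsAlgClosed k] (h : CB N κ e) (hC : IsPGroup p C)
    {d : ℕ} [NeZero d] (ψ : MonoidAlgebra k G →ₗ[k] Matrix (Fin d) (Fin d) k)
    (hψmul : ∀ a ∈ SubAlg k N, ∀ b ∈ SubAlg k N, ψ (a * b) = ψ a * ψ b)
    (hψsurj : ∀ M, ∃ a ∈ SubAlg k N, ψ a = M)
    (hψker : ∀ a ∈ SubAlg k N, ψ a = 0 ↔ sigG k κ * (a * e) = 0) (M : Matrix (Fin d) (Fin d) k)
    (hM : M * M = M) :
    ∃ i ∈ SubAlg k N, i * i = i ∧ i * e = i ∧ ψ i = M := by
  haveI := h.normal
  obtain ⟨a, ha, haM⟩ := hψsurj M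
  have hee := h.block.idem.eq
  have hae : a * e ∈ SubAlg k N := Subalgebra.mul_mem _ ha h.e_mem
  obtain ⟨a', ha'⟩ := exists_incl hae
  have hψe : ∀ b ∈ SubAlg k N, ψ (b * e) = ψ b := by
    intro b hb
    have h1 : ψ (b * e - b) = 0 := by
      rw [hψker _ (Subalgebra.sub_mem _ (Subalgebra.mul_mem _ hb h.e_mem) hb), sub_mul, mul_assoc,
        hee, sub_self, mul_zero]
    rw [map_sub, sub_eq_zero] at h1
    exact h1
  have hidem : IsIdempotentElem (qmap k (κ.range.subgroupOf N) a') := by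
    change _ * _ = _
    rw [← map_mul, ← sub_eq_zero, ← map_sub, h.sig_iff, map_sub, map_mul, ha']
    have h2 : a * e * (a * e) - a * e = (a * a - a) * e := by
      rw [sub_mul, mul_assoc a e, ← mul_assoc e, ← h.e_comm ha, mul_assoc a e e, hee, ← mul_assoc]
    rw [h2, ← hψker _ (Subalgebra.sub_mem _ (Subalgebra.mul_mem _ ha ha) ha), map_sub,
      hψmul a ha a ha, haM, hM, sub_self]
  obtain ⟨n, hn⟩ := h.nilp hC
  obtain ⟨i', hi', hi''⟩ := exists_isIdempotentElem_eq_of_ker_isNilpotent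
    (qmap k (κ.range.subgroupOf N)).toRingHom (by
      intro x hx
      have hx' : qmap k (κ.range.subgroupOf N) x = 0 := hx
      rw [h.sig_iff] at hx'
      refine ⟨n, ?_⟩
      apply incl_injective N
      rw [map_pow, map_zero]
      exact hn _ (incl_mem N x) hx') _ ⟨a', rfl⟩ hidem
  have hi3 : qmap k (κ.range.subgroupOf N) (i' - a') = 0 := by
    rw [map_sub, sub_eq_zero]; exact hi''
  rw [h.sig_iff, map_sub, ha'] at hi3
  refine ⟨incl k N i' * e, Subalgebra.mul_mem _ (incl_mem N _) h.e_mem, ?_, ?_, ?_⟩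
  · rw [mul_assoc, ← mul_assoc e, ← h.e_comm (incl_mem N i'), mul_assoc (incl k N i') e e, hee,
      ← mul_assoc, ← map_mul, hi'.eq]
  · rw [mul_assoc, hee]
  · rw [hψe _ (incl_mem N _), ← haM, ← hψe a ha, ← sub_eq_zero, ← map_sub,
      hψker _ (Subalgebra.sub_mem _ (incl_mem N _) hae), ← mul_assoc, hi3, zero_mul]

end CB

end Vale.Agent.P180.KP
end
end

section

section

set_option linter.style.haveILetI false
set_option linter.unusedSectionVars false

namespace Vale.Agent.P180.KP

open scoped Classical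

section Free

variable {k : Type*} [Field k] {G : Type*} [Group G]
variable {C : Type*} [CommGroup C] [Finite C] [Finite G]
variable {N : Subgroup G} {κ : C →* G} {e : MonoidAlgebra k G}

/-- The residue map of a block with central defect group. -/
structure PsiData (N : Subgroup G) (κ : C →* G) (e : MonoidAlgebra k G) {d : ℕ} [NeZero d]
    (ψ : MonoidAlgebra k G →ₗ[k] Matrix (Fin d) (Fin d) k) : Prop where
  mul : ∀ a ∈ SubAlg k N, ∀ b ∈ SubAlg k N, ψ (a * b) = ψ a * ψ b
  one : ψ 1 = 1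
  surj : ∀ M, ∃ a ∈ SubAlg k N, ψ a = M
  ker : ∀ a ∈ SubAlg k N, ψ a = 0 ↔ sigG k κ * (a * e) = 0

variable {d : ℕ} [NeZero d] {ψ : MonoidAlgebra k G →ₗ[k] Matrix (Fin d) (Fin d) k}

theorem PsiData.mul_e (hψ : PsiData N κ e ψ) (h : CB N κ e) {b : MonoidAlgebra k G}
    (hb : b ∈ SubAlg k N) : ψ (b * e) = ψ b := by
  have h1 : ψ (b * e - b) = 0 := by
    rw [hψ.ker _ (Subalgebra.sub_mem _ (Subalgebra.mul_mem _ hb h.e_mem) hb), sub_mul, mul_assoc,
      h.block.idem.eq, sub_self, mul_zero]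
  rw [map_sub, sub_eq_zero] at h1
  exact h1

theorem PsiData.map_e (hψ : PsiData N κ e ψ) (h : CB N κ e) : ψ e = 1 := by
  rw [← one_mul e, hψ.mul_e h (Subalgebra.one_mem _), hψ.one]

/-- The space `j k[N] i`. -/
def PP (N : Subgroup G) (j i : MonoidAlgebra k G) : Submodule k (MonoidAlgebra k G) where
  carrier := {m | m ∈ SubAlg k N ∧ j * m = m ∧ m * i = m}
  add_mem' := by
    rintro a b ⟨h0, h1, h2⟩ ⟨h3, h4, h5⟩
    exact ⟨Subalgebra.add_mem _ h0 h3, by rw [mul_add, h1, h4], by rw [add_mul, h2, h5]⟩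
  zero_mem' := ⟨Subalgebra.zero_mem _, by simp, by simp⟩
  smul_mem' := by
    rintro c a ⟨h0, h1, h2⟩
    exact ⟨Subalgebra.smul_mem _ h0 c, by rw [mul_smul_comm, h1], by rw [smul_mul_assoc, h2]⟩

variable {p : ℕ} [Fact p.Prime] [CharP k p]

theorem PsiData.free (hψ : PsiData N κ e ψ) (h : CB N κ e) (hC : IsPGroup p C)
    {j i : MonoidAlgebra k G} (hj : j ∈ SubAlg k N) (hjj : j * j = j)
    (hi : i ∈ SubAlg k N) (hii : i * i = i) (hie : i * e = i)
    {ι : Type*} [Fintype ι] (v : ι → MonoidAlgebra k G) (hv : ∀ l, v l ∈ PP N j i)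
    (hspan : ∀ m ∈ PP N j i, ∃ c : ι → k, ψ m = ∑ l, c l • ψ (v l))
    (hind : ∀ c : ι → k, ∑ l, c l • ψ (v l) = 0 → c = 0) :
    (∀ m ∈ PP N j i, ∃ l : ι → MonoidAlgebra k C, m = ∑ i, kap k κ (l i) * v i) ∧
      (∀ l : ι → MonoidAlgebra k C, ∑ i, kap k κ (l i) * v i = 0 → l = 0) := by
  have hPe : ∀ m ∈ PP N j i, m * e = m := by
    intro m hm
    rw [← hm.2.2, mul_assoc, hie]
  apply free_family hC κ (PP N j i)
  · intro l m hm
    refine ⟨Subalgebra.mul_mem _ (kap_mem h.mem l) hm.1, ?_, ?_⟩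
    · rw [← mul_assoc, ← h.kap_comm l hj, mul_assoc, hm.2.1]
    · rw [mul_assoc, hm.2.2]
  · intro m hm hs
    obtain ⟨b, hb, hb'⟩ := h.exists_of_sig hm.1 hs
    refine ⟨fun c => j * b c * i, fun c => ⟨?_, ?_, ?_⟩, ?_⟩
    · exact Subalgebra.mul_mem _ (Subalgebra.mul_mem _ hj (hb c)) hi
    · rw [← mul_assoc, ← mul_assoc, hjj]
    · rw [mul_assoc, hii]
    · letI := Fintype.ofFinite C
      rw [finsum_eq_sum_of_fintype] at hb' ⊢
      have h1 : m = j * m * i := by rw [hm.2.1, hm.2.2]
      rw [h1]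
      conv_lhs => lhs; rhs; rw [hb']
      rw [Finset.mul_sum, Finset.sum_mul]
      refine Finset.sum_congr rfl fun c _ => ?_
      have h2 : MonoidAlgebra.single (κ c) (1 : k) - 1 =
          kap k κ (MonoidAlgebra.single c 1 - 1) := by
        rw [map_sub, map_one, kap_single]
      rw [h2]
      rw [← mul_assoc, ← h.kap_comm _ hj]
      simp only [mul_assoc]
  · exact hv
  · intro m hm
    obtain ⟨c, hc⟩ := hspan m hm
    refine ⟨c, ?_⟩
    have hmem : m - ∑ l, c l • v l ∈ PP N j i :=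
      Submodule.sub_mem _ hm (Submodule.sum_mem _ fun l _ => Submodule.smul_mem _ _ (hv l))
    rw [← hPe _ hmem, ← hψ.ker _ hmem.1, map_sub, map_sum, hc, sub_eq_zero]
    simp only [map_smul]
  · intro c hc
    apply hind
    have hmem : ∑ l, c l • v l ∈ PP N j i :=
      (Submodule.sum_mem _ fun l _ => Submodule.smul_mem _ _ (hv l))
    rw [← hPe _ hmem, ← hψ.ker _ hmem.1, map_sum] at hc
    simpa only [map_smul] using hc

/-- the corner `i k[N] i` -/
theorem PsiData.corner (hψ : PsiData N κ e ψ) (h : CB N κ e) (hC : IsPGroup p C)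
    {i : MonoidAlgebra k G} (hi : i ∈ SubAlg k N) (hii : i * i = i) (hie : i * e = i)
    (hψi : ψ i = Matrix.single 0 0 1) :
    (∀ a ∈ SubAlg k N, ∃ l : MonoidAlgebra k C, i * a * i = kap k κ l * i) ∧
      (∀ l : MonoidAlgebra k C, kap k κ l * i = 0 → l = 0) := by
  have hsame : (Matrix.single 0 0 1 : Matrix (Fin d) (Fin d) k) ≠ 0 := by
    intro h0
    have := congrFun (congrFun h0 0) 0
    simp at this
  obtain ⟨h1, h2⟩ := hψ.free h hC hi hii hi hii hie (fun _ : Unit => i)
    (fun _ => ⟨hi, hii, hii⟩) (by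
      intro m hm
      refine ⟨fun _ => ψ m 0 0, ?_⟩
      rw [Fintype.sum_unique, hψi]
      have h3 : ψ m = Matrix.single 0 0 1 * ψ m * Matrix.single 0 0 1 := by
        rw [← hψi, ← hψ.mul i hi m hm.1, hm.2.1, ← hψ.mul m hm.1 i hi, hm.2.2]
      conv_lhs => rw [h3]
      rw [Matrix.single_mul_mul_single, one_mul, mul_one, Matrix.smul_single, smul_eq_mul,
        mul_one]) (by
      intro c hc
      rw [Fintype.sum_unique, hψi, smul_eq_zero] at hc
      funext u
      rcases hc with hc | hc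
      · exact hc
      · exact absurd hc hsame)
  constructor
  · intro a ha
    obtain ⟨l, hl⟩ := h1 (i * a * i) ⟨Subalgebra.mul_mem _ (Subalgebra.mul_mem _ hi ha) hi,
      by rw [← mul_assoc, ← mul_assoc, hii], by rw [mul_assoc, hii]⟩
    rw [Fintype.sum_unique] at hl
    exact ⟨_, hl⟩
  · intro l hl
    have := h2 (fun _ => l) (by rw [Fintype.sum_unique]; exact hl)
    exact congrFun this ()

end Free

end Vale.Agent.P180.KP
end
end

section

section

set_option linter.style.haveILetI false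
set_option linter.unusedSectionVars false

namespace Vale.Agent.P180.KP

open scoped Classical

section Homog

variable {k : Type*} [Field k] {G : Type*} [Group G]
variable {C : Type*} [CommGroup C] [Finite C] [Finite G]
variable {N : Subgroup G} {κ : C →* G} {e : MonoidAlgebra k G}

/-- A rank one idempotent in a block with central defect group. -/
structure CIdem (N : Subgroup G) (κ : C →* G) (e i : MonoidAlgebra k G) : Prop where
  mem : i ∈ SubAlg k N
  idem : i * i = i
  ie : i * e = i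
  corner : ∀ a ∈ SubAlg k N, ∃ l : MonoidAlgebra k C, i * a * i = kap k κ l * i
  faithful : ∀ l : MonoidAlgebra k C, kap k κ l * i = 0 → l = 0
  full : ∃ (n : ℕ) (u v : Fin n → MonoidAlgebra k G), (∀ a, u a ∈ SubAlg k N) ∧
    (∀ a, v a ∈ SubAlg k N) ∧ e = ∑ a, u a * i * v a

variable {p : ℕ} [Fact p.Prime] [CharP k p]

theorem PsiData.cidem {d : ℕ} [NeZero d]
    {ψ : MonoidAlgebra k G →ₗ[k] Matrix (Fin d) (Fin d) k} (hψ : PsiData N κ e ψ)
    (h : CB N κ e) (hC : IsPGroup p C)
    {i : MonoidAlgebra k G} (hi : i ∈ SubAlg k N) (hii : i * i = i) (hie : i * e = i)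
    (hψi : ψ i = Matrix.single 0 0 1) : CIdem N κ e i where
  mem := hi
  idem := hii
  ie := hie
  corner := (hψ.corner h hC hi hii hie hψi).1
  faithful := (hψ.corner h hC hi hii hie hψi).2
  full := by
    have hu : ∀ a : Fin d, ∃ u ∈ SubAlg k N, ψ u = Matrix.single a 0 1 := fun a => hψ.surj _
    have hv : ∀ a : Fin d, ∃ v ∈ SubAlg k N, ψ v = Matrix.single 0 a 1 := fun a => hψ.surj _
    choose u hu hψu using hu
    choose v hv hψv using hv
    set w := ∑ a, u a * i * v a with hw
    have hwmem : w ∈ SubAlg k N := Subalgebra.sum_mem _ fun a _ =>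
      Subalgebra.mul_mem _ (Subalgebra.mul_mem _ (hu a) hi) (hv a)
    have hψw : ψ w = 1 := by
      rw [hw, map_sum]
      have : ∀ a : Fin d, ψ (u a * i * v a) = Matrix.single a a 1 := by
        intro a
        rw [hψ.mul _ (Subalgebra.mul_mem _ (hu a) hi) _ (hv a), hψ.mul _ (hu a) _ hi, hψu, hψi,
          hψv, Matrix.single_mul_single_same, Matrix.single_mul_single_same, mul_one, mul_one]
      simp only [this]
      exact Matrix.sum_single_one
    obtain ⟨n, hn⟩ := h.nilp hC
    have hee := h.block.idem.eq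
    have hν : (e - w * e) ^ n = 0 := by
      apply hn _ (Subalgebra.sub_mem _ h.e_mem (Subalgebra.mul_mem _ hwmem h.e_mem))
      have h1 : e - w * e = (1 - w) * e := by rw [sub_mul, one_mul]
      rw [h1, ← hψ.ker _ (Subalgebra.sub_mem _ (Subalgebra.one_mem _) hwmem), map_sub, hψw,
        hψ.one, sub_self]
    set ν := e - w * e with hνdef
    have hgeo : (1 - ν) * ∑ m ∈ Finset.range n, ν ^ m = 1 := by
      rw [mul_neg_geom_sum, hν, sub_zero]
    have heν : e * (1 - ν) = w * e := by
      rw [hνdef, mul_sub, mul_one, mul_sub, hee, ← mul_assoc, ← h.e_comm hwmem, mul_assoc, hee]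
      abel
    have hνmem : ν ∈ SubAlg k N :=
      Subalgebra.sub_mem _ h.e_mem (Subalgebra.mul_mem _ hwmem h.e_mem)
    set t := ∑ m ∈ Finset.range n, ν ^ m with ht
    have htmem : t ∈ SubAlg k N := Subalgebra.sum_mem _ fun m _ => Subalgebra.pow_mem _ hνmem m
    refine ⟨d, u, fun a => v a * (e * t), hu,
      fun a => Subalgebra.mul_mem _ (hv a) (Subalgebra.mul_mem _ h.e_mem htmem), ?_⟩
    have h2 : e = w * e * t := by
      rw [← heν, mul_assoc, hgeo, mul_one]
    conv_lhs => rw [h2, mul_assoc, hw, Finset.sum_mul]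
    exact Finset.sum_congr rfl fun a _ => by rw [mul_assoc (u a * i)]

theorem exists_CIdem [IsAlgClosed k] (h : CB N κ e) (hC : IsPGroup p C) :
    ∃ (d : ℕ) (_ : NeZero d) (ψ : MonoidAlgebra k G →ₗ[k] Matrix (Fin d) (Fin d) k)
      (i : MonoidAlgebra k G), PsiData N κ e ψ ∧ CIdem N κ e i ∧ ψ i = Matrix.single 0 0 1 := by
  obtain ⟨d, hd, ψ, h1, h2, h3, h4⟩ := h.exists_psi hC
  obtain ⟨i, hi, hii, hie, hψi⟩ := h.exists_i hC ψ h1 h3 h4 (Matrix.single 0 0 1)
    (by rw [Matrix.single_mul_single_same, mul_one])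
  have hψ : PsiData N κ e ψ := ⟨h1, h2, h3, h4⟩
  exact ⟨d, hd, ψ, i, hψ, hψ.cidem h hC hi hii hie hψi, hψi⟩

/-- The conjugation action of `G` on the normal subgroup `κ(C)`. -/
structure ConjData (κ : C →* G) (α : G →* MulAut C) : Prop where
  conj : ∀ g c, κ (α g c) = g * κ c * g⁻¹

/-- the induced action on `k[C]` -/
noncomputable def lamAut (k : Type*) [Field k] {C : Type*} [CommGroup C] {G : Type*} [Group G]
    (α : G →* MulAut C) (g : G) : MonoidAlgebra k C ≃ₐ[k] MonoidAlgebra k C :=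
  MonoidAlgebra.domCongr k k (α g)

theorem cj_kap {α : G →* MulAut C} (hα : ConjData κ α) (g : G) (l : MonoidAlgebra k C) :
    cj k G g (kap k κ l) = kap k κ (lamAut k α g l) := by
  induction l using MonoidAlgebra.induction_linear with
  | zero => simp
  | add a b ha hb => rw [map_add, map_add, map_add, map_add, ha, hb]
  | single m r =>
    rw [kap_single, cj_single, lamAut, MonoidAlgebra.domCongr_single, kap_single, hα.conj]

theorem lam_idem (hC : IsPGroup p C) {m : MonoidAlgebra k C} (hm : m * m = m) :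
    m = 0 ∨ m = 1 := by
  by_cases h0 : aug k C m = 0
  · left
    obtain ⟨n, hn⟩ := isNilpotent_of_aug hC h0
    have h1 : IsIdempotentElem m := hm
    rcases n with _ | n
    · rw [pow_zero] at hn
      rw [← one_mul m, hn, zero_mul]
    · rwa [h1.pow_succ_eq] at hn
  · right
    have hu := isUnit_of_aug hC h0
    exact hu.mul_left_cancel (by rw [hm, mul_one])

theorem cj_mem_SubAlg [N.Normal] (g : G) {a : MonoidAlgebra k G} (ha : a ∈ SubAlg k N) :
    cj k G g a ∈ SubAlg k N :=
  SuppIn.conj ha g fun s hs => ‹N.Normal›.conj_mem s hs g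

theorem CIdem.kap_mul_kap {i : MonoidAlgebra k G} (hi : CIdem N κ e i) (h : CB N κ e)
    (a b : MonoidAlgebra k C) :
    kap k κ a * i * (kap k κ b * i) = kap k κ (a * b) * i := by
  calc kap k κ a * i * (kap k κ b * i) = kap k κ a * (i * kap k κ b) * i := by
        simp only [mul_assoc]
    _ = kap k κ a * (kap k κ b * i) * i := by rw [h.kap_comm b hi.mem]
    _ = kap k κ a * kap k κ b * (i * i) := by simp only [mul_assoc]
    _ = kap k κ (a * b) * i := by rw [hi.idem, map_mul]

/-- two rank one idempotents are equivalent, first half -/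
theorem CIdem.exists_ss [N.Normal] {i : MonoidAlgebra k G} (hi : CIdem N κ e i)
    (h : CB N κ e) (hC : IsPGroup p C) (heG : e ∈ Fix (cj k G) ⊤) (g : G) :
    ∃ s ∈ SubAlg k N, ∃ s' ∈ SubAlg k N, i * s = s ∧ s * cj k G g i = s ∧
      cj k G g i * s' = s' ∧ s' * i = s' ∧ s * s' = i := by
  obtain ⟨i', hi'⟩ : ∃ i', i' = cj k G g i := ⟨_, rfl⟩
  rw [← hi']
  have hi'mem : i' ∈ SubAlg k N := by rw [hi']; exact cj_mem_SubAlg g hi.mem
  have hi'i' : i' * i' = i' := by rw [hi', ← map_mul, hi.idem]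
  obtain ⟨n, u, v, hu, hv, huv⟩ := hi.full
  have h1 : e = ∑ a, cj k G g (u a) * i' * cj k G g (v a) := by
    conv_lhs => rw [← heG g trivial, huv, map_sum]
    exact Finset.sum_congr rfl fun a _ => by rw [map_mul, map_mul, hi']
  have hterm : ∀ a, ∃ l : MonoidAlgebra k C,
      i * (cj k G g (u a) * i' * cj k G g (v a)) * i = kap k κ l * i := fun a =>
    hi.corner _ (Subalgebra.mul_mem _ (Subalgebra.mul_mem _ (cj_mem_SubAlg g (hu a)) hi'mem)
      (cj_mem_SubAlg g (hv a)))
  choose l hl using hterm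
  have hsum : ∑ a, l a = 1 := by
    have h2 : kap k κ (∑ a, l a - 1) * i = 0 := by
      rw [map_sub, map_one, sub_mul, one_mul, map_sum, Finset.sum_mul]
      simp only [← hl]
      rw [← Finset.sum_mul, ← Finset.mul_sum, ← h1, hi.ie, hi.idem, sub_self]
    exact sub_eq_zero.mp (hi.faithful _ h2)
  obtain ⟨a, ha⟩ : ∃ a, aug k C (l a) ≠ 0 := by
    by_contra hcon
    push Not at hcon
    have h2 : aug k C (∑ a, l a) = 0 := by rw [map_sum]; simp [hcon]
    rw [hsum, map_one] at h2
    exact one_ne_zero h2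
  obtain ⟨lu, hlu⟩ := isUnit_of_aug hC ha
  refine ⟨i * cj k G g (u a) * i', Subalgebra.mul_mem _ (Subalgebra.mul_mem _ hi.mem
    (cj_mem_SubAlg g (hu a))) hi'mem,
    i' * cj k G g (v a) * i * kap k κ ((lu⁻¹ : (MonoidAlgebra k C)ˣ) : MonoidAlgebra k C),
    Subalgebra.mul_mem _ (Subalgebra.mul_mem _ (Subalgebra.mul_mem _ hi'mem
      (cj_mem_SubAlg g (hv a))) hi.mem) (kap_mem h.mem _), ?_, ?_, ?_, ?_, ?_⟩
  · rw [← mul_assoc, ← mul_assoc, hi.idem]
  · rw [mul_assoc, hi'i']
  · rw [← mul_assoc, ← mul_assoc, ← mul_assoc, hi'i']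
  · rw [mul_assoc, h.kap_comm _ hi.mem, ← mul_assoc, mul_assoc _ i i, hi.idem]
  · have h3 : i * cj k G g (u a) * i' * (i' * cj k G g (v a) * i *
        kap k κ ((lu⁻¹ : (MonoidAlgebra k C)ˣ) : MonoidAlgebra k C)) =
        (i * (cj k G g (u a) * i' * cj k G g (v a)) * i) *
        kap k κ ((lu⁻¹ : (MonoidAlgebra k C)ˣ) : MonoidAlgebra k C) := by
      calc _ = i * cj k G g (u a) * (i' * i') * cj k G g (v a) * i *
            kap k κ ((lu⁻¹ : (MonoidAlgebra k C)ˣ) : MonoidAlgebra k C) := by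
              simp only [mul_assoc]
        _ = _ := by rw [hi'i']; simp only [mul_assoc]
    rw [h3, hl, mul_assoc, ← h.kap_comm _ hi.mem, ← mul_assoc, ← map_mul, ← hlu, Units.mul_inv,
      map_one, one_mul]

/-- second half -/
theorem CIdem.ss_eq [N.Normal] {i : MonoidAlgebra k G} (hi : CIdem N κ e i)
    (h : CB N κ e) (hC : IsPGroup p C) (g : G) {s s' : MonoidAlgebra k G}
    (hs : s ∈ SubAlg k N) (hs' : s' ∈ SubAlg k N) (his : i * s = s) (hsi' : s * cj k G g i = s)
    (hi's' : cj k G g i * s' = s') (hs'i : s' * i = s') (hss' : s * s' = i) :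
    s' * s = cj k G g i := by
  obtain ⟨f, hfdef⟩ : ∃ f, f = cj k G g⁻¹ (s' * s) := ⟨_, rfl⟩
  have hfg : cj k G g f = s' * s := by rw [hfdef, map_act_inv]
  have hfi : i * f * i = f := by
    apply (cj k G g).injective
    rw [map_mul, map_mul, hfg, ← mul_assoc, hi's', mul_assoc, hsi']
  have hfmem : f ∈ SubAlg k N := by
    rw [hfdef]; exact cj_mem_SubAlg _ (Subalgebra.mul_mem _ hs' hs)
  obtain ⟨m, hm⟩ := hi.corner f hfmem
  rw [hfi] at hm
  have hff : f * f = f := by
    apply (cj k G g).injective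
    rw [map_mul, hfg, mul_assoc, ← mul_assoc s s' s, hss', his]
  have hmm : m * m = m := by
    have h6 : kap k κ (m * m - m) * i = 0 := by
      rw [map_sub, sub_mul, ← hi.kap_mul_kap h, ← hm, hff, sub_self]
    exact sub_eq_zero.mp (hi.faithful _ h6)
  rcases lam_idem hC hmm with h7 | h7
  · exfalso
    rw [h7, map_zero, zero_mul] at hm
    have h8 : s' * s = 0 := by rw [← hfg, hm, map_zero]
    have h9 : i = 0 := by
      calc i = i * i := hi.idem.symm
        _ = s * s' * (s * s') := by rw [hss']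
        _ = s * (s' * s) * s' := by simp only [mul_assoc]
        _ = 0 := by rw [h8, mul_zero, zero_mul]
    have h10 := hi.faithful 1 (by rw [h9, mul_zero])
    exact one_ne_zero h10
  · rw [h7, map_one, one_mul] at hm
    rw [← hfg, hm]

/-- Existence of homogeneous units. -/
theorem CIdem.exists_unit [N.Normal] {i : MonoidAlgebra k G} (hi : CIdem N κ e i)
    (h : CB N κ e) (hC : IsPGroup p C) (heG : e ∈ Fix (cj k G) ⊤) (g : G) :
    ∃ c c' : MonoidAlgebra k G, SuppIn {x | g⁻¹ * x ∈ N} c ∧ SuppIn {x | g * x ∈ N} c' ∧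
      i * c = c ∧ c * i = c ∧ i * c' = c' ∧ c' * i = c' ∧ c * c' = i ∧ c' * c = i := by
  obtain ⟨s, hs, s', hs', his, hsi', hi's', hs'i, hss'⟩ := hi.exists_ss h hC heG g
  have hf := hi.ss_eq h hC g hs hs' his hsi' hi's' hs'i hss'
  have hgi : MonoidAlgebra.single g (1 : k) * i = cj k G g i * MonoidAlgebra.single g 1 :=
    (cj_mul_single g i).symm
  have hgg : MonoidAlgebra.single g (1 : k) * MonoidAlgebra.single g⁻¹ 1 = 1 := by
    rw [MonoidAlgebra.single_mul_single, mul_inv_cancel, one_mul, MonoidAlgebra.one_def]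
  have hgg' : MonoidAlgebra.single g⁻¹ (1 : k) * MonoidAlgebra.single g 1 = 1 := by
    rw [MonoidAlgebra.single_mul_single, inv_mul_cancel, one_mul, MonoidAlgebra.one_def]
  have hig : i * MonoidAlgebra.single g⁻¹ (1 : k) =
      MonoidAlgebra.single g⁻¹ 1 * cj k G g i := by
    calc i * MonoidAlgebra.single g⁻¹ (1 : k)
        = MonoidAlgebra.single g⁻¹ (1 : k) * (MonoidAlgebra.single g 1 * i) *
          MonoidAlgebra.single g⁻¹ 1 := by rw [← mul_assoc, hgg', one_mul]
      _ = MonoidAlgebra.single g⁻¹ 1 * cj k G g i := by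
          rw [hgi, mul_assoc, mul_assoc (cj k G g i), hgg, mul_one]
  refine ⟨s * MonoidAlgebra.single g 1, MonoidAlgebra.single g⁻¹ 1 * s', ?_, ?_, ?_, ?_, ?_, ?_,
    ?_, ?_⟩
  · refine SuppIn.mul hs (SuppIn.single (S := {g}) rfl 1) ?_
    rintro x hx y rfl
    have := ‹N.Normal›.conj_mem x hx y⁻¹
    change y⁻¹ * (x * y) ∈ N
    simpa [mul_assoc] using this
  · refine SuppIn.mul (SuppIn.single (S := {g⁻¹}) rfl 1) hs' ?_
    rintro _ rfl x hx
    change g * (g⁻¹ * x) ∈ N
    rwa [mul_inv_cancel_left]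
  · rw [← mul_assoc, his]
  · rw [mul_assoc, hgi, ← mul_assoc, hsi']
  · rw [← mul_assoc, hig, mul_assoc, hi's']
  · rw [mul_assoc, hs'i]
  · rw [mul_assoc, ← mul_assoc (MonoidAlgebra.single g (1 : k)), hgg, one_mul, hss']
  · calc MonoidAlgebra.single g⁻¹ 1 * s' * (s * MonoidAlgebra.single g 1)
        = MonoidAlgebra.single g⁻¹ 1 * (s' * s) * MonoidAlgebra.single g 1 := by
          simp only [mul_assoc]
      _ = i * (MonoidAlgebra.single g⁻¹ 1 * MonoidAlgebra.single g 1) := by
          rw [hf, ← hig, mul_assoc]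
      _ = i := by rw [hgg', mul_one]

end Homog

end Vale.Agent.P180.KP
end
end

section

section

set_option linter.style.haveILetI false

namespace Vale.Agent.P180

open scoped Classical

theorem exists_tau {U : Type*} [Group U] (V S : Subgroup U) [V.Normal] (hSV : S ⊓ V = ⊥) :
    ∃ τ : U → U, (∀ u, u⁻¹ * τ u ∈ V) ∧ (∀ u, ∀ v ∈ V, τ (u * v) = τ u) ∧
      (∀ u, ∀ s ∈ S, τ (u * s) = τ u * s) := by
  have hex : ∀ u : U, ∃ s ∈ S, ∃ v ∈ V,
      u = (QuotientGroup.mk u : U ⧸ (S ⊔ V)).out * s * v := by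
    intro u
    have h1 : ((QuotientGroup.mk u : U ⧸ (S ⊔ V)).out)⁻¹ * u ∈ S ⊔ V := by
      apply QuotientGroup.eq.mp
      exact QuotientGroup.out_eq' _
    rw [Subgroup.mem_sup_of_normal_right] at h1
    obtain ⟨s, hs, v, hv, hsv⟩ := h1
    refine ⟨s, hs, v, hv, ?_⟩
    rw [mul_assoc, hsv]
    group
  have huniq : ∀ (r : U) (s s' v v' : U), s ∈ S → s' ∈ S → v ∈ V → v' ∈ V →
      r * s * v = r * s' * v' → s = s' := by
    intro r s s' v v' hs hs' hv hv' h
    have h1 : s'⁻¹ * s = v' * v⁻¹ := by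
      have h2 : s * v = s' * v' := by
        rw [mul_assoc, mul_assoc] at h
        exact mul_left_cancel h
      calc s'⁻¹ * s = s'⁻¹ * (s * v) * v⁻¹ := by group
        _ = s'⁻¹ * (s' * v') * v⁻¹ := by rw [h2]
        _ = v' * v⁻¹ := by group
    have h3 : s'⁻¹ * s ∈ S ⊓ V :=
      ⟨S.mul_mem (S.inv_mem hs') hs, by rw [h1]; exact V.mul_mem hv' (V.inv_mem hv)⟩
    rw [hSV, Subgroup.mem_bot] at h3
    exact (inv_mul_eq_one.mp h3).symm
  choose σ hσ ν hν hu using hex
  refine ⟨fun u => (QuotientGroup.mk u : U ⧸ (S ⊔ V)).out * σ u, ?_, ?_, ?_⟩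
  · intro u
    have h1 : u⁻¹ * ((QuotientGroup.mk u : U ⧸ (S ⊔ V)).out * σ u) = (ν u)⁻¹ := by
      conv_lhs => lhs; rw [hu u]
      group
    rw [h1]
    exact V.inv_mem (hν u)
  · intro u v hv
    have hq : (QuotientGroup.mk (u * v) : U ⧸ (S ⊔ V)) = QuotientGroup.mk u := by
      rw [QuotientGroup.mk_mul_of_mem]
      exact (le_sup_right : V ≤ S ⊔ V) hv
    have h2 := hu (u * v)
    rw [hq] at h2
    have h3 := hu u
    simp only [hq]
    congr 1
    apply huniq (QuotientGroup.mk u : U ⧸ (S ⊔ V)).out _ _ (ν (u * v)) (ν u * v) (hσ _) (hσ _)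
      (hν _) (V.mul_mem (hν _) hv)
    rw [← h2, ← mul_assoc, ← h3]
  · intro u s hs
    have hq : (QuotientGroup.mk (u * s) : U ⧸ (S ⊔ V)) = QuotientGroup.mk u := by
      rw [QuotientGroup.mk_mul_of_mem]
      exact (le_sup_left : S ≤ S ⊔ V) hs
    have h2 := hu (u * s)
    rw [hq] at h2
    have h3 := hu u
    simp only [hq]
    rw [mul_assoc]
    congr 1
    apply huniq (QuotientGroup.mk u : U ⧸ (S ⊔ V)).out _ _ (ν (u * s)) (s⁻¹ * ν u * s) (hσ _)
      (S.mul_mem (hσ _) hs) (hν _)
      (by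
        have := (inferInstance : V.Normal).conj_mem (ν u) (hν u) s⁻¹
        rwa [inv_inv] at this)
    rw [← h2]
    conv_lhs => rw [h3]
    group

/-- Gaschütz: an abelian normal subgroup of `p`-power exponent, complemented modulo a subgroup of
index prime to `p`, is complemented. -/
theorem gaschutz_aux {U : Type*} [Group U] (V S : Subgroup U) [V.Normal] [Finite (U ⧸ (S ⊔ V))]
    (hab : ∀ v ∈ V, ∀ w ∈ V, v * w = w * v) (n : ℕ) (hn : ∀ v ∈ V, v ^ n = 1)
    (hSV : S ⊓ V = ⊥) (hcop : Nat.Coprime ((S ⊔ V).index) n) :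
    ∃ L : Subgroup U, L ⊓ V = ⊥ ∧ L ⊔ V = ⊤ := by
  obtain ⟨τ, hτ1, hτ2, hτ3⟩ := exists_tau V S hSV
  letI : CommGroup V := { (inferInstance : Group V) with
    mul_comm := fun a b => Subtype.ext (hab a a.2 b b.2) }
  letI : Fintype (U ⧸ (S ⊔ V)) := Fintype.ofFinite _
  have hmem : ∀ x y, τ x * τ y * (τ (x * y))⁻¹ ∈ V := by
    intro x y
    have h1 := hτ1 x
    have h2 := hτ1 y
    have h3 := hτ1 (x * y)
    have h4 : τ x * τ y * (τ (x * y))⁻¹ =
        (x * y) * ((y⁻¹ * (x⁻¹ * τ x) * y) * (y⁻¹ * τ y) * ((x * y)⁻¹ * τ (x * y))⁻¹) *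
          (x * y)⁻¹ := by group
    rw [h4]
    apply (inferInstance : V.Normal).conj_mem
    apply V.mul_mem (V.mul_mem _ h2) (V.inv_mem h3)
    have := (inferInstance : V.Normal).conj_mem _ h1 y⁻¹
    rwa [inv_inv] at this
  let h : U → U → V := fun x y => ⟨τ x * τ y * (τ (x * y))⁻¹, hmem x y⟩
  have hh : ∀ x y, ((h x y : V) : U) = τ x * τ y * (τ (x * y))⁻¹ := fun x y => rfl
  -- invariance in the second variable
  have hinv : ∀ x y w, w ∈ S ⊔ V → h x (y * w) = h x y := by
    intro x y w hw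
    rw [Subgroup.mem_sup_of_normal_right] at hw
    obtain ⟨s, hs, v, hv, rfl⟩ := hw
    apply Subtype.ext
    rw [hh, hh, ← mul_assoc y, hτ2 _ v hv, hτ3 _ s hs, ← mul_assoc x, ← mul_assoc x, hτ2 _ v hv,
      hτ3 _ s hs]
    group
  have hinv' : ∀ x y y', (QuotientGroup.mk y : U ⧸ (S ⊔ V)) = QuotientGroup.mk y' →
      h x y = h x y' := by
    intro x y y' hy
    rw [QuotientGroup.eq] at hy
    have : y' = y * (y⁻¹ * y') := by group
    rw [this, hinv _ _ _ hy]
  let g : U → V := fun x => ∏ q : U ⧸ (S ⊔ V), h x q.out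
  have hcoc : ∀ x y z, h x y * h (x * y) z = MulAut.conjNormal (τ x) (h y z) * h x (y * z) := by
    intro x y z
    apply Subtype.ext
    simp only [Subgroup.coe_mul, MulAut.conjNormal_apply, hh]
    rw [mul_assoc x y z]
    group
  have hprod : ∀ x y, h x y ^ ((S ⊔ V).index) * g (x * y) =
      MulAut.conjNormal (τ x) (g y) * g x := by
    intro x y
    have h1 : ∏ q : U ⧸ (S ⊔ V), (h x y * h (x * y) q.out) =
        ∏ q : U ⧸ (S ⊔ V), (MulAut.conjNormal (τ x) (h y q.out) * h x (y * q.out)) :=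
      Finset.prod_congr rfl fun q _ => hcoc x y _
    rw [Finset.prod_mul_distrib, Finset.prod_mul_distrib, Finset.prod_const, Finset.card_univ,
      ← Nat.card_eq_fintype_card] at h1
    have h2 : ∏ q : U ⧸ (S ⊔ V), h x (y * q.out) = g x := by
      apply Fintype.prod_bijective (fun q => y • q) (MulAction.bijective y)
      intro q
      apply hinv'
      rw [QuotientGroup.out_eq']
      conv_rhs => rw [← QuotientGroup.out_eq' q]
      rfl
    rw [h2, ← map_prod] at h1
    exact h1
  -- choose the inverse of the index modulo n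
  obtain ⟨w, hw⟩ : ∃ w : ℤ, ∀ v : V, v ^ (((S ⊔ V).index : ℤ) * w) = v := by
    have hg := Int.gcd_eq_gcd_ab ((S ⊔ V).index : ℤ) n
    rw [Int.gcd_natCast_natCast, hcop.gcd_eq_one] at hg
    refine ⟨Int.gcdA ((S ⊔ V).index : ℤ) n, fun v => ?_⟩
    have hv : v ^ (n : ℤ) = 1 := by
      rw [zpow_natCast]
      exact Subtype.ext (hn v v.2)
    have h5 : ((S ⊔ V).index : ℤ) * Int.gcdA ((S ⊔ V).index : ℤ) n =
        1 - n * Int.gcdB ((S ⊔ V).index : ℤ) n := by
      push_cast at hg
      linarith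
    rw [h5, zpow_sub, zpow_one, zpow_mul, hv, one_zpow, inv_one, mul_one]
  have hkey : ∀ x y, h x y = (MulAut.conjNormal (τ x) (g y)) ^ w * (g x) ^ w *
      (g (x * y) ^ w)⁻¹ := by
    intro x y
    have h1 := hprod x y
    have h2 : h x y ^ ((S ⊔ V).index) = MulAut.conjNormal (τ x) (g y) * g x * (g (x * y))⁻¹ := by
      rw [← h1]; group
    calc h x y = h x y ^ (((S ⊔ V).index : ℤ) * w) := (hw _).symm
      _ = (h x y ^ ((S ⊔ V).index)) ^ w := by rw [zpow_mul, zpow_natCast]
      _ = _ := by rw [h2, mul_zpow, mul_zpow, inv_zpow]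
  let τ' : U → U := fun x => ((g x ^ w : V) : U)⁻¹ * τ x
  have hmul : ∀ x y, τ' (x * y) = τ' x * τ' y := by
    intro x y
    have h1 := congrArg (Subtype.val) (hkey x y)
    rw [hh] at h1
    simp only [Subgroup.coe_mul, Subgroup.coe_inv, ← map_zpow, MulAut.conjNormal_apply] at h1
    have h2 : τ x * τ y = (τ x * ((g y ^ w : V) : U) * (τ x)⁻¹ * ((g x ^ w : V) : U) *
        ((g (x * y) ^ w : V) : U)⁻¹) * τ (x * y) := by
      rw [← h1]; group
    have hc : ∀ a b : V, (a : U) * b = b * a := fun a b => hab a a.2 b b.2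
    change ((g (x * y) ^ w : V) : U)⁻¹ * τ (x * y) =
      ((g x ^ w : V) : U)⁻¹ * τ x * (((g y ^ w : V) : U)⁻¹ * τ y)
    have h3 : ((g x ^ w : V) : U)⁻¹ * τ x * (((g y ^ w : V) : U)⁻¹ * τ y) =
        ((g x ^ w : V) : U)⁻¹ * (τ x * ((g y ^ w : V) : U) * (τ x)⁻¹)⁻¹ * (τ x * τ y) := by
      group
    have h4 : ∃ c : V, (c : U) = τ x * ((g y ^ w : V) : U) * (τ x)⁻¹ :=
      ⟨MulAut.conjNormal (τ x) (g y ^ w), rfl⟩
    obtain ⟨c, hcc⟩ := h4
    rw [h3, h2, ← hcc]
    have h5 : ((g x ^ w : V) : U)⁻¹ * (c : U)⁻¹ * ((c : U) * ((g x ^ w : V) : U) *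
        ((g (x * y) ^ w : V) : U)⁻¹ * τ (x * y)) = ((g (x * y) ^ w : V) : U)⁻¹ * τ (x * y) := by
      group
    rw [h5]
  let F : U →* U := MonoidHom.mk' τ' hmul
  have hFV : ∀ u, u⁻¹ * F u ∈ V := by
    intro u
    have : u⁻¹ * F u = (u⁻¹ * ((g u ^ w : V) : U)⁻¹ * u) * (u⁻¹ * τ u) := by
      change u⁻¹ * (((g u ^ w : V) : U)⁻¹ * τ u) = _
      group
    rw [this]
    apply V.mul_mem _ (hτ1 u)
    have h6 := (inferInstance : V.Normal).conj_mem _ (V.inv_mem (g u ^ w : V).2) u⁻¹
    rwa [inv_inv] at h6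
  have hFv : ∀ v ∈ V, F v = 1 := by
    intro v hv
    have h1 : τ v = τ 1 := by
      have := hτ2 1 v hv
      rwa [one_mul] at this
    have h2 : g v = g 1 := by
      refine Finset.prod_congr rfl fun q _ => ?_
      apply Subtype.ext
      rw [hh, hh, h1]
      have h3 : v * q.out = q.out * ((q.out)⁻¹ * v * q.out) := by group
      have h4 : τ (v * q.out) = τ (1 * q.out) := by
        rw [h3, hτ2, one_mul]
        have h6 := (inferInstance : V.Normal).conj_mem _ hv (q.out)⁻¹
        rwa [inv_inv] at h6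
      rw [h4]
    have h5 : F v = F 1 := by
      change ((g v ^ w : V) : U)⁻¹ * τ v = ((g 1 ^ w : V) : U)⁻¹ * τ 1
      rw [h1, h2]
    rw [h5, map_one]
  refine ⟨F.range, ?_, ?_⟩
  · rw [eq_bot_iff]
    rintro _ ⟨⟨u, rfl⟩, hu⟩
    have huV : u ∈ V := by
      have h1 := hFV u
      have h2 : u = F u * (u⁻¹ * F u)⁻¹ := by group
      rw [h2]
      exact V.mul_mem hu (V.inv_mem h1)
    exact hFv u huV
  · rw [eq_top_iff]
    intro u _
    have h2 : u = F u * (u⁻¹ * F u)⁻¹ := by group
    rw [h2]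
    exact Subgroup.mul_mem_sup ⟨u, rfl⟩ (V.inv_mem (hFV u))

theorem gaschutz {U : Type*} [Group U] (V S K : Subgroup U) [V.Normal] [K.Normal] (hKV : K ≤ V)
    (hab : ∀ v ∈ V, ∀ w ∈ V, v * w = w * v) (n : ℕ) (hn : ∀ v ∈ V, v ^ n ∈ K)
    (hSV : S ⊓ V ≤ K) (hfin : (S ⊔ V).index ≠ 0) (hcop : Nat.Coprime ((S ⊔ V).index) n) :
    ∃ L : Subgroup U, L ⊓ V = K ∧ L ⊔ V = ⊤ := by
  have hπ : Function.Surjective (QuotientGroup.mk' K) := QuotientGroup.mk'_surjective K
  have hker : (QuotientGroup.mk' K).ker = K := QuotientGroup.ker_mk' K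
  have hV : (V.map (QuotientGroup.mk' K)).Normal :=
    (inferInstance : V.Normal).map _ hπ
  have hidx : ((S.map (QuotientGroup.mk' K)) ⊔ (V.map (QuotientGroup.mk' K))).index =
      (S ⊔ V).index := by
    rw [← Subgroup.map_sup, Subgroup.index_map_eq _ hπ]
    rw [hker]
    exact hKV.trans le_sup_right
  have hfin' : Finite ((U ⧸ K) ⧸ ((S.map (QuotientGroup.mk' K)) ⊔
      (V.map (QuotientGroup.mk' K)))) := by
    have : ((S.map (QuotientGroup.mk' K)) ⊔ (V.map (QuotientGroup.mk' K))).FiniteIndex :=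
      ⟨by rw [hidx]; exact hfin⟩
    infer_instance
  obtain ⟨L, hL1, hL2⟩ := gaschutz_aux (V.map (QuotientGroup.mk' K)) (S.map (QuotientGroup.mk' K))
    (by
      rintro _ ⟨v, hv, rfl⟩ _ ⟨w, hw, rfl⟩
      rw [← map_mul, hab v hv w hw, map_mul]) n (by
      rintro _ ⟨v, hv, rfl⟩
      rw [← map_pow, QuotientGroup.mk'_apply, QuotientGroup.eq_one_iff]
      exact hn v hv) (by
      rw [eq_bot_iff]
      rintro _ ⟨⟨s, hs, rfl⟩, ⟨v, hv, hvs⟩⟩
      rw [Subgroup.mem_bot, QuotientGroup.mk'_apply, QuotientGroup.eq_one_iff]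
      apply hSV
      refine ⟨hs, ?_⟩
      have h1 : v⁻¹ * s ∈ K := by
        rw [← QuotientGroup.eq]
        exact hvs
      have h2 : s = v * (v⁻¹ * s) := by group
      change s ∈ V
      rw [h2]
      exact V.mul_mem hv (hKV h1)) (by rw [hidx]; exact hcop)
  refine ⟨L.comap (QuotientGroup.mk' K), ?_, ?_⟩
  · apply le_antisymm
    · rintro x ⟨hxL, hxV⟩
      have : QuotientGroup.mk' K x ∈ L ⊓ V.map (QuotientGroup.mk' K) :=
        ⟨hxL, ⟨x, hxV, rfl⟩⟩
      rw [hL1, Subgroup.mem_bot, QuotientGroup.mk'_apply, QuotientGroup.eq_one_iff] at this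
      exact this
    · intro x hx
      refine ⟨?_, hKV hx⟩
      change QuotientGroup.mk' K x ∈ L
      have : QuotientGroup.mk' K x = 1 := by
        rw [QuotientGroup.mk'_apply, QuotientGroup.eq_one_iff]; exact hx
      rw [this]
      exact L.one_mem
  · rw [eq_top_iff]
    intro x _
    have h1 : QuotientGroup.mk' K x ∈ L ⊔ V.map (QuotientGroup.mk' K) := by
      rw [hL2]; trivial
    rw [Subgroup.mem_sup_of_normal_right] at h1
    obtain ⟨l, hl, _, ⟨v, hv, rfl⟩, hlv⟩ := h1
    obtain ⟨l', rfl⟩ := hπ l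
    have h2 : (l' * v)⁻¹ * x ∈ K := by
      rw [← QuotientGroup.eq]
      exact hlv
    have h3 : x = l' * (v * ((l' * v)⁻¹ * x)) := by group
    rw [h3]
    exact Subgroup.mul_mem_sup hl (V.mul_mem hv (hKV h2))

end Vale.Agent.P180
end
end

section

section

set_option linter.style.haveILetI false
set_option linter.unusedSectionVars false

namespace Vale.Agent.P180.KP

open scoped Classical

section Dprime

variable {k : Type*} [Field k] {G : Type*} [Group G] [Finite G]

theorem coeff_tr {H K : Subgroup G} (x : MonoidAlgebra k G) (n : G)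
    (hn : ∀ g ∈ K, g * n * g⁻¹ = n) :
    (tr (cj k G) H K x).coeff n = (H.relIndex K : k) * x.coeff n := by
  letI := Fintype.ofFinite (K ⧸ H.subgroupOf K)
  rw [tr_def, MonoidAlgebra.coeff_sum, Finsupp.finsetSum_apply]
  have : ∀ q : K ⧸ H.subgroupOf K, (cj k G (q.out : K) x).coeff n = x.coeff n := by
    intro q
    rw [cj_coeff]
    have h1 := hn _ (K.inv_mem (q.out : K).2)
    rw [inv_inv] at h1
    rw [h1]
  simp only [this]
  rw [Finset.sum_const, Subgroup.relIndex, Subgroup.index, Nat.card_eq_fintype_card,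
    Finset.card_univ, nsmul_eq_mul]

theorem tr_mem_SubAlg {N : Subgroup G} [N.Normal] {H K : Subgroup G} {x : MonoidAlgebra k G}
    (hx : x ∈ SubAlg k N) : tr (cj k G) H K x ∈ SubAlg k N := by
  letI := Fintype.ofFinite (K ⧸ H.subgroupOf K)
  rw [tr_def]
  exact Subalgebra.sum_mem _ fun q _ => cj_mem_SubAlg _ hx

theorem eq_sum_tr_single (D : Subgroup G) {e : MonoidAlgebra k G} (he : e ∈ Fix (cj k G) D) :
    ∃ (ι : Type) (_ : Fintype ι) (S : ι → Subgroup G) (x : ι → G), (∀ o, S o ≤ D) ∧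
      (∀ o, ∀ h ∈ D, h ∈ S o ↔ h * x o * h⁻¹ = x o) ∧
      (∀ o, MonoidAlgebra.single (x o) (e.coeff (x o)) ∈ Fix (cj k G) (S o)) ∧
      e = ∑ o, tr (cj k G) (S o) D (MonoidAlgebra.single (x o) (e.coeff (x o))) := by
  letI : MulAction D G := MulAction.compHom G
    ((ConjAct.toConjAct : G ≃* ConjAct G).toMonoidHom.comp D.subtype)
  have hsmul : ∀ (h : D) (x : G), h • x = h * x * (h : G)⁻¹ := fun h x => rfl
  letI := Fintype.ofFinite G
  letI := Fintype.ofFinite (MulAction.orbitRel.Quotient D G)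
  obtain ⟨n, ⟨eqv⟩⟩ := Finite.exists_equiv_fin (MulAction.orbitRel.Quotient D G)
  have h1 := sum_eq_sum_orbits (ρ := cj k G) (K := D)
    (fun x : G => MonoidAlgebra.single x (e.coeff x)) (by
      intro h x
      rw [cj_single, hsmul]
      congr 1
      have h2 := he h h.2
      conv_lhs => rw [← h2]
      rw [cj_coeff]
      congr 1
      group)
  have h3 : ∑ x : G, MonoidAlgebra.single x (e.coeff x) = e := by
    ext y
    rw [MonoidAlgebra.coeff_sum, Finsupp.finsetSum_apply]
    simp [Finsupp.single_apply]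
  rw [h3] at h1
  refine ⟨Fin n, inferInstance,
    fun o => (MulAction.stabilizer D ((eqv.symm o).out)).map D.subtype,
    fun o => (eqv.symm o).out, ?_, ?_, ?_, ?_⟩
  · rintro o _ ⟨h, -, rfl⟩
    exact h.2
  · intro o h hh
    constructor
    · rintro ⟨h', hh', rfl⟩
      exact hh'
    · intro hx
      exact ⟨⟨h, hh⟩, hx, rfl⟩
  · rintro o _ ⟨h, hh, rfl⟩
    rw [cj_single]
    have hh' : (h : G) * (eqv.symm o).out * (h : G)⁻¹ = (eqv.symm o).out := hh
    change MonoidAlgebra.single ((h : G) * (eqv.symm o).out * (h : G)⁻¹) _ = _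
    rw [hh']
  · conv_lhs => rw [h1]
    exact (Equiv.sum_comp eqv.symm (fun o => tr (cj k G)
      ((MulAction.stabilizer D o.out).map D.subtype) D
      (MonoidAlgebra.single o.out (e.coeff o.out)))).symm

/-- `D` is a candidate for a defect group of `e` in `R`. -/
def Cand (p : ℕ) (N R : Subgroup G) (e : MonoidAlgebra k G) (D : Subgroup G) : Prop :=
  IsPGroup p D ∧ D ≤ R ∧ ∃ a ∈ SubAlg k N, a * e = a ∧ a ∈ Fix (cj k G) D ∧
    e = tr (cj k G) D R a

theorem isPrimIn_mono {A : Type*} [Ring A] [Algebra k A] {S T : Subalgebra k A} {e : A}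
    (he : IsPrimIn T e) (hST : S ≤ T) (heS : e ∈ S) : IsPrimIn S e :=
  ⟨heS, he.idem, he.ne_zero, fun c hc h1 h2 => he.primitive c (hST hc) h1 h2⟩

variable {p : ℕ} [Fact p.Prime] [CharP k p]

theorem exists_cand {N R : Subgroup G} {e : MonoidAlgebra k G} (he : IsBlockOf N e)
    (heR : e ∈ Fix (cj k G) R) : ∃ D, Cand p N R e D := by
  obtain ⟨Q⟩ : Nonempty (Sylow p R) := inferInstance
  have hidx : ((Q : Subgroup R).map R.subtype).relIndex R = (Q : Subgroup R).index := by
    rw [Subgroup.relIndex, ← Subgroup.comap_subtype,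
      Subgroup.comap_map_eq_self_of_injective R.subtype_injective]
  have hne : ((((Q : Subgroup R).map R.subtype).relIndex R : ℕ) : k) ≠ 0 := by
    rw [hidx, Ne, CharP.cast_eq_zero_iff k p]
    exact Q.not_dvd_index
  refine ⟨(Q : Subgroup R).map R.subtype, Q.2.map _, ?_, ?_⟩
  · rintro _ ⟨x, -, rfl⟩
    exact x.2
  · have hle : (Q : Subgroup R).map R.subtype ≤ R := by
      rintro _ ⟨x, -, rfl⟩
      exact x.2
    refine ⟨((((Q : Subgroup R).map R.subtype).relIndex R : ℕ) : k)⁻¹ • e,
      Subalgebra.smul_mem _ he.mem.1 _, ?_, ?_, ?_⟩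
    · rw [smul_mul_assoc, he.idem.eq]
    · exact Subalgebra.smul_mem _ (Fix_mono _ hle heR) _
    · rw [tr_smul, tr_of_mem_Fix heR, smul_smul, inv_mul_cancel₀ hne, one_smul]

theorem exists_min_cand {N R : Subgroup G} [N.Normal] (hNR : N ≤ R) {e : MonoidAlgebra k G}
    (he : IsBlockOf N e) (heR : e ∈ Fix (cj k G) R) :
    ∃ D, Cand p N R e D ∧ ∃ n ∈ N, (∀ h ∈ D, h * n * h⁻¹ = n) ∧ e.coeff n ≠ 0 := by
  obtain ⟨D, hD⟩ := exists_minimal_of_wellFoundedLT (Cand p N R e) (exists_cand he heR)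
  refine ⟨D, hD.1, ?_⟩
  obtain ⟨⟨hDp, hDR, a, haN, hae, haD, hea⟩, hmin⟩ := hD
  by_contra hcon
  push Not at hcon
  have hcoeff : ∀ n, (∀ h ∈ D, h * n * h⁻¹ = n) → e.coeff n = 0 := by
    intro n hn
    by_cases hnN : n ∈ N
    · exact hcon n hnN hn
    · by_contra h0
      exact hnN (he.mem.1 n h0)
  obtain ⟨ι, hι, S, x, hSD, hS, hfix, hsum⟩ := eq_sum_tr_single D (Fix_mono _ hDR heR)
  have hxmem : ∀ o, MonoidAlgebra.single (x o) (e.coeff (x o)) ∈ SubAlg k N := by
    intro o
    by_cases hx : x o ∈ N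
    · exact single_mem_SubAlg hx _
    · have : e.coeff (x o) = 0 := by
        by_contra h0
        exact hx (he.mem.1 _ h0)
      rw [this, MonoidAlgebra.single_zero]
      exact Subalgebra.zero_mem _
  have hfix' : ∀ o, a * MonoidAlgebra.single (x o) (e.coeff (x o)) ∈ Fix (cj k G) (S o) :=
    fun o => Subalgebra.mul_mem _ (Fix_mono _ (hSD o) haD) (hfix o)
  have hez : e = ∑ o, tr (cj k G) (S o) R
      (a * MonoidAlgebra.single (x o) (e.coeff (x o))) := by
    have h1 : e = tr (cj k G) D R (a * e) := by rw [hae]; exact hea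
    conv_lhs => rw [h1]
    conv_lhs => rw [hsum]
    rw [Finset.mul_sum, tr_sum]
    refine Finset.sum_congr rfl fun o _ => ?_
    rw [mul_tr haD, tr_tr (hfix' o) (hSD o) hDR]
  have hprim : IsPrimIn (ZAlg k N ⊓ Fix (cj k G) R) e := isPrimIn_mono he inf_le_left
    ⟨he.mem, heR⟩
  have hcomm : ∀ u ∈ ZAlg k N ⊓ Fix (cj k G) R, ∀ v ∈ ZAlg k N ⊓ Fix (cj k G) R,
      u * v = v * u := fun u hu v hv => ZAlg_comm u hu.1 v hv.1
  obtain ⟨o, -, y, hy, hye, hzy⟩ := hprim.exists_unit_of_sum hcomm Finset.univ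
    (fun o => tr (cj k G) (S o) R (a * MonoidAlgebra.single (x o) (e.coeff (x o))))
    (fun o _ => ⟨⟨tr_mem_SubAlg (Subalgebra.mul_mem _ haN (hxmem o)),
      Fix_mono _ hNR (tr_mem_Fix (hfix' o))⟩, tr_mem_Fix (hfix' o)⟩)
    (fun o _ => by
      rw [tr_mul heR, mul_assoc, commute_of_mem (hxmem o) he.mem.2, ← mul_assoc, hae]) hez.symm
  -- `S o` is a smaller candidate
  have hcand : Cand p N R e (S o) := by
    refine ⟨hDp.to_le (hSD o), (hSD o).trans hDR,
      a * MonoidAlgebra.single (x o) (e.coeff (x o)) * y,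
      Subalgebra.mul_mem _ (Subalgebra.mul_mem _ haN (hxmem o)) hy.1.1, ?_, ?_, ?_⟩
    · rw [mul_assoc, hye]
    · exact Subalgebra.mul_mem _ (hfix' o) (Fix_mono _ ((hSD o).trans hDR) hy.2)
    · rw [← tr_mul hy.2, hzy]
  have hDS : D ≤ S o := hmin hcand (hSD o)
  have h0 : e.coeff (x o) = 0 := hcoeff _ fun h hh => (hS o h hh).mp (hDS hh)
  have hz0 : tr (cj k G) (S o) R (a * MonoidAlgebra.single (x o) (e.coeff (x o))) = 0 := by
    rw [h0, MonoidAlgebra.single_zero, mul_zero]
    have := tr_smul (ρ := cj k G) (H := S o) (K := R) 0 0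
    simpa using this
  rw [hz0, zero_mul] at hzy
  exact he.ne_zero hzy.symm

theorem p_dvd_relIndex {H K : Subgroup G} (hK : IsPGroup p K) (hne : ¬ K ≤ H) :
    (H.relIndex K : k) = 0 := by
  have h1 : IsPGroup p K := hK
  obtain ⟨n, hn⟩ := h1.index (H.subgroupOf K)
  rw [Subgroup.relIndex, hn, CharP.cast_eq_zero_iff k p]
  rcases n with _ | n
  · exfalso
    apply hne
    rw [← Subgroup.relIndex_eq_one, Subgroup.relIndex, hn, pow_zero]
  · exact dvd_pow_self p (Nat.succ_ne_zero n)

/-- an element of `N` centralised by a `p`-group `W ≤ N` occurs in `e` only if `W ≤ κ(C)` -/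
theorem CB.le_of_coeff {C : Type*} [CommGroup C] [Finite C] {N : Subgroup G} {κ : C →* G}
    {e : MonoidAlgebra k G} (h : CB N κ e) {W : Subgroup G} (hW : IsPGroup p W) (hWN : W ≤ N)
    {n : G} (hn : ∀ g ∈ W, g * n * g⁻¹ = n) (hen : e.coeff n ≠ 0) : W ≤ κ.range := by
  by_contra hcon
  apply hen
  obtain ⟨a₀, ha₀, htr⟩ := h.trace
  have hfix : a₀ ∈ Fix (cj k G) κ.range := by
    rintro _ ⟨c, rfl⟩
    have := kap_fix (k := k) (κ := κ) (N := N) h.comm
    refine SuppIn.induction (P := fun a => cj k G (κ c) a = a) ha₀ (map_zero _) ?_ ?_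
    · intro a b ha hb; rw [map_add, ha, hb]
    · intro x hx r
      rw [map_smul, cj_single, h.comm c x hx, mul_inv_cancel_right]
  letI := Fintype.ofFinite (N ⧸ κ.range.subgroupOf N)
  letI : MulAction W (N ⧸ κ.range.subgroupOf N) :=
    MulAction.compHom _ (Subgroup.inclusion hWN)
  letI := Fintype.ofFinite (MulAction.orbitRel.Quotient W (N ⧸ κ.range.subgroupOf N))
  have hsmul : ∀ (w : W) (x : N), w • (QuotientGroup.mk x : N ⧸ κ.range.subgroupOf N) =
      QuotientGroup.mk (Subgroup.inclusion hWN w * x) := fun w x => rfl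
  rw [htr, tr_def]
  rw [sum_eq_sum_orbits (ρ := cj k G) (K := W)
    (fun q : N ⧸ κ.range.subgroupOf N => cj k G ((q.out : N) : G) a₀) (by
      intro w q
      induction q using QuotientGroup.induction_on with
      | H x =>
        rw [hsmul, act_out hfix, act_out hfix, ← map_mul_act]
        rfl)]
  rw [MonoidAlgebra.coeff_sum, Finsupp.finsetSum_apply]
  apply Finset.sum_eq_zero
  intro o _
  rw [coeff_tr _ n hn]
  rw [p_dvd_relIndex (k := k) hW, zero_mul]
  intro hle'
  apply hcon
  intro w hw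
  obtain ⟨w', hw', hww'⟩ := hle' hw
  have h1 : w' • o.out = o.out := hw'
  have h2 : w' • (QuotientGroup.mk (o.out).out : N ⧸ κ.range.subgroupOf N) =
      QuotientGroup.mk (o.out).out := by
    rw [QuotientGroup.out_eq']; exact h1
  rw [hsmul, eq_comm, QuotientGroup.eq, Subgroup.mem_subgroupOf] at h2
  obtain ⟨c, hc⟩ := h2
  refine ⟨c, ?_⟩
  have h3 := h.comm c _ (o.out).out.2
  have h5 : κ c = ((o.out).out : G)⁻¹ * ((w' : G) * ((o.out).out : G)) := hc
  have h6 : (w' : G) = ((o.out).out : G) * κ c * ((o.out).out : G)⁻¹ := by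
    rw [h5]; group
  rw [← hww']
  change κ c = (w' : G)
  rw [h6, ← h3]
  group

theorem CB.fix_of_mem {C : Type*} [CommGroup C] [Finite C] {N : Subgroup G} {κ : C →* G}
    {e : MonoidAlgebra k G} (h : CB N κ e) {a : MonoidAlgebra k G} (ha : a ∈ SubAlg k N) :
    a ∈ Fix (cj k G) κ.range := by
  rintro _ ⟨c, rfl⟩
  refine SuppIn.induction (P := fun a => cj k G (κ c) a = a) ha (map_zero _) ?_ ?_
  · intro a b ha hb; rw [map_add, ha, hb]
  · intro x hx r
    rw [map_smul, cj_single, h.comm c x hx, mul_inv_cancel_right]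

/-- the centre is contained in every candidate -/
theorem CB.range_le {C : Type*} [CommGroup C] [Finite C] {N : Subgroup G} {κ : C →* G}
    {e : MonoidAlgebra k G} (h : CB N κ e) (hC : IsPGroup p C) {α : G →* MulAut C}
    (hα : ConjData κ α) {R D : Subgroup G} (hNR : N ≤ R) (hD : Cand p N R e D) :
    κ.range ≤ D := by
  obtain ⟨hDp, hDR, a, haN, hae, haD, hea⟩ := hD
  haveI hn : κ.range.Normal := by
    constructor
    rintro _ ⟨c, rfl⟩ g
    exact ⟨α g c, hα.conj g c⟩
  have hκp : IsPGroup p κ.range := hC.of_surjective κ.rangeRestrict κ.rangeRestrict_surjective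
  have hsup : IsPGroup p (D ⊔ κ.range : Subgroup G) := hDp.to_sup_of_normal_right hκp
  have hκR : κ.range ≤ R := by
    rintro _ ⟨c, rfl⟩
    exact hNR (h.mem c)
  by_contra hcon
  have hfix : a ∈ Fix (cj k G) (D ⊔ κ.range) := by
    intro x hx
    rw [Subgroup.mem_sup_of_normal_right] at hx
    obtain ⟨y, hy, z, hz, rfl⟩ := hx
    rw [map_mul_act, h.fix_of_mem haN z hz, haD y hy]
  have h1 : e = tr (cj k G) (D ⊔ κ.range) R (tr (cj k G) D (D ⊔ κ.range) a) := by
    rw [tr_tr haD le_sup_left (sup_le hDR hκR)]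
    exact hea
  rw [tr_of_mem_Fix hfix, p_dvd_relIndex (k := k) hsup, zero_smul] at h1
  · have h2 := tr_smul (ρ := cj k G) (H := D ⊔ κ.range) (K := R) 0 0
    rw [zero_smul, zero_smul] at h2
    rw [h2] at h1
    exact h.block.ne_zero h1
  · intro hle
    exact hcon (le_sup_right.trans hle)

theorem CB.sig_fix {C : Type*} [CommGroup C] [Finite C] {κ : C →* G} {α : G →* MulAut C}
    (hα : ConjData κ α) : sigG k κ ∈ Fix (cj k G) ⊤ := by
  intro g _
  letI := Fintype.ofFinite C
  rw [sigG_eq, map_sum]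
  have : ∀ c, cj k G g (MonoidAlgebra.single (κ c) (1 : k)) =
      MonoidAlgebra.single (κ (α g c)) 1 := by
    intro c
    rw [cj_single, hα.conj]
  simp only [this]
  exact Fintype.sum_equiv (α g).toEquiv _ _ fun c => rfl

/-- `R = N D` -/
theorem CB.sup_eq [IsAlgClosed k] {C : Type*} [CommGroup C] [Finite C] {N : Subgroup G}
    [N.Normal] {κ : C →* G} {e : MonoidAlgebra k G} (h : CB N κ e) (hC : IsPGroup p C)
    {α : G →* MulAut C} (hα : ConjData κ α)
    {R D : Subgroup G} (hNR : N ≤ R) (hRN : ∃ n, N.relIndex R = p ^ n)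
    (heR : e ∈ Fix (cj k G) R) (hD : Cand p N R e D) : D ⊔ N = R := by
  obtain ⟨hDp, hDR, a, haN, hae, haD, hea⟩ := hD
  by_contra hcon
  have hle : D ⊔ N ≤ R := sup_le hDR hNR
  have hidx : ((D ⊔ N).relIndex R : k) = 0 := by
    obtain ⟨n, hn⟩ := hRN
    have h1 : (D ⊔ N).relIndex R ∣ p ^ n := by
      rw [← hn]
      exact Subgroup.relIndex_dvd_of_le_left R le_sup_right
    rw [Nat.dvd_prime_pow Fact.out] at h1
    obtain ⟨m, -, hm⟩ := h1
    rw [hm, CharP.cast_eq_zero_iff k p]
    rcases m with _ | m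
    · exfalso
      apply hcon
      apply le_antisymm hle
      rw [← Subgroup.relIndex_eq_one, hm, pow_zero]
    · exact dvd_pow_self p (Nat.succ_ne_zero m)
  obtain ⟨d, hd, ψ, i, hψ, -, -⟩ := exists_CIdem h hC
  obtain ⟨z, hz⟩ : ∃ z, z = tr (cj k G) D (D ⊔ N) a := ⟨_, rfl⟩
  have hzN : z ∈ SubAlg k N := by rw [hz]; exact tr_mem_SubAlg haN
  have hzfix : z ∈ Fix (cj k G) (D ⊔ N) := by rw [hz]; exact tr_mem_Fix haD
  have hez : e = tr (cj k G) (D ⊔ N) R z := by
    rw [hz, tr_tr haD le_sup_left hle]; exact hea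
  have hze : z * e = z := by
    rw [hz, tr_mul (Fix_mono _ hle heR), hae]
  -- `ψ z` is scalar
  obtain ⟨c, hc⟩ : ∃ c : k, ψ z = c • (1 : Matrix (Fin d) (Fin d) k) := by
    have h1 : ψ z ∈ Set.range (Matrix.scalar (Fin d)) := by
      apply Matrix.mem_range_scalar_of_commute_single
      intro a b _
      obtain ⟨x, hx, hx'⟩ := hψ.surj (Matrix.single a b 1)
      rw [← hx']
      change ψ x * ψ z = ψ z * ψ x
      rw [← hψ.mul x hx z hzN, ← hψ.mul z hzN x hx,
        commute_of_mem hx (Fix_mono _ le_sup_right hzfix)]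
    obtain ⟨c, hc⟩ := h1
    refine ⟨c, ?_⟩
    rw [← hc, Matrix.scalar_apply, ← Matrix.smul_one_eq_diagonal]
  have hν : sigG k κ * (z - c • e) = 0 := by
    have h1 : (z - c • e) * e = z - c • e := by
      rw [sub_mul, hze, smul_mul_assoc, h.block.idem.eq]
    rw [← h1, ← hψ.ker _ (Subalgebra.sub_mem _ hzN (Subalgebra.smul_mem _ h.e_mem c)), map_sub,
      map_smul, hψ.map_e h, hc, sub_self]
  have h2 : tr (cj k G) (D ⊔ N) R (c • e) = 0 := by
    rw [tr_smul, tr_of_mem_Fix heR, hidx, zero_smul, smul_zero]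
  have h3 : e = tr (cj k G) (D ⊔ N) R (z - c • e) := by
    have h4 := tr_add (ρ := cj k G) (H := D ⊔ N) (K := R) (z - c • e) (c • e)
    rw [sub_add_cancel, h2, add_zero] at h4
    rw [← h4]; exact hez
  apply h.sig_e_ne_zero hC
  rw [h3, mul_tr (Fix_mono _ le_top (CB.sig_fix hα)), hν]
  have h4 := tr_smul (ρ := cj k G) (H := D ⊔ N) (K := R) 0 0
  rw [zero_smul, zero_smul] at h4
  exact h4

/-- The data of a defect group of `e` in `R`. -/
structure DD {C : Type*} [CommGroup C] (p : ℕ) (N : Subgroup G) (κ : C →* G)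
    (e : MonoidAlgebra k G) (R D : Subgroup G) (a : MonoidAlgebra k G) : Prop where
  pgroup : IsPGroup p D
  le : D ≤ R
  range_le : κ.range ≤ D
  sup : D ⊔ N = R
  inf : D ⊓ N ≤ κ.range
  mem : a ∈ SubAlg k N
  ae : a * e = a
  fix : a ∈ Fix (cj k G) D
  trace : e = tr (cj k G) κ.range N a

theorem CB.exists_DD [IsAlgClosed k] {C : Type*} [CommGroup C] [Finite C] {N : Subgroup G}
    [N.Normal] {κ : C →* G} {e : MonoidAlgebra k G} (h : CB N κ e) (hC : IsPGroup p C)
    {α : G →* MulAut C} (hα : ConjData κ α)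
    {R : Subgroup G} (hNR : N ≤ R) (hRN : ∃ n, N.relIndex R = p ^ n)
    (heR : e ∈ Fix (cj k G) R) : ∃ D a, DD p N κ e R D a := by
  obtain ⟨D, hD, n, hn, hn1, hn2⟩ := exists_min_cand (p := p) hNR h.block heR
  have hκD := h.range_le hC hα hNR hD
  have hsup := h.sup_eq hC hα hNR hRN heR hD
  obtain ⟨hDp, hDR, a, haN, hae, haD, hea⟩ := hD
  have hinf : D ⊓ N ≤ κ.range := by
    refine h.le_of_coeff (hDp.to_le inf_le_left) inf_le_right (n := n) ?_ hn2
    intro g hg
    exact hn1 g hg.1
  refine ⟨D, a, hDp, hDR, hκD, hsup, hinf, haN, hae, haD, ?_⟩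
  letI := Fintype.ofFinite (N ⧸ κ.range.subgroupOf N)
  conv_lhs => rw [hea]
  rw [tr_def (H := κ.range) (K := N)]
  rw [tr_eq_sum' (ι := N ⧸ κ.range.subgroupOf N) haD (fun q => ((q.out : N) : G))]
  · intro q
    exact hNR (q.out).2
  · intro q r hqr
    have h1 : ((q.out : N) : G)⁻¹ * ((r.out : N) : G) ∈ κ.range :=
      hinf ⟨hqr, N.mul_mem (N.inv_mem (q.out).2) (r.out).2⟩
    rw [← QuotientGroup.out_eq' q, ← QuotientGroup.out_eq' r, QuotientGroup.eq,
      Subgroup.mem_subgroupOf]
    exact h1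
  · intro x hx
    rw [← hsup, sup_comm, Subgroup.mem_sup_of_normal_left] at hx
    obtain ⟨y, hy, z, hz, rfl⟩ := hx
    refine ⟨QuotientGroup.mk ⟨y, hy⟩, ?_⟩
    have h1 : (QuotientGroup.mk (QuotientGroup.mk (⟨y, hy⟩ : N) : N ⧸ κ.range.subgroupOf N).out :
        N ⧸ κ.range.subgroupOf N) = QuotientGroup.mk (⟨y, hy⟩ : N) := by simp
    rw [QuotientGroup.eq, Subgroup.mem_subgroupOf] at h1
    rw [← mul_assoc]
    exact D.mul_mem (hκD h1) hz

end Dprime

end Vale.Agent.P180.KP
end
end

section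

section

set_option linter.style.haveILetI false
set_option linter.unusedSectionVars false

namespace Vale.Agent.P180.KP

open scoped Classical

section TrIdem

variable {k : Type*} [Field k]

theorem exists_isPrimIn_T {A : Type*} [Ring A] [Algebra k A] [FiniteDimensional k A]
    (S : Subalgebra k A) (hS : ∀ x ∈ S, ∀ y ∈ S, x * y = y * x) (T : A →ₗ[k] k) {b : A}
    (hb : T b ≠ 0) : ∃ e, IsPrimIn S e ∧ T (b * e) ≠ 0 := by
  classical
  let P : ℕ → Prop := fun d => ∃ f ∈ S, IsIdempotentElem f ∧ T (b * f) ≠ 0 ∧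
    Module.finrank k (LinearMap.range (LinearMap.mulLeft k f)) = d
  have hP : ∃ d, P d := ⟨_, 1, S.one_mem, IsIdempotentElem.one, by rwa [mul_one], rfl⟩
  obtain ⟨f, hfS, hf, hbf, hfd⟩ := Nat.find_spec hP
  refine ⟨f, ⟨hfS, hf, ?_, ?_⟩, hbf⟩
  · rintro rfl
    exact hbf (by rw [mul_zero, map_zero])
  · intro c hc hcc hcf
    by_contra hcon
    push Not at hcon
    have hfc : f * c = c := by rw [hS f hfS c hc, hcf]
    have hlt : ∀ g ∈ S, IsIdempotentElem g → f * g = g → g ≠ f →
        Module.finrank k (LinearMap.range (LinearMap.mulLeft k g)) < Nat.find hP := by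
      intro g hg hgg hfg hne
      rw [← hfd]
      apply Submodule.finrank_lt_finrank_of_lt
      refine lt_of_le_of_ne ?_ ?_
      · rintro _ ⟨y, rfl⟩
        refine ⟨g * y, ?_⟩
        simp only [LinearMap.mulLeft_apply]
        rw [← mul_assoc, hfg]
      · intro heq
        apply hne
        have : f ∈ LinearMap.range (LinearMap.mulLeft k g) := by
          rw [heq]; exact ⟨1, by simp⟩
        obtain ⟨y, hy⟩ := this
        simp only [LinearMap.mulLeft_apply] at hy
        have h1 : g * f = f := by rw [← hy, ← mul_assoc, hgg.eq]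
        rw [← hfg, hS f hfS g hg, h1]
    by_cases hbc : T (b * c) = 0
    · have hg : IsIdempotentElem (f - c) := by
        change (f - c) * (f - c) = f - c
        rw [sub_mul, mul_sub, mul_sub, hf.eq, hfc, hcf, hcc.eq, sub_self, sub_zero]
      have hg2 : f * (f - c) = f - c := by rw [mul_sub, hf.eq, hfc]
      have hg3 : f - c ≠ f := by
        intro h
        apply hcon.1
        have := sub_eq_self.mp h
        exact this
      have h1 := hlt (f - c) (S.sub_mem hfS hc) hg hg2 hg3
      exact Nat.find_min hP h1 ⟨f - c, S.sub_mem hfS hc, hg,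
        by rwa [mul_sub, map_sub, hbc, sub_zero], rfl⟩
    · exact Nat.find_min hP (hlt c hc hcc hfc hcon.2) ⟨c, hc, hcc, hbc, rfl⟩

theorem isPrimIn_exists_scalar [IsAlgClosed k] {A : Type*} [Ring A] [Algebra k A]
    [FiniteDimensional k A]
    {S : Subalgebra k A} (hS : ∀ x ∈ S, ∀ y ∈ S, x * y = y * x) {f : A} (hf : IsPrimIn S f)
    {a : A} (ha : a ∈ S) : ∃ c : k, IsNilpotent (a * f - c • f) := by
  let V : Submodule k A := LinearMap.range (LinearMap.mulLeft k f)
  have hV : ∀ v ∈ V, LinearMap.mulLeft k a v ∈ V := by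
    rintro _ ⟨u, rfl⟩
    refine ⟨a * u, ?_⟩
    simp only [LinearMap.mulLeft_apply]
    rw [← mul_assoc, ← mul_assoc, hS a ha f hf.mem]
  haveI : Nontrivial V := by
    refine ⟨⟨⟨f, 1, by simp⟩, 0, ?_⟩⟩
    intro h
    exact hf.ne_zero (congrArg Subtype.val h)
  obtain ⟨c, hc⟩ := Module.End.exists_eigenvalue ((LinearMap.mulLeft k a).restrict hV)
  obtain ⟨v, hv⟩ := hc.exists_hasEigenvector
  refine ⟨c, ?_⟩
  have hmem : a * f - c • f ∈ S := S.sub_mem (S.mul_mem ha hf.mem) (S.smul_mem hf.mem c)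
  rcases hf.dichotomy hS hmem (by rw [sub_mul, mul_assoc, hf.idem.eq, smul_mul_assoc,
    hf.idem.eq]) with h | ⟨y, hy, hyf, hxy⟩
  · exact h
  · exfalso
    have h1 := hv.apply_eq_smul
    have h2 : a * (v : A) = c • (v : A) := congrArg Subtype.val h1
    obtain ⟨u, hu⟩ := v.2
    simp only [LinearMap.mulLeft_apply] at hu
    have hfv : f * (v : A) = v := by rw [← hu, ← mul_assoc, hf.idem.eq]
    have h3 : (v : A) = 0 := by
      calc (v : A) = f * v := hfv.symm
        _ = ((a * f - c • f) * y) * v := by rw [hxy]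
        _ = (y * (a * f - c • f)) * v := by rw [hS _ hmem y hy]
        _ = y * (a * (f * v) - c • (f * v)) := by
            rw [mul_assoc, sub_mul, mul_assoc, smul_mul_assoc]
        _ = 0 := by rw [hfv, h2, sub_self, mul_zero]
    exact hv.2 (Subtype.ext h3)

variable {G : Type*} [Group G] [Finite G]

theorem tr_cj_eq {C : Type*} [CommGroup C] [Finite C] {N : Subgroup G} {κ : C →* G}
    {e : MonoidAlgebra k G} (h : CB N κ e) {n : G} (hn : n ∈ N) {a : MonoidAlgebra k G}
    (ha : a ∈ SubAlg k N) : tr (cj k G) κ.range N (cj k G n a) = tr (cj k G) κ.range N a := by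
  letI := Fintype.ofFinite (N ⧸ κ.range.subgroupOf N)
  haveI := h.normal
  rw [tr_def]
  rw [tr_eq_sum' (ι := N ⧸ κ.range.subgroupOf N) (h.fix_of_mem ha)
    (fun q => ((q.out : N) : G) * n)]
  · exact Finset.sum_congr rfl fun q _ => by rw [map_mul_act]
  · intro q
    exact N.mul_mem (q.out).2 hn
  · intro q r hqr
    rw [← QuotientGroup.out_eq' q, ← QuotientGroup.out_eq' r, QuotientGroup.eq]
    have h1 : (⟨n, hn⟩ : N)⁻¹ * ((q.out)⁻¹ * r.out) * (⟨n, hn⟩ : N) ∈ κ.range.subgroupOf N := by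
      rw [Subgroup.mem_subgroupOf]
      simpa [mul_assoc] using hqr
    have h2 := h.normal.conj_mem _ h1 ⟨n, hn⟩
    simpa [mul_assoc] using h2
  · intro x hx
    refine ⟨QuotientGroup.mk (⟨x, hx⟩ * (⟨n, hn⟩ : N)⁻¹), ?_⟩
    have h1 : (QuotientGroup.mk (QuotientGroup.mk ((⟨x, hx⟩ : N) * (⟨n, hn⟩ : N)⁻¹) :
        N ⧸ κ.range.subgroupOf N).out : N ⧸ κ.range.subgroupOf N) =
        QuotientGroup.mk ((⟨x, hx⟩ : N) * (⟨n, hn⟩ : N)⁻¹) := by simp
    rw [QuotientGroup.eq] at h1
    have h2 := h.normal.conj_mem _ h1 (⟨n, hn⟩ : N)⁻¹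
    rw [Subgroup.mem_subgroupOf] at h2
    simpa [mul_assoc] using h2

theorem tr_mul_comm {C : Type*} [CommGroup C] [Finite C] {N : Subgroup G} {κ : C →* G}
    {e : MonoidAlgebra k G} (h : CB N κ e) {a b : MonoidAlgebra k G}
    (ha : a ∈ SubAlg k N) (hb : b ∈ SubAlg k N) :
    tr (cj k G) κ.range N (a * b) = tr (cj k G) κ.range N (b * a) := by
  have h0 : tr (cj k G) κ.range N (0 : MonoidAlgebra k G) = 0 := by
    have h2 := tr_smul (ρ := cj k G) (H := κ.range) (K := N) 0 0
    rwa [zero_smul, zero_smul] at h2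
  refine SuppIn.induction (P := fun a => tr (cj k G) κ.range N (a * b) =
    tr (cj k G) κ.range N (b * a)) ha (by simp [h0]) ?_ ?_
  · intro x y hx hy
    rw [add_mul, mul_add, tr_add, tr_add, hx, hy]
  · intro n hn c
    rw [smul_mul_assoc, mul_smul_comm, tr_smul, tr_smul]
    congr 1
    rw [← tr_cj_eq h hn (Subalgebra.mul_mem _ hb (single_mem_SubAlg hn 1)), map_mul, cj_single,
      mul_inv_cancel_right, cj_mul_single]

variable {p : ℕ} [Fact p.Prime] [CharP k p]

theorem DD.trace_ne_zero [IsAlgClosed k] {C : Type*} [CommGroup C] [Finite C] {N : Subgroup G}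
    [N.Normal] {κ : C →* G} {e : MonoidAlgebra k G} (h : CB N κ e)
    {α : G →* MulAut C} (hα : ConjData κ α)
    {R D : Subgroup G} {a : MonoidAlgebra k G} (hD : DD p N κ e R D a)
    {d : ℕ} [NeZero d] {ψ : MonoidAlgebra k G →ₗ[k] Matrix (Fin d) (Fin d) k}
    (hψ : PsiData N κ e ψ) : (ψ a).trace ≠ 0 := by
  have heN : e ∈ Fix (cj k G) N := h.block.mem.2
  let T : MonoidAlgebra k G →ₗ[k] k :=
    { toFun := fun x => ψ (tr (cj k G) κ.range N x) 0 0
      map_add' := fun x y => by rw [tr_add, map_add, Matrix.add_apply]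
      map_smul' := fun c x => by rw [tr_smul, map_smul, Matrix.smul_apply]; rfl }
  have hT : ∀ x, T x = ψ (tr (cj k G) κ.range N x) 0 0 := fun _ => rfl
  have hker : ∀ x ∈ SubAlg k N, ψ x = 0 → T x = 0 := by
    intro x hx h0
    have h1 : ψ (tr (cj k G) κ.range N x) = 0 := by
      rw [hψ.ker _ (tr_mem_SubAlg hx), tr_mul heN, mul_tr (Fix_mono _ le_top (CB.sig_fix hα)),
        (hψ.ker x hx).mp h0]
      have h2 := tr_smul (ρ := cj k G) (H := κ.range) (K := N) 0 0
      rwa [zero_smul, zero_smul] at h2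
    rw [hT, h1]; rfl
  let ψ' : SubAlg k N →ₗ[k] Matrix (Fin d) (Fin d) k :=
    ψ.comp (SubAlg k N).toSubmodule.subtype
  have hψ's : LinearMap.range ψ' = ⊤ := by
    rw [LinearMap.range_eq_top]
    intro M
    obtain ⟨x, hx, hx'⟩ := hψ.surj M
    exact ⟨⟨x, hx⟩, hx'⟩
  obtain ⟨s, hs⟩ := ψ'.exists_rightInverse_of_surjective hψ's
  have hs' : ∀ M, ψ ((s M : SubAlg k N) : MonoidAlgebra k G) = M := fun M =>
    congrArg (fun f => f M) hs
  let τ : Matrix (Fin d) (Fin d) k →ₗ[k] k := T.comp ((SubAlg k N).toSubmodule.subtype.comp s)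
  have hτ : ∀ x ∈ SubAlg k N, τ (ψ x) = T x := by
    intro x hx
    have h1 : T ((s (ψ x) : SubAlg k N) - x) = 0 := by
      apply hker _ (Subalgebra.sub_mem _ (s (ψ x)).2 hx)
      rw [map_sub, hs', sub_self]
    rw [map_sub, sub_eq_zero] at h1
    exact h1
  obtain ⟨c, hc⟩ := trace_unique τ (by
    intro A B
    obtain ⟨x, hx, rfl⟩ := hψ.surj A
    obtain ⟨y, hy, rfl⟩ := hψ.surj B
    rw [← hψ.mul x hx y hy, ← hψ.mul y hy x hx, hτ _ (Subalgebra.mul_mem _ hx hy),
      hτ _ (Subalgebra.mul_mem _ hy hx), hT, hT, tr_mul_comm h hx hy])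
  have h1 : T a = 1 := by
    rw [hT, ← hD.trace, hψ.map_e h]
    simp
  intro h0
  rw [← hτ a hD.mem, hc, h0, mul_zero] at h1
  exact zero_ne_one h1

/-- idempotent fixed by `D` whose image has non-zero trace -/
theorem DD.exists_j [IsAlgClosed k] {C : Type*} [CommGroup C] [Finite C] {N : Subgroup G}
    [N.Normal] {κ : C →* G} {e : MonoidAlgebra k G} (h : CB N κ e)
    {α : G →* MulAut C} (hα : ConjData κ α)
    {R D : Subgroup G} {a : MonoidAlgebra k G} (hD : DD p N κ e R D a)
    (heD : e ∈ Fix (cj k G) D)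
    {d : ℕ} [NeZero d] {ψ : MonoidAlgebra k G →ₗ[k] Matrix (Fin d) (Fin d) k}
    (hψ : PsiData N κ e ψ) : ∃ j ∈ SubAlg k N, j ∈ Fix (cj k G) D ∧ j * j = j ∧ j * e = j ∧
      (ψ j).trace ≠ 0 := by
  have htr := hD.trace_ne_zero h hα hψ
  have hae := hD.ae
  have hea : e * a = a := by rw [← h.e_comm hD.mem, hae]
  let S : Subalgebra k (MonoidAlgebra k G) := Algebra.adjoin k {a, e}
  have hS : ∀ x ∈ S, ∀ y ∈ S, x * y = y * x := by
    intro x hx y hy
    have hcomm : ∀ u ∈ ({a, e} : Set (MonoidAlgebra k G)),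
        ∀ v ∈ ({a, e} : Set (MonoidAlgebra k G)), u * v = v * u := by
      rintro u (rfl | rfl) v (rfl | rfl)
      · rfl
      · rw [hae, hea]
      · rw [hae, hea]
      · rfl
    letI := Algebra.adjoinCommRingOfComm k hcomm
    exact congrArg Subtype.val (mul_comm (⟨x, hx⟩ : S) ⟨y, hy⟩)
  have hSle : S ≤ SubAlg k N ⊓ Fix (cj k G) D := by
    apply Algebra.adjoin_le
    rintro u (rfl | rfl)
    · exact ⟨hD.mem, hD.fix⟩
    · exact ⟨h.e_mem, heD⟩
  have haS : a ∈ S := Algebra.subset_adjoin (by simp)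
  have heS : e ∈ S := Algebra.subset_adjoin (by simp)
  obtain ⟨f, hf, hTf⟩ := exists_isPrimIn_T S hS
    ((Matrix.traceLinearMap (Fin d) k k).comp ψ) (b := a) htr
  have hfmem := hSle hf.mem
  obtain ⟨c, n, hn⟩ := isPrimIn_exists_scalar hS hf haS
  have hcmem : a * f - c • f ∈ SubAlg k N :=
    Subalgebra.sub_mem _ (Subalgebra.mul_mem _ hD.mem hfmem.1) (Subalgebra.smul_mem _ hfmem.1 c)
  have hpow : ∀ (m : ℕ), ∀ x ∈ SubAlg k N, ψ (x ^ m) = ψ x ^ m := by
    intro m x hx
    induction m with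
    | zero => rw [pow_zero, pow_zero, hψ.one]
    | succ m ih => rw [pow_succ, pow_succ, hψ.mul _ (Subalgebra.pow_mem _ hx m) x hx, ih]
  have hnil : IsNilpotent (ψ (a * f - c • f)) := ⟨n, by rw [← hpow n _ hcmem, hn, map_zero]⟩
  have h1 := trace_nilpotent hnil
  rw [map_sub, map_smul, Matrix.trace_sub, Matrix.trace_smul, sub_eq_zero] at h1
  have h2 : (ψ (a * f)).trace ≠ 0 := hTf
  rw [h1] at h2
  have h3 : (ψ f).trace ≠ 0 := right_ne_zero_of_smul h2
  refine ⟨f * e, Subalgebra.mul_mem _ hfmem.1 h.e_mem, Subalgebra.mul_mem _ hfmem.2 heD, ?_, ?_, ?_⟩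
  · rw [mul_assoc, ← mul_assoc e, ← h.e_comm hfmem.1, mul_assoc f e e, h.block.idem.eq,
      ← mul_assoc, hf.idem.eq]
  · rw [mul_assoc, h.block.idem.eq]
  · rw [hψ.mul_e h hfmem.1]
    exact h3

end TrIdem

end Vale.Agent.P180.KP
end
end

section

section

set_option linter.style.haveILetI false
set_option linter.unusedSectionVars false

namespace Vale.Agent.P180.KP

open scoped Classical

section PFam

variable {k : Type*} [Field k] {G : Type*} [Group G]
variable {C : Type*} [CommGroup C] [Finite C] [Finite G]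
variable {N : Subgroup G} {κ : C →* G} {e : MonoidAlgebra k G}

/-- A basis of `j k[N] i` over `k[C]`. -/
structure PFam (N : Subgroup G) (κ : C →* G) (j i : MonoidAlgebra k G) {r : ℕ}
    (v : Fin r → MonoidAlgebra k G) : Prop where
  mem : ∀ l, v l ∈ PP N j i
  span : ∀ m ∈ PP N j i, ∃ l : Fin r → MonoidAlgebra k C, m = ∑ a, kap k κ (l a) * v a
  ind : ∀ l : Fin r → MonoidAlgebra k C, ∑ a, kap k κ (l a) * v a = 0 → l = 0

variable {p : ℕ} [Fact p.Prime] [CharP k p]

theorem exists_PFam (h : CB N κ e) (hC : IsPGroup p C) {d : ℕ} [NeZero d]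
    {ψ : MonoidAlgebra k G →ₗ[k] Matrix (Fin d) (Fin d) k} (hψ : PsiData N κ e ψ)
    {i j : MonoidAlgebra k G} (hi : i ∈ SubAlg k N) (hii : i * i = i) (hie : i * e = i)
    (hψi : ψ i = Matrix.single 0 0 1) (hj : j ∈ SubAlg k N) (hjj : j * j = j)
    (htr : (ψ j).trace ≠ 0) :
    ∃ (r : ℕ) (v : Fin r → MonoidAlgebra k G), PFam N κ j i v ∧ (r : k) ≠ 0 := by
  have hP : ψ j * ψ j = ψ j := by rw [← hψ.mul j hj j hj, hjj]
  have hr := finrank_colSpace hP
  let bas := Module.finBasis k (colSpace (ψ j))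
  have hlift : ∀ l, ∃ x ∈ SubAlg k N, ψ x = (bas l : Matrix (Fin d) (Fin d) k) := fun l =>
    hψ.surj _
  choose x hx hψx using hlift
  have hvmem : ∀ l, j * x l * i ∈ PP N j i := fun l =>
    ⟨Subalgebra.mul_mem _ (Subalgebra.mul_mem _ hj (hx l)) hi,
      by rw [← mul_assoc, ← mul_assoc, hjj], by rw [mul_assoc, hii]⟩
  have hψv : ∀ l, ψ (j * x l * i) = (bas l : Matrix (Fin d) (Fin d) k) := by
    intro l
    rw [hψ.mul _ (Subalgebra.mul_mem _ hj (hx l)) i hi, hψ.mul j hj _ (hx l), hψx, hψi]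
    have h1 := (bas l).2
    rw [mem_colSpace] at h1
    rw [h1.1, h1.2]
  obtain ⟨h1, h2⟩ := hψ.free h hC hj hjj hi hii hie (fun l => j * x l * i) hvmem
    (by
      intro m hm
      have hmem : ψ m ∈ colSpace (ψ j) := by
        rw [mem_colSpace, ← hψi, ← hψ.mul j hj m hm.1, hm.2.1, ← hψ.mul m hm.1 i hi, hm.2.2]
        exact ⟨rfl, rfl⟩
      refine ⟨fun l => bas.repr ⟨ψ m, hmem⟩ l, ?_⟩
      have h3 := congrArg Subtype.val (bas.sum_repr ⟨ψ m, hmem⟩)
      rw [AddSubmonoidClass.coe_finsetSum] at h3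
      simp only [hψv]
      exact h3.symm)
    (by
      intro c hc
      simp only [hψv] at hc
      have h3 : ∑ l, c l • bas l = 0 := by
        apply Subtype.ext
        rw [AddSubmonoidClass.coe_finsetSum]
        exact hc
      funext l
      exact (Fintype.linearIndependent_iff.mp bas.linearIndependent c h3) l)
  refine ⟨_, _, ⟨hvmem, h1, h2⟩, ?_⟩
  rw [hr]
  exact htr

theorem PFam.ext {j i : MonoidAlgebra k G} {r : ℕ} {v : Fin r → MonoidAlgebra k G}
    (hv : PFam N κ j i v) {l l' : Fin r → MonoidAlgebra k C}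
    (h : ∑ a, kap k κ (l a) * v a = ∑ a, kap k κ (l' a) * v a) : l = l' := by
  have h1 : ∑ a, kap k κ ((l - l') a) * v a = 0 := by
    have : ∀ a, kap k κ ((l - l') a) * v a = kap k κ (l a) * v a - kap k κ (l' a) * v a := by
      intro a
      rw [Pi.sub_apply, map_sub, sub_mul]
    simp only [this]
    rw [Finset.sum_sub_distrib, h, sub_self]
  exact sub_eq_zero.mp (hv.ind _ h1)

end PFam

end Vale.Agent.P180.KP
end
end

section

section

set_option linter.style.haveILetI false
set_option linter.unusedSectionVars false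

namespace Vale.Agent.P180.KP

open scoped Classical

section VL

variable {A : Type*} [Ring A] {i : A}

/-- The value of a unit of a corner. -/
def vl (hi : IsIdempotentElem i) (u : hi.Cornerˣ) : A := (u : hi.Corner).1

variable (hi : IsIdempotentElem i)

theorem vl_mul (u w : hi.Cornerˣ) : vl hi (u * w) = vl hi u * vl hi w := rfl

theorem vl_one : vl hi 1 = i := rfl

theorem i_vl (u : hi.Cornerˣ) : i * vl hi u = vl hi u := corner_left hi _

theorem vl_i (u : hi.Cornerˣ) : vl hi u * i = vl hi u := corner_right hi _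

theorem vl_vl_inv (u : hi.Cornerˣ) : vl hi u * vl hi u⁻¹ = i := by
  rw [← vl_mul, mul_inv_cancel, vl_one]

theorem vl_inv_vl (u : hi.Cornerˣ) : vl hi u⁻¹ * vl hi u = i := by
  rw [← vl_mul, inv_mul_cancel, vl_one]

theorem vl_ext {u w : hi.Cornerˣ} (h : vl hi u = vl hi w) : u = w :=
  Units.ext (corner_ext h)

theorem exists_vl {c c' : A} (h1 : i * c = c) (h2 : c * i = c) (h3 : i * c' = c')
    (h4 : c' * i = c') (h5 : c * c' = i) (h6 : c' * c = i) :
    ∃ u : hi.Cornerˣ, vl hi u = c ∧ vl hi u⁻¹ = c' :=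
  ⟨⟨cornerOf hi c h1 h2, cornerOf hi c' h3 h4, corner_ext h5, corner_ext h6⟩, rfl, rfl⟩

end VL

section HU

variable {k : Type*} [Field k] {G : Type*} [Group G]
variable {C : Type*} [CommGroup C] [Finite C] [Finite G]
variable {N : Subgroup G} [N.Normal] {κ : C →* G} {e i : MonoidAlgebra k G}

theorem supp_mul {x y : G ⧸ N} {a b : MonoidAlgebra k G} (ha : SuppIn (cst N x) a)
    (hb : SuppIn (cst N y) b) : SuppIn (cst N (x * y)) (a * b) := mul_supp_cst ha hb

theorem supp_one_iff {a : MonoidAlgebra k G} : SuppIn (cst N 1) a ↔ a ∈ SubAlg k N :=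
  mem_SubAlg_iff_cst.symm

/-- The group of homogeneous units. -/
def HU (N : Subgroup G) [N.Normal] (hi : IsIdempotentElem i) (hN : i ∈ SubAlg k N) :
    Subgroup (hi.Cornerˣ × (G ⧸ N)) where
  carrier := {u | SuppIn (cst N u.2) (vl hi u.1) ∧ SuppIn (cst N (u.2)⁻¹) (vl hi u.1⁻¹)}
  one_mem' := by
    constructor
    · exact supp_one_iff.mpr hN
    · change SuppIn (cst N (1 : G ⧸ N)⁻¹) (vl hi (1 : hi.Cornerˣ)⁻¹)
      rw [inv_one, inv_one]
      exact supp_one_iff.mpr hN
  mul_mem' := by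
    rintro ⟨u, x⟩ ⟨w, y⟩ ⟨h1, h2⟩ ⟨h3, h4⟩
    refine ⟨supp_mul h1 h3, ?_⟩
    change SuppIn (cst N (x * y)⁻¹) (vl hi (u * w)⁻¹)
    rw [mul_inv_rev, mul_inv_rev]
    exact supp_mul h4 h2
  inv_mem' := by
    rintro ⟨u, x⟩ ⟨h1, h2⟩
    refine ⟨h2, ?_⟩
    change SuppIn (cst N (x⁻¹)⁻¹) (vl hi (u⁻¹)⁻¹)
    rw [inv_inv, inv_inv]
    exact h1

variable {hi : IsIdempotentElem i} {hN : i ∈ SubAlg k N}

/-- value -/
noncomputable def hv (u : HU N hi hN) : MonoidAlgebra k G := vl hi u.1.1

theorem hv_mul (u w : HU N hi hN) : hv (u * w) = hv u * hv w := rfl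
theorem hv_one : hv (1 : HU N hi hN) = i := rfl
theorem i_hv (u : HU N hi hN) : i * hv u = hv u := i_vl hi _
theorem hv_i (u : HU N hi hN) : hv u * i = hv u := vl_i hi _
theorem hv_hv_inv (u : HU N hi hN) : hv u * hv u⁻¹ = i := vl_vl_inv hi _
theorem hv_inv_hv (u : HU N hi hN) : hv u⁻¹ * hv u = i := vl_inv_vl hi _

/-- degree -/
noncomputable def deg : HU N hi hN →* G ⧸ N := (MonoidHom.snd _ _).comp (HU N hi hN).subtype

theorem supp_hv (u : HU N hi hN) : SuppIn (cst N (deg u)) (hv u) := u.2.1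

theorem hu_ext {u w : HU N hi hN} (h : hv u = hv w) (h' : deg u = deg w) : u = w :=
  Subtype.ext (Prod.ext (vl_ext hi h) h')

theorem exists_hu {c c' : MonoidAlgebra k G} {x : G ⧸ N} (h1 : i * c = c) (h2 : c * i = c)
    (h3 : i * c' = c') (h4 : c' * i = c') (h5 : c * c' = i) (h6 : c' * c = i)
    (hs : SuppIn (cst N x) c) (hs' : SuppIn (cst N x⁻¹) c') :
    ∃ u : HU N hi hN, hv u = c ∧ hv u⁻¹ = c' ∧ deg u = x := by
  obtain ⟨u, hu, hu'⟩ := exists_vl hi h1 h2 h3 h4 h5 h6
  exact ⟨⟨(u, x), by rw [← hu] at hs; exact hs, by rw [← hu'] at hs'; exact hs'⟩, hu, hu', rfl⟩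

variable {p : ℕ} [Fact p.Prime] [CharP k p]

theorem deg_surjective (hci : CIdem N κ e i) (h : CB N κ e) (hC : IsPGroup p C)
    (heG : e ∈ Fix (cj k G) ⊤) : Function.Surjective (deg : HU N hi hN →* G ⧸ N) := by
  intro x
  obtain ⟨g, rfl⟩ := QuotientGroup.mk_surjective x
  obtain ⟨c, c', hs, hs', h1, h2, h3, h4, h5, h6⟩ := hci.exists_unit h hC heG g
  obtain ⟨u, -, -, hu⟩ := exists_hu (hi := hi) (hN := hN) (x := (g : G ⧸ N)) h1 h2 h3 h4 h5 h6
    (fun y hy => (QuotientGroup.eq.mpr (hs y hy)).symm) (fun y hy => by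
      have h7 : g * y ∈ N := hs' y hy
      change (y : G ⧸ N) = (g : G ⧸ N)⁻¹
      rw [← QuotientGroup.mk_inv, eq_comm, QuotientGroup.eq, inv_inv]
      exact h7)
  exact ⟨u, hu⟩

theorem alpha_eq (h : CB N κ e) {α : G →* MulAut C} (hα : ConjData κ α) {x y : G}
    (hxy : (x : G ⧸ N) = y) : α x = α y := by
  rw [QuotientGroup.eq] at hxy
  have h1 : α (x⁻¹ * y) = 1 := by
    ext c
    apply h.inj
    rw [hα.conj, ← h.comm c _ hxy, mul_inv_cancel_right]
    rfl
  have h2 : y = x * (x⁻¹ * y) := by group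
  rw [h2, map_mul, h1, mul_one]

theorem mul_kap (h : CB N κ e) {α : G →* MulAut C} (hα : ConjData κ α) {g : G}
    {c : MonoidAlgebra k G} (hc : SuppIn (cst N (g : G ⧸ N)) c) (l : MonoidAlgebra k C) :
    c * kap k κ l = kap k κ (lamAut k α g l) * c := by
  refine SuppIn.induction (P := fun c => c * kap k κ l = kap k κ (lamAut k α g l) * c) hc
    (by simp) ?_ ?_
  · intro a b ha hb
    rw [add_mul, mul_add, ha, hb]
  · intro x hx r
    have h1 : (x : G ⧸ N) = g := hx
    have h2 : lamAut k α x = lamAut k α g := by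
      unfold lamAut
      rw [alpha_eq h hα h1]
    rw [smul_mul_assoc, mul_smul_comm, ← cj_mul_single, cj_kap hα, h2]

/-- elements of degree one -/
theorem exists_lam (hci : CIdem N κ e i) (h : CB N κ e) {u : HU N hi hN} (hu : deg u = 1) :
    ∃ l l' : MonoidAlgebra k C, hv u = kap k κ l * i ∧ hv u⁻¹ = kap k κ l' * i ∧ l * l' = 1 := by
  have h1 : hv u ∈ SubAlg k N := by
    have := supp_hv u
    rw [hu] at this
    exact supp_one_iff.mp this
  have h2 : hv u⁻¹ ∈ SubAlg k N := by
    have := supp_hv u⁻¹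
    rw [map_inv, hu, inv_one] at this
    exact supp_one_iff.mp this
  obtain ⟨l, hl⟩ := hci.corner _ h1
  obtain ⟨l', hl'⟩ := hci.corner _ h2
  rw [i_hv, hv_i] at hl hl'
  refine ⟨l, l', hl, hl', ?_⟩
  have h3 : kap k κ (l * l' - 1) * i = 0 := by
    rw [map_sub, map_one, sub_mul, one_mul, ← hci.kap_mul_kap h, ← hl, ← hl', hv_hv_inv, sub_self]
  exact sub_eq_zero.mp (hci.faithful _ h3)

/-- the subgroup generated by the scalars and `κ(C)` -/
def KK (hci : CIdem N κ e i) (h : CB N κ e) : Subgroup (HU N hi hN) where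
  carrier := {u | deg u = 1 ∧ ∃ (t : kˣ) (y : C),
    hv u = kap k κ (MonoidAlgebra.single y (t : k)) * i}
  one_mem' := by
    refine ⟨map_one _, 1, 1, ?_⟩
    rw [hv_one, Units.val_one, ← MonoidAlgebra.one_def, map_one, one_mul]
  mul_mem' := by
    rintro u w ⟨h1, t, y, h2⟩ ⟨h3, s, z, h4⟩
    refine ⟨by rw [map_mul, h1, h3, mul_one], t * s, y * z, ?_⟩
    rw [hv_mul, h2, h4, hci.kap_mul_kap h, MonoidAlgebra.single_mul_single, Units.val_mul]
  inv_mem' := by
    rintro u ⟨h1, t, y, h2⟩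
    refine ⟨by rw [map_inv, h1, inv_one], t⁻¹, y⁻¹, ?_⟩
    obtain ⟨l, l', hl, hl', hll'⟩ := exists_lam hci h h1
    have h3 : l = MonoidAlgebra.single y (t : k) := by
      have h4 : kap k κ (l - MonoidAlgebra.single y (t : k)) * i = 0 := by
        rw [map_sub, sub_mul, ← hl, ← h2, sub_self]
      exact sub_eq_zero.mp (hci.faithful _ h4)
    have h5 : l' = MonoidAlgebra.single y⁻¹ ((t⁻¹ : kˣ) : k) := by
      have h6 : MonoidAlgebra.single y⁻¹ ((t⁻¹ : kˣ) : k) * l = 1 := by
        rw [h3, MonoidAlgebra.single_mul_single, inv_mul_cancel, Units.inv_mul,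
          MonoidAlgebra.one_def]
      calc l' = MonoidAlgebra.single y⁻¹ ((t⁻¹ : kˣ) : k) * l * l' := by rw [h6, one_mul]
        _ = _ := by rw [mul_assoc, hll', mul_one]
    rw [hl', h5]

theorem KK_normal (hci : CIdem N κ e i) (h : CB N κ e) {α : G →* MulAut C}
    (hα : ConjData κ α) : (KK hci h : Subgroup (HU N hi hN)).Normal := by
  constructor
  rintro w ⟨h1, t, y, h2⟩ u
  refine ⟨by rw [map_mul, map_mul, h1, mul_one, map_inv, mul_inv_cancel], t, ?_⟩
  obtain ⟨g, hg⟩ := QuotientGroup.mk_surjective (deg u)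
  refine ⟨α g y, ?_⟩
  have hs := supp_hv u
  rw [← hg] at hs
  rw [hv_mul, hv_mul, h2, ← mul_assoc, mul_kap h hα hs, mul_assoc _ (hv u) i, hv_i, mul_assoc,
    hv_hv_inv, lamAut, MonoidAlgebra.domCongr_single]

theorem ker_comm (hci : CIdem N κ e i) (h : CB N κ e) :
    ∀ v ∈ (deg : HU N hi hN →* G ⧸ N).ker, ∀ w ∈ (deg : HU N hi hN →* G ⧸ N).ker,
      v * w = w * v := by
  intro v hv' w hw'
  obtain ⟨l, -, hl, -, -⟩ := exists_lam hci h hv'
  obtain ⟨m, -, hm, -, -⟩ := exists_lam hci h hw'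
  apply hu_ext
  · rw [hv_mul, hv_mul, hl, hm, hci.kap_mul_kap h, hci.kap_mul_kap h, mul_comm]
  · rw [map_mul, map_mul, show deg v = 1 from hv', show deg w = 1 from hw']

theorem ker_pow (hci : CIdem N κ e i) (h : CB N κ e) (hC : IsPGroup p C) :
    ∃ n : ℕ, ∀ v ∈ (deg : HU N hi hN →* G ⧸ N).ker, v ^ (p ^ n) ∈ KK hci h := by
  obtain ⟨n, hn⟩ := lam_pow (k := k) hC
  refine ⟨n, ?_⟩
  intro v hv'
  obtain ⟨l, l', hl, -, hll'⟩ := exists_lam hci h hv'
  have hpow : ∀ m : ℕ, hv (v ^ m) = kap k κ (l ^ m) * i := by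
    intro m
    induction m with
    | zero => rw [pow_zero, pow_zero, map_one, one_mul, hv_one]
    | succ m ih => rw [pow_succ, pow_succ, hv_mul, ih, hl, hci.kap_mul_kap h]
  have hu : aug k C l ≠ 0 := aug_ne_zero_of_isUnit (IsUnit.of_mul_eq_one _ hll')
  refine ⟨by rw [map_pow, show deg v = 1 from hv', one_pow], Units.mk0 _ (pow_ne_zero (p ^ n) hu),
    1, ?_⟩
  rw [hpow, hn]
  rfl

end HU

end Vale.Agent.P180.KP
end
end

section

section

set_option linter.style.haveILetI false
set_option linter.unusedSectionVars false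

namespace Vale.Agent.P180.KP

open scoped Classical

section DetS

variable {k : Type*} [Field k] {G : Type*} [Group G]
variable {C : Type*} [CommGroup C] [Finite C] [Finite G]
variable {N : Subgroup G} [N.Normal] {κ : C →* G} {e i j : MonoidAlgebra k G}
variable {hi : IsIdempotentElem i} {hN : i ∈ SubAlg k N}
variable {r : ℕ} {v : Fin r → MonoidAlgebra k G}

/-- The matrix of `m ↦ d m u⁻¹`. -/
def Mtx (κ : C →* G) (v : Fin r → MonoidAlgebra k G) (d : G) (u : HU N hi hN)
    (M : Matrix (Fin r) (Fin r) (MonoidAlgebra k C)) : Prop :=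
  ∀ l, MonoidAlgebra.single d 1 * v l * hv u⁻¹ = ∑ m, kap k κ (M m l) * v m

theorem Mtx.unique (hvf : PFam N κ j i v) {d : G} {u : HU N hi hN}
    {M M' : Matrix (Fin r) (Fin r) (MonoidAlgebra k C)} (h : Mtx κ v d u M)
    (h' : Mtx κ v d u M') : M = M' := by
  ext m l : 1
  have h1 := hvf.ext ((h l).symm.trans (h' l))
  exact congrFun h1 m

theorem Mtx.exists (hvf : PFam N κ j i v) {d : G}
    (hjd : cj k G d j = j) {u : HU N hi hN} (hu : deg u = (d : G ⧸ N)) :
    ∃ M, Mtx κ v d u M := by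
  have h1 : ∀ l, MonoidAlgebra.single d 1 * v l * hv u⁻¹ ∈ PP N j i := by
    intro l
    refine ⟨?_, ?_, ?_⟩
    · rw [← supp_one_iff]
      have h2 : SuppIn (cst N (d : G ⧸ N)) (MonoidAlgebra.single d (1 : k)) :=
        SuppIn.single (S := cst N (d : G ⧸ N)) rfl _
      have h3 : SuppIn (cst N 1) (v l) := supp_one_iff.mpr (hvf.mem l).1
      have h4 := supp_hv u⁻¹
      rw [map_inv, hu] at h4
      have h5 := supp_mul (supp_mul h2 h3) h4
      rwa [mul_one, mul_inv_cancel] at h5
    · rw [← mul_assoc, ← mul_assoc]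
      have h2 : j * MonoidAlgebra.single d (1 : k) = MonoidAlgebra.single d 1 * j := by
        rw [← cj_mul_single, hjd]
      rw [h2, mul_assoc _ j, (hvf.mem l).2.1]
    · rw [mul_assoc, hv_i]
  choose M hM using fun l => hvf.span _ (h1 l)
  exact ⟨fun m l => M l m, fun l => hM l⟩

theorem Mtx.mul (h : CB N κ e) {α : G →* MulAut C} (hα : ConjData κ α) {d d' : G}
    {u u' : HU N hi hN}
    {M M' : Matrix (Fin r) (Fin r) (MonoidAlgebra k C)} (hM : Mtx κ v d u M)
    (hM' : Mtx κ v d' u' M') :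
    Mtx κ v (d * d') (u * u') (M * M'.map (lamAut k α d)) := by
  intro l
  have h1 : MonoidAlgebra.single (d * d') (1 : k) =
      MonoidAlgebra.single d 1 * MonoidAlgebra.single d' 1 := by
    rw [MonoidAlgebra.single_mul_single, one_mul]
  have h2 : MonoidAlgebra.single (d * d') 1 * v l * hv (u * u')⁻¹ =
      MonoidAlgebra.single d 1 * (MonoidAlgebra.single d' 1 * v l * hv u'⁻¹) * hv u⁻¹ := by
    rw [mul_inv_rev, hv_mul, h1]
    simp only [mul_assoc]
  rw [h2, hM' l, Finset.mul_sum, Finset.sum_mul]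
  have h3 : ∀ m, MonoidAlgebra.single d 1 * (kap k κ (M' m l) * v m) * hv u⁻¹ =
      ∑ n, kap k κ (M n m * lamAut k α d (M' m l)) * v n := by
    intro m
    have hs : SuppIn (cst N (d : G ⧸ N)) (MonoidAlgebra.single d (1 : k)) :=
      SuppIn.single (S := cst N (d : G ⧸ N)) rfl _
    rw [← mul_assoc, mul_kap h hα hs, mul_assoc (kap k κ _), mul_assoc (kap k κ _), hM m,
      Finset.mul_sum]
    refine Finset.sum_congr rfl fun n _ => ?_
    rw [← mul_assoc, ← map_mul, mul_comm]
  simp only [h3]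
  rw [Finset.sum_comm]
  refine Finset.sum_congr rfl fun n _ => ?_
  rw [Matrix.mul_apply, map_sum, Finset.sum_mul]
  rfl

theorem Mtx.one (hvf : PFam N κ j i v) : Mtx κ v 1 (1 : HU N hi hN) 1 := by
  intro l
  rw [inv_one, hv_one, ← MonoidAlgebra.one_def, one_mul, (hvf.mem l).2.2,
    Finset.sum_eq_single l]
  · rw [Matrix.one_apply_eq, map_one, one_mul]
  · intro m _ hm
    rw [Matrix.one_apply_ne hm, map_zero, zero_mul]
  · intro h; exact absurd (Finset.mem_univ l) h

theorem det_map_lam (α : G →* MulAut C) (d : G)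
    (M : Matrix (Fin r) (Fin r) (MonoidAlgebra k C)) :
    (M.map (lamAut k α d)).det = lamAut k α d M.det := by
  have := (RingHom.map_det (lamAut k α d : MonoidAlgebra k C →+* MonoidAlgebra k C) M)
  rw [RingHom.mapMatrix_apply] at this
  exact this.symm

/-- The subgroup of homogeneous units coming from `D`. -/
noncomputable def SS (h : CB N κ e) {α : G →* MulAut C} (hα : ConjData κ α)
    (hvf : PFam N κ j i v)
    {D : Subgroup G} (hjD : j ∈ Fix (cj k G) D) :
    Subgroup (HU N hi hN) where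
  carrier := {u | ∃ d ∈ D, deg u = (d : G ⧸ N) ∧ ∃ M, Mtx κ v d u M ∧ M.det = 1}
  one_mem' := ⟨1, D.one_mem, by rw [map_one]; rfl, 1, Mtx.one hvf, Matrix.det_one⟩
  mul_mem' := by
    rintro u u' ⟨d, hd, hu, M, hM, hM1⟩ ⟨d', hd', hu', M', hM', hM1'⟩
    refine ⟨d * d', D.mul_mem hd hd', by rw [map_mul, hu, hu']; rfl, _, hM.mul h hα hM', ?_⟩
    rw [Matrix.det_mul, hM1, one_mul, det_map_lam, hM1', map_one]
  inv_mem' := by
    rintro u ⟨d, hd, hu, M, hM, hM1⟩
    have hu' : deg u⁻¹ = ((d⁻¹ : G) : G ⧸ N) := by rw [map_inv, hu]; rfl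
    obtain ⟨M', hM'⟩ := Mtx.exists hvf (hjD _ (D.inv_mem hd)) hu'
    refine ⟨d⁻¹, D.inv_mem hd, hu', M', hM', ?_⟩
    have h1 := hM.mul h hα hM'
    rw [mul_inv_cancel, mul_inv_cancel] at h1
    have h2 := congrArg Matrix.det (h1.unique hvf (Mtx.one hvf))
    rw [Matrix.det_mul, hM1, one_mul, Matrix.det_one, det_map_lam] at h2
    exact (lamAut k α d).injective (by rw [h2, map_one])

variable {p : ℕ} [Fact p.Prime] [CharP k p]

theorem SS_inf_le (hci : CIdem N κ e i) (h : CB N κ e) (hC : IsPGroup p C)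
    {α : G →* MulAut C} (hα : ConjData κ α) (hvf : PFam N κ j i v)
    {D : Subgroup G} (hjD : j ∈ Fix (cj k G) D)
    (hDN : D ⊓ N ≤ κ.range) (hr : (r : k) ≠ 0) :
    SS h hα hvf hjD ⊓ (deg : HU N hi hN →* G ⧸ N).ker ≤ KK hci h := by
  rintro u ⟨⟨d, hd, hu, M, hM, hM1⟩, hu1⟩
  have hu1' : deg u = 1 := hu1
  have hdN : d ∈ N := by
    rw [← QuotientGroup.eq_one_iff, ← hu, hu1']
  obtain ⟨y, rfl⟩ := hDN ⟨hd, hdN⟩
  obtain ⟨l, l', hl, hl', hll'⟩ := exists_lam hci h hu1'
  -- the matrix is scalar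
  have h1 : Mtx κ v (κ y) u (Matrix.scalar (Fin r) (MonoidAlgebra.single y 1 * l')) := by
    intro m
    rw [Finset.sum_eq_single m]
    · rw [Matrix.scalar_apply, Matrix.diagonal_apply_eq, map_mul, kap_single, hl', mul_assoc,
        ← mul_assoc (v m), ← h.kap_comm l' (hvf.mem m).1, mul_assoc (kap k κ l'),
        (hvf.mem m).2.2, mul_assoc]
    · intro n _ hn
      rw [Matrix.scalar_apply, Matrix.diagonal_apply_ne _ hn, map_zero, zero_mul]
    · intro h; exact absurd (Finset.mem_univ m) h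
  have h2 := hM.unique hvf h1
  rw [h2, Matrix.scalar_apply, Matrix.det_diagonal, Finset.prod_const, Finset.card_univ,
    Fintype.card_fin] at hM1
  have h3 := root_eq hC hr hM1
  set c := aug k C (MonoidAlgebra.single y 1 * l') with hc
  have hc0 : c ≠ 0 := by
    intro h0
    rw [h3, h0, map_zero] at hM1
    by_cases hr0 : r = 0
    · exact hr (by rw [hr0, Nat.cast_zero])
    · rw [zero_pow hr0] at hM1
      exact zero_ne_one hM1
  refine ⟨hu1', (Units.mk0 c hc0)⁻¹, y, ?_⟩
  have h4 : l = MonoidAlgebra.single y ((((Units.mk0 c hc0)⁻¹ : kˣ)) : k) := by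
    have h5 : MonoidAlgebra.single y 1 * l' * l = algebraMap k _ c * l := by rw [h3]
    rw [mul_assoc, mul_comm l' l, hll', mul_one] at h5
    have h6 : (MonoidAlgebra.single y ((((Units.mk0 c hc0)⁻¹ : kˣ)) : k) : MonoidAlgebra k C) =
        c⁻¹ • MonoidAlgebra.single y 1 := by
      rw [MonoidAlgebra.smul_single', mul_one]; rfl
    rw [h6, h5, ← Algebra.smul_def, smul_smul, inv_mul_cancel₀ hc0, one_smul]
  rw [hl, h4]

theorem SS_surj [IsAlgClosed k] (hci : CIdem N κ e i) (h : CB N κ e) (hC : IsPGroup p C)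
    (heG : e ∈ Fix (cj k G) ⊤)
    {α : G →* MulAut C} (hα : ConjData κ α) (hvf : PFam N κ j i v)
    {D : Subgroup G} (hjD : j ∈ Fix (cj k G) D) (hr : (r : k) ≠ 0)
    {d : G} (hd : d ∈ D) :
    ∃ u : HU N hi hN, u ∈ SS h hα hvf hjD ∧ deg u = (d : G ⧸ N) := by
  obtain ⟨u, hu⟩ := deg_surjective (hi := hi) (hN := hN) hci h hC heG (d : G ⧸ N)
  obtain ⟨M, hM⟩ := Mtx.exists hvf (hjD _ hd) hu
  -- the determinant is a unit
  have hunit : IsUnit M.det := by
    have hu' : deg u⁻¹ = ((d⁻¹ : G) : G ⧸ N) := by rw [map_inv, hu]; rfl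
    obtain ⟨M', hM'⟩ := Mtx.exists hvf (hjD _ (D.inv_mem hd)) hu'
    have h1 := hM.mul h hα hM'
    rw [mul_inv_cancel, mul_inv_cancel] at h1
    have h2 := congrArg Matrix.det (h1.unique hvf (Mtx.one hvf))
    rw [Matrix.det_mul, Matrix.det_one] at h2
    exact IsUnit.of_mul_eq_one _ h2
  obtain ⟨l, ⟨lu, rfl⟩, hl'⟩ := exists_root hC hr hunit
  -- the unit `l i`
  obtain ⟨w, hw, hw', hw1⟩ := exists_hu (hi := hi) (hN := hN) (x := (1 : G ⧸ N))
    (c := kap k κ (lu : MonoidAlgebra k C) * i)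
    (c' := kap k κ ((lu⁻¹ : (MonoidAlgebra k C)ˣ) : MonoidAlgebra k C) * i)
    (by rw [← mul_assoc, ← h.kap_comm _ hci.mem, mul_assoc, hci.idem])
    (by rw [mul_assoc, hci.idem])
    (by rw [← mul_assoc, ← h.kap_comm _ hci.mem, mul_assoc, hci.idem])
    (by rw [mul_assoc, hci.idem])
    (by rw [hci.kap_mul_kap h, Units.mul_inv, map_one, one_mul])
    (by rw [hci.kap_mul_kap h, Units.inv_mul, map_one, one_mul])
    (supp_one_iff.mpr (Subalgebra.mul_mem _ (kap_mem h.mem _) hci.mem))
    (by rw [inv_one]; exact supp_one_iff.mpr (Subalgebra.mul_mem _ (kap_mem h.mem _) hci.mem))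
  refine ⟨w * u, ?_, by rw [map_mul, hw1, one_mul, hu]⟩
  refine ⟨d, hd, by rw [map_mul, hw1, one_mul, hu],
    ((lu⁻¹ : (MonoidAlgebra k C)ˣ) : MonoidAlgebra k C) • M, ?_, ?_⟩
  · intro m
    have hPm : MonoidAlgebra.single d 1 * v m * hv u⁻¹ ∈ SubAlg k N := by
      rw [hM m]
      exact Subalgebra.sum_mem _ fun n _ => Subalgebra.mul_mem _ (kap_mem h.mem _) (hvf.mem n).1
    rw [mul_inv_rev, hv_mul, hw', ← mul_assoc, ← mul_assoc, ← h.kap_comm _ hPm, mul_assoc,
      mul_assoc (MonoidAlgebra.single d 1 * v m), hv_i, hM m, Finset.mul_sum]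
    refine Finset.sum_congr rfl fun n _ => ?_
    rw [← mul_assoc, ← map_mul, Matrix.smul_apply, smul_eq_mul]
  · rw [Matrix.det_smul, Fintype.card_fin, ← hl', ← mul_pow, Units.inv_mul, one_pow]

end DetS

end Vale.Agent.P180.KP
end
end

section

section

set_option linter.style.haveILetI false
set_option linter.unusedSectionVars false

namespace Vale.Agent.P180.KP

open scoped Classical

section KPThm

variable {k : Type*} [Field k] {G : Type*} [Group G]
variable {C : Type*} [CommGroup C] [Finite C] [Finite G]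
variable {N : Subgroup G} [N.Normal] {κ : C →* G} {e i : MonoidAlgebra k G}
variable {hi : IsIdempotentElem i} {hN : i ∈ SubAlg k N}

variable {p : ℕ} [Fact p.Prime] [CharP k p]

theorem exists_LL [IsAlgClosed k] (h : CB N κ e) (hC : IsPGroup p C)
    (heG : e ∈ Fix (cj k G) ⊤) {α : G →* MulAut C} (hα : ConjData κ α)
    {d : ℕ} [NeZero d] {ψ : MonoidAlgebra k G →ₗ[k] Matrix (Fin d) (Fin d) k}
    (hψ : PsiData N κ e ψ) (hci : CIdem N κ e i) (hψi : ψ i = Matrix.single 0 0 1) :
    ∃ L : Subgroup (HU N hi hN), L ⊓ (deg : HU N hi hN →* G ⧸ N).ker = KK hci h ∧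
      L ⊔ (deg : HU N hi hN →* G ⧸ N).ker = ⊤ := by
  obtain ⟨P'⟩ : Nonempty (Sylow p (G ⧸ N)) := inferInstance
  set R : Subgroup G := (P' : Subgroup (G ⧸ N)).comap (QuotientGroup.mk' N) with hR
  have hNR : N ≤ R := by
    intro x hx
    rw [hR, Subgroup.mem_comap]
    have : QuotientGroup.mk' N x = 1 := (QuotientGroup.eq_one_iff x).mpr hx
    rw [this]
    exact Subgroup.one_mem _
  have hRN : ∃ n, N.relIndex R = p ^ n := by
    obtain ⟨n, hn⟩ := IsPGroup.iff_card.mp P'.2
    refine ⟨n, ?_⟩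
    have h1 : N = (⊥ : Subgroup (G ⧸ N)).comap (QuotientGroup.mk' N) := by
      rw [MonoidHom.comap_bot, QuotientGroup.ker_mk']
    rw [h1, Subgroup.relIndex_comap, hR,
      Subgroup.map_comap_eq_self_of_surjective (QuotientGroup.mk'_surjective N),
      Subgroup.relIndex_bot_left, hn]
  obtain ⟨D, a, hD⟩ := h.exists_DD hC hα hNR hRN (Fix_mono _ le_top heG)
  obtain ⟨j, hjN, hjD, hjj, hje, htr⟩ := hD.exists_j h hα (Fix_mono _ le_top heG) hψ
  obtain ⟨r, v, hvf, hr⟩ := exists_PFam h hC hψ hci.mem hci.idem hci.ie hψi hjN hjj htr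
  have hKn : (KK hci h : Subgroup (HU N hi hN)).Normal := KK_normal hci h hα
  obtain ⟨n, hn⟩ := ker_pow (hi := hi) (hN := hN) hci h hC
  have hidx : (SS h hα hvf hjD ⊔ (deg : HU N hi hN →* G ⧸ N).ker).index ∣
      (P' : Subgroup (G ⧸ N)).index := by
    rw [← Subgroup.comap_map_eq, Subgroup.index_comap_of_surjective _
      (deg_surjective hci h hC heG)]
    apply Subgroup.index_dvd_of_le
    intro x hx
    obtain ⟨g, rfl⟩ := QuotientGroup.mk_surjective x
    have hg : g ∈ R := hx
    rw [← hD.sup, Subgroup.mem_sup_of_normal_right] at hg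
    obtain ⟨y, hy, m, hm, rfl⟩ := hg
    obtain ⟨u, hu, hu'⟩ := SS_surj (hi := hi) (hN := hN) hci h hC heG hα hvf hjD hr hy
    refine ⟨u, hu, ?_⟩
    rw [hu', QuotientGroup.eq, inv_mul_cancel_left]
    exact hm
  refine gaschutz (deg : HU N hi hN →* G ⧸ N).ker (SS h hα hvf hjD) (KK hci h)
    (fun u hu => hu.1) (ker_comm hci h) (p ^ n) hn
    (SS_inf_le hci h hC hα hvf hjD hD.inf hr) ?_ ?_
  · intro h0
    rw [h0, zero_dvd_iff] at hidx
    exact Subgroup.index_ne_zero_of_finite hidx
  · apply Nat.Coprime.pow_right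
    rw [Nat.coprime_comm, (Fact.out : p.Prime).coprime_iff_not_dvd]
    intro h0
    exact P'.not_dvd_index (h0.trans hidx)

theorem exists_ky (hci : CIdem N κ e i) (h : CB N κ e) (t : kˣ) (y : C) :
    ∃ w : HU N hi hN, w ∈ KK hci h ∧ hv w = kap k κ (MonoidAlgebra.single y (t : k)) * i := by
  obtain ⟨w, hw, hw', hw1⟩ := exists_hu (hi := hi) (hN := hN) (x := (1 : G ⧸ N))
    (c := kap k κ (MonoidAlgebra.single y (t : k)) * i)
    (c' := kap k κ (MonoidAlgebra.single y⁻¹ ((t⁻¹ : kˣ) : k)) * i)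
    (by rw [← mul_assoc, ← h.kap_comm _ hci.mem, mul_assoc, hci.idem])
    (by rw [mul_assoc, hci.idem])
    (by rw [← mul_assoc, ← h.kap_comm _ hci.mem, mul_assoc, hci.idem])
    (by rw [mul_assoc, hci.idem])
    (by rw [hci.kap_mul_kap h, MonoidAlgebra.single_mul_single, mul_inv_cancel, Units.mul_inv,
          ← MonoidAlgebra.one_def, map_one, one_mul])
    (by rw [hci.kap_mul_kap h, MonoidAlgebra.single_mul_single, inv_mul_cancel, Units.inv_mul,
          ← MonoidAlgebra.one_def, map_one, one_mul])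
    (supp_one_iff.mpr (Subalgebra.mul_mem _ (kap_mem h.mem _) hci.mem))
    (by rw [inv_one]; exact supp_one_iff.mpr (Subalgebra.mul_mem _ (kap_mem h.mem _) hci.mem))
  exact ⟨w, ⟨hw1, t, y, hw⟩, hw⟩

theorem lam_eq_sum [Fintype C] (m : MonoidAlgebra k C) :
    m = ∑ y : C, m.coeff y • MonoidAlgebra.single y (1 : k) := by
  ext y
  rw [MonoidAlgebra.coeff_sum, Finsupp.finsetSum_apply]
  simp [Finsupp.single_apply]

/-- the basis of the corner -/
theorem exists_basis (hci : CIdem N κ e i) (h : CB N κ e) [Fintype C] [Fintype (G ⧸ N)]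
    (c : G ⧸ N → HU N hi hN) (hc : ∀ x, deg (c x) = x)
    (l : C × (G ⧸ N) → hi.Cornerˣ)
    (hl : ∀ y x, vl hi (l (y, x)) = kap k κ (MonoidAlgebra.single y 1) * hv (c x)) :
    ∃ B : Module.Basis (C × (G ⧸ N)) k hi.Corner, ∀ b, B b = (l b : hi.Corner) := by
  have hcx : ∀ x m, SuppIn (cst N x) (kap k κ m * hv (c x)) := by
    intro x m
    have h1 : SuppIn (cst N (1 : G ⧸ N)) (kap k κ m) := supp_one_iff.mpr (kap_mem h.mem m)
    have h2 := supp_hv (c x)
    rw [hc] at h2
    have h3 := supp_mul h1 h2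
    rwa [one_mul] at h3
  have hli : LinearIndependent k (fun b => (l b : hi.Corner)) := by
    rw [Fintype.linearIndependent_iff]
    intro g hg
    have h1 : ∑ x : G ⧸ N, kap k κ (∑ y : C, g (y, x) • MonoidAlgebra.single y (1 : k)) *
        hv (c x) = 0 := by
      have h2 := congrArg (cornerIncl hi) hg
      rw [map_sum, Fintype.sum_prod_type, Finset.sum_comm, map_zero] at h2
      rw [← h2]
      refine Finset.sum_congr rfl fun x _ => ?_
      rw [map_sum, Finset.sum_mul]
      refine Finset.sum_congr rfl fun y _ => ?_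
      rw [map_smul, smul_mul_assoc, ← hl]
      rfl
    rintro ⟨y, x⟩
    have h3 : kap k κ (∑ y : C, g (y, x) • MonoidAlgebra.single y (1 : k)) * hv (c x) = 0 := by
      have h4 := congrArg (comp N x) h1
      rw [map_sum, map_zero, Finset.sum_eq_single x] at h4
      · rwa [comp_of_supp N x (hcx x _)] at h4
      · intro z _ hz
        exact comp_of_supp_ne N hz (hcx z _)
      · intro h; exact absurd (Finset.mem_univ x) h
    have h5 := hci.faithful (∑ y : C, g (y, x) • MonoidAlgebra.single y (1 : k)) (by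
      rw [← hv_hv_inv (c x), ← mul_assoc, h3, zero_mul])
    have h6 := congrArg (fun m => m.coeff y) h5
    simpa [MonoidAlgebra.coeff_sum, Finsupp.finsetSum_apply, Finsupp.single_apply] using h6
  have hsp : ⊤ ≤ Submodule.span k (Set.range (fun b => (l b : hi.Corner))) := by
    intro a _
    have hx : ∀ x : G ⧸ N, ∃ m : MonoidAlgebra k C, comp N x a.1 = kap k κ m * hv (c x) := by
      intro x
      have h1 : comp N x a.1 * hv (c x)⁻¹ ∈ SubAlg k N := by
        rw [← supp_one_iff]
        have h2 := supp_hv (c x)⁻¹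
        rw [map_inv, hc] at h2
        have h3 := supp_mul (comp_supp N x a.1) h2
        rwa [mul_inv_cancel] at h3
      have h4 : i * comp N x a.1 = comp N x a.1 := by
        rw [← comp_mul_left hci.mem, corner_left hi a]
      have h5 : comp N x a.1 * i = comp N x a.1 := by
        have h6 : comp N x a.1 * i = comp N x (a.1 * i) := by
          conv_rhs => rw [← sum_comp N a.1]
          rw [Finset.sum_mul, map_sum, Finset.sum_eq_single x]
          · symm
            apply comp_of_supp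
            have := supp_mul (comp_supp N x a.1) (supp_one_iff.mpr hci.mem)
            rwa [mul_one] at this
          · intro z _ hz
            apply comp_of_supp_ne N hz
            have := supp_mul (comp_supp N z a.1) (supp_one_iff.mpr hci.mem)
            rwa [mul_one] at this
          · intro h; exact absurd (Finset.mem_univ x) h
        rw [h6, corner_right hi a]
      obtain ⟨m, hm⟩ := hci.corner _ h1
      refine ⟨m, ?_⟩
      have h7 : i * (comp N x a.1 * hv (c x)⁻¹) * i = comp N x a.1 * hv (c x)⁻¹ := by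
        rw [mul_assoc, mul_assoc, hv_i, ← mul_assoc, h4]
      rw [h7] at hm
      calc comp N x a.1 = comp N x a.1 * hv (c x)⁻¹ * hv (c x) := by
            rw [mul_assoc, hv_inv_hv, h5]
        _ = kap k κ m * hv (c x) := by rw [hm, mul_assoc, i_hv]
    choose m hm using hx
    have h1 : a = ∑ x : G ⧸ N, ∑ y : C, (m x).coeff y • (l (y, x) : hi.Corner) := by
      apply corner_ext
      rw [corner_sum_val]
      conv_lhs => rw [← sum_comp N a.1]
      refine Finset.sum_congr rfl fun x _ => ?_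
      rw [corner_sum_val, hm x]
      conv_lhs => rw [lam_eq_sum (m x)]
      rw [map_sum, Finset.sum_mul]
      refine Finset.sum_congr rfl fun y _ => ?_
      rw [corner_smul_val, map_smul, smul_mul_assoc, ← hl]
      rfl
    rw [h1]
    exact Submodule.sum_mem _ fun x _ => Submodule.sum_mem _ fun y _ =>
      Submodule.smul_mem _ _ (Submodule.subset_span ⟨(y, x), rfl⟩)
  exact ⟨Module.Basis.mk hli hsp, fun b => Module.Basis.mk_apply hli hsp b⟩

end KPThm

end Vale.Agent.P180.KP
end
end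

section

section

set_option linter.style.haveILetI false
set_option linter.unusedSectionVars false

namespace Vale.Agent.P180.KP

open scoped Classical

universe u

section KPMain

variable {k : Type u} [Field k] {G : Type} [Group G]
variable {C : Type} [CommGroup C] [Finite C] [Finite G]
variable {N : Subgroup G} [N.Normal] {κ : C →* G} {e : MonoidAlgebra k G}

variable {p : ℕ} [Fact p.Prime] [CharP k p]

theorem supp_unique {i : MonoidAlgebra k G} (hi0 : i ≠ 0) {hi : IsIdempotentElem i}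
    {hN : i ∈ SubAlg k N} {u w : HU N hi hN} (h : u.1.1 = w.1.1) : u = w := by
  have h1 : hv u = hv w := by unfold hv; rw [h]
  apply hu_ext h1
  by_contra hne
  have h2 := supp_hv u
  have h3 := supp_hv w
  rw [← h1] at h3
  have h4 : hv u = 0 := by rw [← comp_of_supp N _ h2]; exact comp_of_supp_ne N (Ne.symm hne) h3
  apply hi0
  rw [← hv_hv_inv u, h4, zero_mul]

/-- The corner at a rank one idempotent is a twisted group algebra. -/
theorem exists_twisted [IsAlgClosed k] (h : CB N κ e) (hC : IsPGroup p C)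
    (heG : e ∈ Fix (cj k G) ⊤) {α : G →* MulAut C} (hα : ConjData κ α) :
    ∃ (i : MonoidAlgebra k G) (hi : IsIdempotentElem i), i ∈ SubAlg k N ∧ i * e = i ∧
      (∃ (n : ℕ) (a b : Fin n → MonoidAlgebra k G), e = ∑ l, a l * i * b l) ∧
      ∃ (H : Type) (_ : Group H) (_ : Finite H) (φ : H →* hi.Cornerˣ)
        (ε : MonoidAlgebra k H) (s : hi.Corner →ₗ[k] MonoidAlgebra k H)
        (π : H →* G ⧸ N) (Z : Subgroup H),
        ε ∈ Subalgebra.center k (MonoidAlgebra k H) ∧ (∀ x, s (liftU φ x) = ε * x) ∧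
        (∀ y, liftU φ (s y) = y) ∧ Nat.card H ≤ (Nat.card C * N.index) ^ 2 ∧
        Function.Surjective π ∧ (∀ h, SuppIn (cst N (π h)) (vl hi (φ h))) ∧
        (∀ z ∈ Z, ∀ h, z * h = h * z) ∧ ¬ p ∣ Nat.card Z ∧ Z ≤ π.ker ∧
        Z.index = Nat.card C * N.index := by
  obtain ⟨d, hd, ψ, i, hψ, hci, hψi⟩ := exists_CIdem h hC
  have hi : IsIdempotentElem i := hci.idem
  have hN : i ∈ SubAlg k N := hci.mem
  refine ⟨i, hi, hN, hci.ie, ?_, ?_⟩
  · obtain ⟨n, a, b, -, -, hab⟩ := hci.full
    exact ⟨n, a, b, hab⟩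
  obtain ⟨L, hL1, hL2⟩ := exists_LL (hi := hi) (hN := hN) h hC heG hα hψ hci hψi
  letI := Fintype.ofFinite C
  letI := Fintype.ofFinite (G ⧸ N)
  have hi0 : i ≠ 0 := by
    intro h0
    exact one_ne_zero (hci.faithful 1 (by rw [h0, mul_zero]))
  haveI : Nontrivial hi.Corner := ⟨⟨1, 0, fun h => hi0 (congrArg Subtype.val h)⟩⟩
  -- representatives
  have hc : ∀ x : G ⧸ N, ∃ c ∈ L, deg c = x := by
    intro x
    obtain ⟨u, hu⟩ := deg_surjective (hi := hi) (hN := hN) hci h hC heG x
    have hu' : u ∈ L ⊔ (deg : HU N hi hN →* G ⧸ N).ker := by rw [hL2]; trivial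
    rw [Subgroup.mem_sup_of_normal_right] at hu'
    obtain ⟨c, hc, w, hw, rfl⟩ := hu'
    refine ⟨c, hc, ?_⟩
    rw [← hu, map_mul, show deg w = 1 from hw, mul_one]
  choose c hcL hcdeg using hc
  choose ky hkyK hky using fun y : C => exists_ky (hi := hi) (hN := hN) hci h (1 : kˣ) y
  let F : HU N hi hN →* hi.Cornerˣ := (MonoidHom.fst _ _).comp (HU N hi hN).subtype
  have hFinj : Function.Injective F := fun u w huw => supp_unique hi0 huw
  have hvF : ∀ w, vl hi (F w) = hv w := fun _ => rfl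
  let l : C × (G ⧸ N) → hi.Cornerˣ := fun b => F (ky b.1 * c b.2)
  have hl : ∀ y x, vl hi (l (y, x)) = kap k κ (MonoidAlgebra.single y 1) * hv (c x) := by
    intro y x
    rw [hvF, hv_mul, hky, Units.val_one, mul_assoc, i_hv]
  obtain ⟨B, hB⟩ := exists_basis hci h c hcdeg l hl
  have hKL : KK hci h ≤ L := by rw [← hL1]; exact inf_le_left
  have hscal' : ∀ t : kˣ, ∃ w ∈ KK hci h, F w = scal k hi.Corner t := by
    intro t
    obtain ⟨w, hw, hw'⟩ := exists_ky (hi := hi) (hN := hN) hci h t (1 : C)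
    refine ⟨w, hw, ?_⟩
    apply vl_ext
    rw [hvF, hw']
    have h1 : (MonoidAlgebra.single (1 : C) (t : k)) = algebraMap k (MonoidAlgebra k C) (t : k) :=
      rfl
    rw [h1, AlgHom.commutes]
    change _ = (t : k) • i
    rw [Algebra.smul_def]
  have hscal : ∀ t : kˣ, scal k hi.Corner t ∈ L.map F := by
    intro t
    obtain ⟨w, hw, hw'⟩ := hscal' t
    exact ⟨w, hKL hw, hw'⟩
  obtain ⟨H, hG, hF, φ, r, B', hφ, hφL, hB', hsc, hrl, hcard⟩ := twisted_group (k := k) (L.map F)
    hscal l (fun b => ⟨_, L.mul_mem (hKL (hkyK b.1)) (hcL b.2), rfl⟩) B hB (by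
      rintro _ ⟨w, hw, rfl⟩
      have hmem : w * (c (deg w))⁻¹ ∈ KK hci h := by
        rw [← hL1]
        refine ⟨L.mul_mem hw (L.inv_mem (hcL _)), ?_⟩
        change deg (w * (c (deg w))⁻¹) = 1
        rw [map_mul, map_inv, hcdeg, mul_inv_cancel]
      obtain ⟨-, t, y, hty⟩ := hmem
      refine ⟨t, (y, deg w), ?_⟩
      apply vl_ext
      have h1 : vl hi (scal k hi.Corner t * l (y, deg w)) = (t : k) • vl hi (l (y, deg w)) := by
        change (((scal k hi.Corner t * l (y, deg w) : hi.Cornerˣ) : hi.Corner)).1 = _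
        rw [scal_mul_val, corner_smul_val]
        rfl
      rw [h1, hl]
      have h2 : kap k κ (MonoidAlgebra.single y (t : k)) =
          (t : k) • kap k κ (MonoidAlgebra.single y 1) := by
        rw [← map_smul, MonoidAlgebra.smul_single', mul_one]
      have h3 : hv w = hv (w * (c (deg w))⁻¹) * hv (c (deg w)) := by
        rw [← hv_mul, inv_mul_cancel_right]
      rw [hvF, h3, hty, h2, mul_assoc, i_hv, smul_mul_assoc])
  obtain ⟨ε, s, hε, -, hs1, hs2⟩ := twisted_idempotent (k := k) φ hφ r B' hB' hsc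
  -- the lift of `φ`
  have hlift : ∀ h : H, ∃ w : HU N hi hN, F w = φ h := by
    intro h
    obtain ⟨w, -, hw⟩ := hφL h
    exact ⟨w, hw⟩
  choose φ' hφ' using hlift
  let Φ : H →* HU N hi hN :=
    { toFun := φ'
      map_one' := hFinj (by rw [hφ', map_one, map_one])
      map_mul' := fun a b => hFinj (by rw [hφ', map_mul, map_mul, hφ', hφ']) }
  have hΦ : ∀ h, F (Φ h) = φ h := hφ'
  have hZc : ∀ z ∈ scalSub k φ, ∀ h, z * h = h * z := fun z hz h =>
    scalSub_central k φ hφ ⟨z, hz⟩ h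
  obtain ⟨χ, hχ, hχinj⟩ := exists_chi k φ hφ
  refine ⟨H, hG, hF, φ, ε, s, deg.comp Φ, scalSub k φ, hε, hs1, hs2, ?_, ?_, ?_, hZc, ?_, ?_, ?_⟩
  · rw [Fintype.card_prod, ← Nat.card_eq_fintype_card, ← Nat.card_eq_fintype_card] at hcard
    exact hcard
  · intro x
    obtain ⟨t, ht⟩ := hrl ((1 : C), x)
    refine ⟨r (1, x), ?_⟩
    obtain ⟨w, hw, hw'⟩ := hscal' t
    have h1 : Φ (r (1, x)) = w * (ky 1 * c x) := by
      apply hFinj
      rw [hΦ, ht, map_mul, hw']
    change deg (Φ (r (1, x))) = x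
    rw [h1, map_mul, map_mul, hw.1, (hkyK 1).1, one_mul, one_mul, hcdeg]
  · intro h
    have h1 := supp_hv (Φ h)
    rw [← hvF, hΦ] at h1
    exact h1
  · rw [← CharP.cast_eq_zero_iff k p]
    exact card_ne_zero_of_injective χ hχinj
  · intro z hz
    obtain ⟨t, ht⟩ := hz
    obtain ⟨w, hw, hw'⟩ := hscal' t
    have h1 : Φ z = w := hFinj (by rw [hΦ, ← ht, hw'])
    change deg (Φ z) = 1
    rw [h1, hw.1]
  · have hZn : ∀ z ∈ scalSub k φ, ∀ h : H, h⁻¹ * z * h ∈ scalSub k φ := by
      intro z hz h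
      rw [mul_assoc, hZc z hz h, inv_mul_cancel_left]
      exact hz
    have hbij : Function.Bijective (fun b : C × (G ⧸ N) =>
        (QuotientGroup.mk (r b) : H ⧸ scalSub k φ)) := by
      constructor
      · intro b b' hbb
        simp only [QuotientGroup.eq] at hbb
        obtain ⟨t, ht⟩ := hbb
        have h1 : φ (r b') = scal k hi.Corner t * φ (r b) := by
          rw [ht, map_mul, map_inv]
          have h2 := scal_commute (k := k) (E := hi.Corner) t (φ (r b))
          rw [ht, map_mul, map_inv] at h2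
          rw [h2, mul_inv_cancel_left]
        have h3 : B' b' = (t : k) • B' b := by
          rw [hB', hB', h1, scal_mul_val]
        by_contra hne
        have h4 := congrArg (fun x => B'.repr x b') h3
        simp only [Module.Basis.repr_self, map_smul, Finsupp.smul_apply, smul_eq_mul] at h4
        rw [Finsupp.single_eq_same, Finsupp.single_eq_of_ne (Ne.symm hne), mul_zero] at h4
        exact one_ne_zero h4
      · intro q
        obtain ⟨h, rfl⟩ := QuotientGroup.mk_surjective q
        obtain ⟨t, b, ht⟩ := hsc h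
        refine ⟨b, ?_⟩
        simp only [QuotientGroup.eq]
        refine ⟨t, ?_⟩
        rw [map_mul, map_inv, ht, scal_commute, inv_mul_cancel_left]
    rw [Subgroup.index, ← Nat.card_congr (Equiv.ofBijective _ hbij), Nat.card_prod]
    rfl

end KPMain

end Vale.Agent.P180.KP
end
end

section

section

set_option linter.style.haveILetI false
set_option linter.unusedSectionVars false

namespace Vale.Agent.P180.KP

open scoped Classical

universe u

section PCI

variable {k : Type u} [Field k] {A : Type u} [Ring A] [Algebra k A] {i e b : A}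

/-- A primitive central idempotent, cut by a full idempotent. -/
theorem isPCI_corner (hi : IsIdempotentElem i) (hie : i * e = i)
    (hec : ∀ x, x * e = e * x) (hee : e * e = e)
    (hfull : ∃ (n : ℕ) (a c : Fin n → A), e = ∑ l, a l * i * c l)
    (hbc : ∀ x, x * b = b * x) (hbb : b * b = b) (hbe : b * e = b) (hb0 : b ≠ 0)
    (hprim : ∀ c : A, (∀ x, x * c = c * x) → c * c = c → c * b = c → c = 0 ∨ c = b)
    (β : hi.Corner) (hβ : β.1 = i * b) : IsPCI k β := by
  obtain ⟨n, x, y, hxy⟩ := hfull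
  have hei : e * i = i := by rw [← hec, hie]
  refine ⟨?_, ?_, ?_, ?_⟩
  · rw [Subalgebra.mem_center_iff]
    intro w
    apply corner_ext
    change w.1 * β.1 = β.1 * w.1
    rw [hβ, ← mul_assoc, corner_right hi w, hbc, mul_assoc i b w.1, ← hbc, ← mul_assoc,
      corner_left hi w, hbc]
  · apply corner_ext
    change β.1 * β.1 = β.1
    rw [hβ, mul_assoc, ← mul_assoc b i b, ← hbc i, mul_assoc i b b, hbb, ← mul_assoc, hi.eq]
  · intro h0
    have h1 : i * b = 0 := by rw [← hβ, h0]; rfl
    apply hb0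
    rw [← hbe, hxy, Finset.mul_sum]
    apply Finset.sum_eq_zero
    intro l _
    rw [← mul_assoc, ← mul_assoc, ← hbc, mul_assoc (x l) b i, ← hbc i, h1, mul_zero, zero_mul]
  · intro c hc hcc hcβ
    have hcE : ∀ w : A, (i * w * i) * c.1 = c.1 * (i * w * i) := by
      intro w
      have := (Subalgebra.mem_center_iff.mp hc) (mkCorner hi w)
      exact congrArg Subtype.val this
    have hic : i * c.1 = c.1 := corner_left hi c
    have hci : c.1 * i = c.1 := corner_right hi c
    have hcc' : c.1 * c.1 = c.1 := congrArg Subtype.val hcc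
    have hcb : c.1 * b = c.1 := by
      have h1 : c.1 * (i * b) = c.1 := by rw [← hβ]; exact congrArg Subtype.val hcβ
      rwa [← mul_assoc, hci] at h1
    -- the extension of `c`
    obtain ⟨c', hc'⟩ : ∃ c', c' = ∑ l, x l * c.1 * y l := ⟨_, rfl⟩
    have hce : e * c.1 = c.1 := by rw [← hic, ← mul_assoc, hei]
    have hkey : ∀ w, e * (w * c') = (c' * w) * e := by
      intro w
      conv_lhs => rw [hc', hxy]
      rw [Finset.mul_sum, Finset.sum_mul_sum]
      conv_rhs => rw [hc', hxy]
      rw [Finset.sum_mul, Finset.sum_mul_sum]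
      refine Finset.sum_congr rfl fun m _ => Finset.sum_congr rfl fun l _ => ?_
      calc x m * i * y m * (w * (x l * c.1 * y l))
          = x m * (i * (y m * w * x l) * i) * c.1 * y l := by
            conv_lhs => rw [← hic]
            simp only [mul_assoc]
        _ = x m * (c.1 * (i * (y m * w * x l) * i)) * y l := by
            rw [mul_assoc (x m), hcE]
        _ = x m * c.1 * y m * w * (x l * i * y l) := by
            conv_rhs => rw [← hci]
            simp only [mul_assoc]
    have hc'i : (e * c') * i = c.1 := by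
      have h1 : c' * i = e * c.1 := by
        rw [hc', hxy, Finset.sum_mul, Finset.sum_mul]
        refine Finset.sum_congr rfl fun l _ => ?_
        calc x l * c.1 * y l * i = x l * (c.1 * (i * y l * i)) := by
              conv_lhs => rw [← hci]
              simp only [mul_assoc]
          _ = x l * i * y l * c.1 := by
              rw [← hcE]
              conv_rhs => rw [← hic]
              simp only [mul_assoc]
      rw [mul_assoc, h1, hce, hce]
    have hec' : ∀ w, w * (e * c') = (e * c') * w := by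
      intro w
      have h1 := hkey w
      rw [← mul_assoc, hec, mul_assoc, h1, hec, mul_assoc]
    have hidem : (e * c') * (e * c') = e * c' := by
      have h1 : (e * c') * c' = c' := by
        conv_lhs => rhs; rw [hc']
        conv_rhs => rw [hc']
        rw [Finset.mul_sum]
        refine Finset.sum_congr rfl fun l _ => ?_
        rw [← mul_assoc, ← mul_assoc, ← hec', mul_assoc (x l)]
        have h2 : e * c' * c.1 = c.1 := by
          calc e * c' * c.1 = e * c' * i * c.1 := by rw [mul_assoc _ i, hic]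
            _ = c.1 := by rw [hc'i, hcc']
        rw [h2]
      have h3 : e * c' * e = e * c' := by
        rw [hec, ← mul_assoc, hee]
      rw [← mul_assoc, h3]
      calc e * c' * c' = c' := h1
        _ = e * c' := by
          have h4 : e * (e * c' * c') = e * c' * c' := by
            rw [← mul_assoc, ← mul_assoc, hee]
          rw [h1] at h4
          exact h4.symm
    have hcb' : (e * c') * b = e * c' := by
      rw [mul_assoc]
      congr 1
      rw [hc', Finset.sum_mul]
      refine Finset.sum_congr rfl fun l _ => ?_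
      rw [mul_assoc, hbc, ← mul_assoc, mul_assoc (x l), hcb]
    rcases hprim _ hec' hidem hcb' with h | h
    · left
      apply corner_ext
      rw [← hc'i, h, zero_mul]
      rfl
    · right
      apply corner_ext
      rw [← hc'i, h, ← hbc, hβ]

end PCI

section Conj

variable {k : Type u} [Field k] {G : Type} [Group G] [Finite G] {N : Subgroup G} [N.Normal]

/-- Conjugation of an `N`-fixed element by a homogeneous unit. -/
theorem conj_hom {i : MonoidAlgebra k G} {hi : IsIdempotentElem i} (hN : i ∈ SubAlg k N)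
    {w : MonoidAlgebra k G} (hw : w ∈ Fix (cj k G) N) {u : hi.Cornerˣ} {g : G}
    (hu : SuppIn (cst N (g : G ⧸ N)) (vl hi u)) :
    vl hi u * (i * w) * vl hi u⁻¹ = i * cj k G g w := by
  have h1 : vl hi u * w = cj k G g w * vl hi u := by
    refine SuppIn.induction (P := fun c => c * w = cj k G g w * c) hu (by simp) ?_ ?_
    · intro a b ha hb
      rw [add_mul, mul_add, ha, hb]
    · intro x hx r
      have hx' : (x : G ⧸ N) = g := hx
      rw [eq_comm, QuotientGroup.eq] at hx'
      have h2 : cj k G x w = cj k G g w := by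
        have h3 : x = g * (g⁻¹ * x) := by group
        conv_lhs => rw [h3]
        rw [map_mul_act, hw _ hx']
      rw [smul_mul_assoc, mul_smul_comm, ← cj_mul_single, h2]
  have h2 : cj k G g w ∈ Fix (cj k G) N := by
    refine conj_mem_Fix hw g fun n hn => ?_
    have := ‹N.Normal›.conj_mem n hn g⁻¹
    simpa using this
  rw [← mul_assoc, vl_i, h1, mul_assoc, vl_vl_inv, commute_of_mem hN h2]

end Conj

end Vale.Agent.P180.KP
end
end

section

section

set_option linter.style.haveILetI false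
set_option linter.unusedSectionVars false

namespace Vale.Agent.P180.KP

open scoped Classical

universe u

section Trace

variable {k : Type u} [Field k] {G : Type} [Group G] [Finite G] {N : Subgroup G} [N.Normal]

/-- transfer of a relative trace -/
theorem trace_transfer {i : MonoidAlgebra k G} {hi : IsIdempotentElem i} (hN : i ∈ SubAlg k N)
    {H : Type} [Group H] [Finite H] {φ : H →* hi.Cornerˣ} {ε : MonoidAlgebra k H}
    {s : hi.Corner →ₗ[k] MonoidAlgebra k H} {π : H →* G ⧸ N}
    (hε : ε ∈ Subalgebra.center k (MonoidAlgebra k H)) (hs1 : ∀ x, s (liftU φ x) = ε * x)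
    (hs2 : ∀ y, liftU φ (s y) = y) (hπ : Function.Surjective π)
    (hφ : ∀ h, SuppIn (cst N (π h)) (vl hi (φ h))) {D : Subgroup G} {x : MonoidAlgebra k G}
    (hx : x ∈ Fix (cj k G) (D ⊔ N)) {β : hi.Corner} (hβ : β.1 = i * tr (cj k G) (D ⊔ N) ⊤ x) :
    mkCorner hi x ∈ {ξ : hi.Corner | s ξ ∈ Fix (cj k H)
      ((D.map (QuotientGroup.mk' N)).comap π)} ∧
    s β = tr (cj k H) ((D.map (QuotientGroup.mk' N)).comap π) ⊤ (s (mkCorner hi x)) := by
  have hxN : x ∈ Fix (cj k G) N := Fix_mono _ le_sup_right hx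
  have hval : ∀ g : G, (mkCorner hi (cj k G g x)).1 = i * cj k G g x := by
    intro g
    have h2 : cj k G g x ∈ Fix (cj k G) N := by
      refine conj_mem_Fix hxN g fun n hn => ?_
      have := ‹N.Normal›.conj_mem n hn g⁻¹
      simpa using this
    rw [mkCorner_val, mul_assoc, ← commute_of_mem hN h2, ← mul_assoc, hi.eq]
  have hone : mkCorner hi (cj k G 1 x) = mkCorner hi x := by rw [map_one_act]
  have hcj : ∀ (h : H) (g : G), (g : G ⧸ N) = π h →
      cj k H h (s (mkCorner hi x)) = s (mkCorner hi (cj k G g x)) := by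
    intro h g hg
    rw [cj_eq, s_mul_left hε hs1 hs2, s_mul_right hε hs1 hs2, liftU_single, liftU_single,
      one_smul, one_smul]
    apply congrArg s
    apply corner_ext
    have h1 := conj_hom (hi := hi) hN hxN (u := φ h) (g := g) (by rw [hg]; exact hφ h)
    have h2 := hval 1
    rw [map_one_act] at h2
    rw [corner_mul_val, corner_mul_val, hval, h2, map_inv]
    exact h1
  have hD : ∀ g : G, (g : G ⧸ N) ∈ D.map (QuotientGroup.mk' N) ↔ g ∈ D ⊔ N := by
    intro g
    have h1 : (D ⊔ N) = (D.map (QuotientGroup.mk' N)).comap (QuotientGroup.mk' N) := by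
      rw [Subgroup.comap_map_eq, QuotientGroup.ker_mk']
    rw [h1, Subgroup.mem_comap]
    rfl
  have hfix : s (mkCorner hi x) ∈ Fix (cj k H) ((D.map (QuotientGroup.mk' N)).comap π) := by
    intro h hh
    obtain ⟨g, hg⟩ := QuotientGroup.mk_surjective (π h)
    rw [hcj h g hg]
    have h1 : g ∈ D ⊔ N := by
      rw [← hD, hg]
      exact hh
    rw [hx g h1]
  refine ⟨hfix, ?_⟩
  choose γ hγ using fun h : H => QuotientGroup.mk_surjective (π h)
  letI := Fintype.ofFinite (H ⧸ ((D.map (QuotientGroup.mk' N)).comap π))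
  have hq : ∀ h : H, (QuotientGroup.mk (QuotientGroup.mk h :
      H ⧸ ((D.map (QuotientGroup.mk' N)).comap π)).out :
      H ⧸ ((D.map (QuotientGroup.mk' N)).comap π)) = QuotientGroup.mk h := fun h => by simp
  rw [tr_eq_sum' (ι := H ⧸ ((D.map (QuotientGroup.mk' N)).comap π)) hfix (fun q => q.out)
    (fun _ => Subgroup.mem_top _)
    (by
      intro q r hqr
      rw [← QuotientGroup.out_eq' q, ← QuotientGroup.out_eq' r, QuotientGroup.eq]
      exact hqr)
    (by
      intro h _
      refine ⟨QuotientGroup.mk h, ?_⟩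
      have := hq h
      rwa [QuotientGroup.eq] at this)]
  have h1 : ∀ q : H ⧸ ((D.map (QuotientGroup.mk' N)).comap π),
      cj k H q.out (s (mkCorner hi x)) = s (mkCorner hi (cj k G (γ q.out) x)) := fun q =>
    hcj _ _ (hγ _)
  simp only [h1]
  rw [← map_sum]
  congr 1
  apply corner_ext
  rw [hβ, corner_sum_val]
  simp only [hval]
  rw [← Finset.mul_sum]
  congr 1
  rw [tr_eq_sum' (ι := H ⧸ ((D.map (QuotientGroup.mk' N)).comap π)) hx (fun q => γ q.out)
    (fun _ => Subgroup.mem_top _)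
    (by
      intro q r hqr
      rw [← QuotientGroup.out_eq' q, ← QuotientGroup.out_eq' r, QuotientGroup.eq,
        Subgroup.mem_comap, map_mul, map_inv, ← hγ, ← hγ]
      rw [← hD] at hqr
      exact hqr)
    (by
      intro g _
      obtain ⟨h, hh⟩ := hπ (g : G ⧸ N)
      refine ⟨QuotientGroup.mk h, ?_⟩
      have h2 := hq h
      rw [QuotientGroup.eq, Subgroup.mem_comap, map_mul, map_inv, hh, ← hγ] at h2
      rw [← hD]
      exact h2)]

end Trace

section Main

variable {k : Type u} [Field k] [IsAlgClosed k] {p : ℕ} [Fact p.Prime] [CharP k p]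
variable {G : Type} [Group G] [Finite G] {N Y : Subgroup G} [N.Normal] [Y.Normal]

theorem exists_CC (hYN : Y ≤ N) (hYc : ∀ y ∈ Y, ∀ n ∈ N, y * n = n * y) :
    ∃ (C : Type) (_ : CommGroup C) (κ : C →* G) (α : G →* MulAut C),
      Function.Injective κ ∧ κ.range = Y ∧ ConjData κ α := by
  letI : CommGroup Y :=
    { (inferInstance : Group Y) with
      mul_comm := fun a b => Subtype.ext (hYc a a.2 b (hYN b.2)) }
  exact ⟨Y, inferInstance, Y.subtype, MulAut.conjNormal, Y.subtype_injective, Y.range_subtype,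
    ⟨fun g c => MulAut.conjNormal_apply g c⟩⟩

/-- The reduction of Kulshammer and Puig for blocks with central defect group. -/
theorem main' (hY : IsPGroup p Y) (hYN : Y ≤ N) (hYc : ∀ y ∈ Y, ∀ n ∈ N, y * n = n * y)
    {e b : MonoidAlgebra k G} (he : IsBlockOf N e) (heG : ∀ g, cj k G g e = e) (hb : IsBlock b)
    (hbe : b * e ≠ 0)
    (heY : ∃ z ∈ SubAlg k N, z ∈ Fix (cj k G) Y ∧ e = tr (cj k G) Y N z)
    {D : Subgroup G} {a : MonoidAlgebra k G} (ha : a ∈ Fix (cj k G) D)
    (hba : b = tr (cj k G) D ⊤ a) (hYD : Y ≤ D) :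
    ∃ (H : Type) (_ : Group H) (_ : Finite H) (Z : Subgroup H) (π : H →* G ⧸ N)
      (c : MonoidAlgebra k H) (hc : IsBlock c), (∀ z ∈ Z, ∀ h, z * h = h * z) ∧
      ¬ p ∣ Nat.card Z ∧ Z ≤ π.ker ∧ Z.index = Nat.card Y * N.index ∧
      Function.Surjective π ∧ Nat.card π.ker = Nat.card Z * Nat.card Y ∧
      Nat.card H ≤ (Nat.card Y * N.index) ^ 2 ∧ IsMoritaEquivalent k hb.Alg hc.Alg ∧
      ∃ (D' : Subgroup H) (a' : MonoidAlgebra k H), Nat.card D' ≤ Nat.card D ∧
        a' ∈ Fix (cj k H) D' ∧ c = tr (cj k H) D' ⊤ a' ∧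
        D' ≤ (D.map (QuotientGroup.mk' N)).comap π := by
  obtain ⟨C, _, κ, α, hκ, hκr, hα⟩ := exists_CC hYN hYc
  have hmem : ∀ c, κ c ∈ Y := fun c => by rw [← hκr]; exact ⟨c, rfl⟩
  haveI : Finite C := Finite.of_injective _ hκ
  have hcardC : Nat.card C = Nat.card Y := by
    rw [← hκr]
    exact Nat.card_congr (κ.ofInjective hκ).toEquiv
  have hCp : IsPGroup p C := by
    have h1 : IsPGroup p κ.range := by rw [hκr]; exact hY
    exact h1.of_equiv (κ.ofInjective hκ).symm
  have hCB : CB N κ e := by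
    refine ⟨hκ, fun c => hYN (hmem c), fun c n hn => hYc _ (hmem c) n hn, he, ?_⟩
    obtain ⟨z, hz, -, hz'⟩ := heY
    exact ⟨z, hz, by rw [hκr]; exact hz'⟩
  have heF : e ∈ Fix (cj k G) ⊤ := fun g _ => heG g
  obtain ⟨i, hi, hN, hie, hfull, H, _, _, φ, ε, s, π, Z, hε, hs1, hs2, hcardH, hπ, hφ, hZc, hpZ,
    hZπ, hZi⟩ := exists_twisted hCB hCp heF hα
  -- basic facts about `b`
  have hbB := isBlock_iff.mp hb
  have hbc : ∀ x, x * b = b * x := fun x => commute_of_mem (SubAlg_top x) hbB.mem.2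
  have hec : ∀ x, x * e = e * x := fun x => commute_of_mem (SubAlg_top x) heF
  have hbb : b * b = b := hb.idem
  have hbe' : b * e = b := by
    have heZ : e ∈ Subalgebra.center k (MonoidAlgebra k G) := mem_center_iff_Fix_top.mpr heF
    rcases hb.primitive (b * e) (Subalgebra.mul_mem _ hb.central heZ)
      (by
        change b * e * (b * e) = b * e
        rw [mul_assoc, ← mul_assoc e b e, ← hec b, mul_assoc b e e, he.idem.eq, ← mul_assoc, hbb])
      (by rw [mul_assoc, ← hec, ← mul_assoc, hbb]) with h | h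
    · exact absurd h hbe
    · exact h
  have hib : IsIdempotentElem (i * b) := by
    change i * b * (i * b) = i * b
    rw [mul_assoc, ← mul_assoc b i b, ← hbc i, mul_assoc i b b, hbb, ← mul_assoc, hi.eq]
  have hi1 : i * (i * b) = i * b := by rw [← mul_assoc, hi.eq]
  have hi2 : (i * b) * i = i * b := by rw [mul_assoc, ← hbc, ← mul_assoc, hi.eq]
  set β : hi.Corner := subIdem hi hi1 hi2 with hβ
  have hβv : β.1 = i * b := rfl
  have hPCI : IsPCI k β := by
    refine isPCI_corner hi hie hec he.idem.eq hfull hbc hbb hbe' hb.ne_zero ?_ β hβv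
    intro c hc hcc hcb
    exact hb.primitive c (Subalgebra.mem_center_iff.mpr hc) hcc hcb
  have hcs := isBlock_s hε hs1 hs2 hPCI
  -- cardinalities
  have hker : Nat.card π.ker = Nat.card Z * Nat.card Y := by
    have h1 := π.ker.card_mul_index
    have h2 := Z.card_mul_index
    rw [Subgroup.index_ker, MonoidHom.range_eq_top.mpr hπ] at h1
    have h3 : Nat.card (⊤ : Subgroup (G ⧸ N)) = N.index := by
      rw [Subgroup.index]; exact Nat.card_congr Subgroup.topEquiv.toEquiv
    rw [h3] at h1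
    rw [hZi, hcardC] at h2
    have h4 : N.index ≠ 0 := Subgroup.index_ne_zero_of_finite
    apply Nat.eq_of_mul_eq_mul_right (Nat.pos_of_ne_zero h4)
    rw [h1, ← h2, mul_assoc]
  refine ⟨H, inferInstance, inferInstance, Z, π, s β, hcs, hZc, hpZ, hZπ, by rw [hZi, hcardC], hπ,
    hker, by rw [← hcardC]; exact hcardH, ?_, ?_⟩
  · -- Morita equivalence
    have h1 : IsMoritaEquivalent k hb.idem.Corner hib.Corner := by
      apply isMoritaEquivalent_corner_corner
      · rw [← mul_assoc, ← hbc, mul_assoc, hbb]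
      · rw [mul_assoc, hbb]
      · obtain ⟨n, x, y, hxy⟩ := hfull
        refine ⟨n, x, y, ?_⟩
        conv_rhs => rw [← hbe', hxy, Finset.mul_sum]
        refine Finset.sum_congr rfl fun l _ => ?_
        rw [hbc i, ← mul_assoc, hbc (x l)]
        simp only [mul_assoc]
    refine IsMoritaEquivalent.trans k h1 ?_
    have h2 : IsMoritaEquivalent k hib.Corner (subIdem_idem hi hib hi1 hi2).Corner :=
      IsMoritaEquivalent.of_algEquiv k (cornerCornerEquiv hi hib hi1 hi2).symm
    refine IsMoritaEquivalent.trans k h2 ?_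
    exact IsMoritaEquivalent.of_algEquiv k
      (cornerEquiv hε hs1 hs2 (subIdem_idem hi hib hi1 hi2) hcs.idem).symm
  · -- the trace condition
    obtain ⟨x, hx⟩ : ∃ x, x = tr (cj k G) D (D ⊔ N) a := ⟨_, rfl⟩
    have hxF : x ∈ Fix (cj k G) (D ⊔ N) := by rw [hx]; exact tr_mem_Fix ha
    have hbx : b = tr (cj k G) (D ⊔ N) ⊤ x := by
      rw [hx, tr_tr ha le_sup_left le_top]; exact hba
    obtain ⟨hF, hT⟩ := trace_transfer (hi := hi) hN hε hs1 hs2 hπ hφ hxF (β := β)
      (by rw [hβv, ← hbx])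
    set H₁ : Subgroup H := (D.map (QuotientGroup.mk' N)).comap π with hH₁
    have hF' : s (mkCorner hi x) ∈ Fix (cj k H) H₁ := hF
    obtain ⟨Q⟩ : Nonempty (Sylow p H₁) := inferInstance
    have hidx : ((Q : Subgroup H₁).map H₁.subtype).relIndex H₁ = (Q : Subgroup H₁).index := by
      rw [Subgroup.relIndex, ← Subgroup.comap_subtype,
        Subgroup.comap_map_eq_self_of_injective H₁.subtype_injective]
    have hne : ((((Q : Subgroup H₁).map H₁.subtype).relIndex H₁ : ℕ) : k) ≠ 0 := by
      rw [hidx, Ne, CharP.cast_eq_zero_iff k p]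
      exact Q.not_dvd_index
    have hle : (Q : Subgroup H₁).map H₁.subtype ≤ H₁ := by
      rintro _ ⟨x, -, rfl⟩
      exact x.2
    refine ⟨(Q : Subgroup H₁).map H₁.subtype,
      ((((Q : Subgroup H₁).map H₁.subtype).relIndex H₁ : ℕ) : k)⁻¹ • s (mkCorner hi x),
      ?_, ?_, ?_, hle⟩
    · -- cardinality
      have h1 : Nat.card ((Q : Subgroup H₁).map H₁.subtype) = Nat.card (Q : Subgroup H₁) :=
        Nat.card_congr ((Q : Subgroup H₁).equivMapOfInjective _
          H₁.subtype_injective).symm.toEquiv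
      obtain ⟨n, hn⟩ := IsPGroup.iff_card.mp Q.2
      have h2 : Nat.card (Q : Subgroup H₁) ∣ Nat.card H₁ := (Q : Subgroup H₁).card_subgroup_dvd_card
      -- order of `H₁`
      have h3 : Nat.card H₁ = Nat.card Z * (Nat.card Y * Nat.card (D.map (QuotientGroup.mk' N))) := by
        have h4 := H₁.card_mul_index
        have h5 := (D.map (QuotientGroup.mk' N)).card_mul_index
        have h6 := π.ker.card_mul_index
        rw [Subgroup.index_ker, MonoidHom.range_eq_top.mpr hπ] at h6
        have h7 : Nat.card (⊤ : Subgroup (G ⧸ N)) = Nat.card (G ⧸ N) :=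
          Nat.card_congr Subgroup.topEquiv.toEquiv
        rw [hH₁, Subgroup.index_comap_of_surjective _ hπ] at h4
        have h8 : (D.map (QuotientGroup.mk' N)).index ≠ 0 := Subgroup.index_ne_zero_of_finite
        apply Nat.eq_of_mul_eq_mul_right (Nat.pos_of_ne_zero h8)
        rw [hH₁, h4, ← h6, h7, hker, ← h5]
        ring
      have h9 : Nat.card (D.map (QuotientGroup.mk' N)) * Nat.card Y ≤ Nat.card D := by
        have h10 : Nat.card (D.map (QuotientGroup.mk' N)) = N.relIndex D := by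
          rw [← Subgroup.relIndex_ker, QuotientGroup.ker_mk']
        have h11 : N.relIndex D ∣ Y.relIndex D := Subgroup.relIndex_dvd_of_le_left D hYN
        have h12 : Nat.card Y * Y.relIndex D = Nat.card D := by
          have h13 := Subgroup.relIndex_mul_relIndex (⊥ : Subgroup G) Y D bot_le hYD
          rwa [Subgroup.relIndex_bot_left, Subgroup.relIndex_bot_left] at h13
        rw [h10, ← h12, mul_comm]
        apply Nat.mul_le_mul_left
        apply Nat.le_of_dvd _ h11
        apply Nat.pos_of_ne_zero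
        intro h0
        rw [h0, mul_zero] at h12
        exact Nat.card_pos.ne' h12.symm
      rw [h1]
      refine le_trans ?_ h9
      rw [mul_comm]
      apply Nat.le_of_dvd
      · exact Nat.mul_pos Nat.card_pos Nat.card_pos
      · rw [h3] at h2
        apply Nat.Coprime.dvd_of_dvd_mul_left _ h2
        rw [hn]
        apply Nat.Coprime.pow_left
        rw [(Fact.out : p.Prime).coprime_iff_not_dvd]
        exact hpZ
    · exact Subalgebra.smul_mem _ (Fix_mono _ hle hF') _
    · rw [hT]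
      have h1 : ((((Q : Subgroup H₁).map H₁.subtype).relIndex H₁ : ℕ) : k)⁻¹ •
          s (mkCorner hi x) ∈ Fix (cj k H) ((Q : Subgroup H₁).map H₁.subtype) :=
        Subalgebra.smul_mem _ (Fix_mono _ hle hF') _
      rw [← tr_tr h1 hle le_top, tr_smul, tr_of_mem_Fix hF', smul_smul, inv_mul_cancel₀ hne,
        one_smul]

/-- The reduction of Kulshammer and Puig for blocks with central defect group. -/
theorem main (hY : IsPGroup p Y) (hYN : Y ≤ N) (hYc : ∀ y ∈ Y, ∀ n ∈ N, y * n = n * y)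
    {e b : MonoidAlgebra k G} (he : IsBlockOf N e) (heG : ∀ g, cj k G g e = e) (hb : IsBlock b)
    (hbe : b * e ≠ 0)
    (heY : ∃ z ∈ SubAlg k N, z ∈ Fix (cj k G) Y ∧ e = tr (cj k G) Y N z)
    {D : Subgroup G} {a : MonoidAlgebra k G} (ha : a ∈ Fix (cj k G) D)
    (hba : b = tr (cj k G) D ⊤ a) (hYD : Y ≤ D) :
    ∃ (H : Type) (_ : Group H) (_ : Finite H) (Z : Subgroup H) (π : H →* G ⧸ N)
      (c : MonoidAlgebra k H) (hc : IsBlock c), (∀ z ∈ Z, ∀ h, z * h = h * z) ∧
      ¬ p ∣ Nat.card Z ∧ Z ≤ π.ker ∧ Z.index = Nat.card Y * N.index ∧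
      Function.Surjective π ∧ Nat.card π.ker = Nat.card Z * Nat.card Y ∧
      Nat.card H ≤ (Nat.card Y * N.index) ^ 2 ∧ IsMoritaEquivalent k hb.Alg hc.Alg ∧
      ∃ (D' : Subgroup H) (a' : MonoidAlgebra k H), Nat.card D' ≤ Nat.card D ∧
        a' ∈ Fix (cj k H) D' ∧ c = tr (cj k H) D' ⊤ a' := by
  obtain ⟨H, iH, fH, Z, π, c, hc, h1, h2, h3, h4, h5, h6, h7, h8, D', a', h9, h10, h11, -⟩ :=
    main' hY hYN hYc he heG hb hbe heY ha hba hYD
  exact ⟨H, iH, fH, Z, π, c, hc, h1, h2, h3, h4, h5, h6, h7, h8, D', a', h9, h10, h11⟩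

end Main

end Vale.Agent.P180.KP
end
end

section

section

namespace Vale.Agent.P180

set_option linter.unusedSectionVars false

universe u

section Central

variable {G : Type} [Group G]

/-- The elements of `p`-power order of the centre of `N`. -/
def pZ (p : ℕ) (N : Subgroup G) : Subgroup G where
  carrier := {z | z ∈ N ∧ (∀ n ∈ N, z * n = n * z) ∧ ∃ m : ℕ, z ^ (p ^ m) = 1}
  one_mem' := ⟨N.one_mem, fun n _ => by rw [one_mul, mul_one], 0, one_pow _⟩
  mul_mem' := by
    rintro z w ⟨hz, hz', m, hm⟩ ⟨hw, hw', l, hl⟩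
    refine ⟨N.mul_mem hz hw, fun n hn => by rw [mul_assoc, hw' n hn, ← mul_assoc, hz' n hn,
      mul_assoc], m + l, ?_⟩
    have hc : Commute z w := hz' w hw
    rw [hc.mul_pow, pow_add, pow_mul, hm, one_pow, one_mul, mul_comm, pow_mul, hl, one_pow]
  inv_mem' := by
    rintro z ⟨hz, hz', m, hm⟩
    refine ⟨N.inv_mem hz, fun n hn => ?_, m, by rw [inv_pow, hm, inv_one]⟩
    have h1 : Commute z n := hz' n hn
    exact h1.inv_left

theorem pZ_normal (p : ℕ) {N : Subgroup G} (hN : N.Normal) : (pZ p N).Normal := by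
  constructor
  rintro z ⟨hz, hz', m, hm⟩ g
  refine ⟨hN.conj_mem z hz g, fun n hn => ?_, m, ?_⟩
  · have h1 : g⁻¹ * n * g ∈ N := by
      have := hN.conj_mem n hn g⁻¹
      simpa using this
    have h2 := hz' _ h1
    calc g * z * g⁻¹ * n = g * (z * (g⁻¹ * n * g)) * g⁻¹ := by group
      _ = g * ((g⁻¹ * n * g) * z) * g⁻¹ := by rw [h2]
      _ = n * (g * z * g⁻¹) := by group
  · rw [conj_pow, hm, mul_one, mul_inv_cancel]

end Central

end Vale.Agent.P180
end
end

section

section

namespace Vale.Agent.P180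

open scoped Nat

set_option linter.unusedSectionVars false

section

universe u

variable {p m n : ℕ} [Fact p.Prime] {k : Type u} [Field k] [IsAlgClosed k] [CharP k p]

/-- The preimage of the image of `M` is again in the class. -/
theorem cls_comap (hpm : p ≤ m) {G H : Type} [Group G] [Group H] [Finite G] [Finite H]
    {N Y M : Subgroup G} [N.Normal] (hY : IsPGroup p Y) (hM : Cls p m (M.map (QuotientGroup.mk' N)))
    {Z : Subgroup H} {π : H →* G ⧸ N}
    (hZ : ∀ z ∈ Z, ∀ h, z * h = h * z) (hZπ : Z ≤ π.ker)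
    (hcard : Nat.card π.ker = Nat.card Z * Nat.card Y) :
    Cls p m ((M.map (QuotientGroup.mk' N)).comap π) := by
  have hker : Cls p m π.ker := by
    obtain ⟨j, hj⟩ := IsPGroup.iff_card.mp hY
    have h1 : (Z.subgroupOf π.ker).index = p ^ j := by
      have h5 := Subgroup.card_mul_index (Z.subgroupOf π.ker)
      rw [hcard, Nat.card_congr (Subgroup.subgroupOfEquivOfLe hZπ).toEquiv, hj] at h5
      exact Nat.eq_of_mul_eq_mul_left Nat.card_pos h5
    have h2 : Group.IsSolvable π.ker :=
      solvable_of_central (fun z hz g => Subtype.ext (hZ _ hz g)) h1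
    exact Cls.of_solvable.mono hpm
  let π' := π.subgroupComap (M.map (QuotientGroup.mk' N))
  refine Cls.extension π' hM ?_
  let f : π'.ker →* π.ker :=
    { toFun := fun x => ⟨((x : (M.map (QuotientGroup.mk' N)).comap π) : H), by
        have h1 : π' x.1 = 1 := x.2
        exact congrArg Subtype.val h1⟩
      map_one' := rfl
      map_mul' := fun _ _ => rfl }
  refine hker.of_injective f ?_
  intro x y hxy
  apply Subtype.ext
  apply Subtype.ext
  exact congrArg (fun w : π.ker => (w : H)) hxy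

theorem T25_aux (hpm : p ≤ m) (i : ℕ) :
    ∀ (G : Type) [Group G] [Finite G] (Z D M : Subgroup G) [M.Normal] (a b : MonoidAlgebra k G),
      Cls p m M → D ≤ M → (∀ z ∈ Z, ∀ g, z * g = g * z) → ¬ p ∣ Nat.card Z →
      ∀ hb : IsBlock b,
      a ∈ Fix (cj k G) D → b = tr (cj k G) D ⊤ a → Nat.card D ≤ n → Z.index ≤ i →
      ∃ (H : Type) (_ : Group H) (_ : Finite H) (c : MonoidAlgebra k H) (hc : IsBlock c),
        Nat.card H ≤ (n ! * (n * m)! * n) ^ 2 ∧ IsMoritaEquivalent k hb.Alg hc.Alg := by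
  induction i with
  | zero =>
    intro G _ _ Z D M _ a b _ _ _ _ _ _ _ _ hi
    exact absurd (Nat.le_zero.mp hi) Z.index_ne_zero_of_finite
  | succ i ih =>
    intro G _ _ Z D M hMn a b hM hDM hZ hpZ hb ha hba hDn hi
    by_cases hST : ∀ N : Subgroup G, N.Normal → ∀ e : MonoidAlgebra k G, IsBlockOf N e →
      b * e ≠ 0 → ∀ g, cj k G g e = e
    swap
    · push Not at hST
      obtain ⟨N, hN, e, he, hbe, g, hg⟩ := hST
      obtain ⟨b', hb', _, hMo, x, a', ha', hb'a'⟩ := fong_reynolds he hb hbe ha hba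
      have hZT : Z ≤ stabE e := by
        intro z hz
        rw [mem_stabE]
        exact cj_eq_self_of_commute he.mem.1 fun a _ => hZ z hz a
      have hT : (stabE e).index ≠ 1 := by
        rw [Ne, Subgroup.index_eq_one]
        intro h
        apply hg
        rw [← mem_stabE, h]
        exact Subgroup.mem_top g
      have hT0 : (stabE e).index ≠ 0 := Subgroup.index_ne_zero_of_finite
      have hidx : (Z.subgroupOf (stabE e)).index ≤ i := by
        have h1 : Z.relIndex (stabE e) * (stabE e).index = Z.index :=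
          Subgroup.relIndex_mul_index hZT
        have h2 : (Z.subgroupOf (stabE e)).index ≠ 0 := Subgroup.index_ne_zero_of_finite
        have h3 : Z.relIndex (stabE e) * 2 ≤ Z.relIndex (stabE e) * (stabE e).index :=
          Nat.mul_le_mul_left _ (by omega)
        change Z.relIndex (stabE e) ≠ 0 at h2
        change Z.relIndex (stabE e) ≤ i
        omega
      have hMT : (M.subgroupOf (stabE e)).Normal := inferInstance
      have hMcls : Cls p m (M.subgroupOf (stabE e)) := by
        let f : (M.subgroupOf (stabE e)) →* M :=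
          { toFun := fun x => ⟨((x : stabE e) : G), x.2⟩
            map_one' := rfl
            map_mul' := fun _ _ => rfl }
        refine hM.of_injective f ?_
        intro x y hxy
        apply Subtype.ext
        apply Subtype.ext
        exact congrArg (fun w : M => (w : G)) hxy
      have hDM' : (conjS x D).subgroupOf (stabE e) ≤ M.subgroupOf (stabE e) := by
        intro y hy
        rw [Subgroup.mem_subgroupOf, mem_conjS] at hy
        rw [Subgroup.mem_subgroupOf]
        have h5 := hMn.conj_mem _ (hDM hy) x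
        simpa [mul_assoc] using h5
      obtain ⟨H, iH, fH, c, hc, hH, hM'⟩ := ih (stabE e) (Z.subgroupOf (stabE e)) _
        (M.subgroupOf (stabE e)) a' b' hMcls hDM'
        (fun z hz g => Subtype.ext (hZ _ hz g))
        (by rwa [Nat.card_congr (Subgroup.subgroupOfEquivOfLe hZT).toEquiv]) hb' ha' hb'a'
        ((card_subgroupOf_conjS_le _ x D).trans hDn) hidx
      exact ⟨H, iH, fH, c, hc, hH, hMo.trans k hM'⟩
    · by_cases hNR : ∀ N Y : Subgroup G, N.Normal → Y.Normal → Z ≤ N → Y ≤ N → IsPGroup p Y →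
        (∀ y ∈ Y, ∀ x ∈ N, y * x = x * y) → ∀ e : MonoidAlgebra k G, IsBlockOf N e →
        b * e ≠ 0 → (∃ z ∈ SubAlg k N, z ∈ Fix (cj k G) Y ∧ e = tr (cj k G) Y N z) →
        Nat.card N = Nat.card Z * Nat.card Y
      swap
      · push Not at hNR
        obtain ⟨N, Y, hN, hYn, hZN, hYN, hY, hYc, e, he, hbe, hez, hcard⟩ := hNR
        have hYD : Y ≤ D := op_le p hY hb.idem hb.ne_zero ha hba
        obtain ⟨H, iH, fH, Z', π, c, hc, hZ', hpZ', hZπ, hidx', hπ, hker, _, hMo, D', a', hD',
          ha', hca', hD'M⟩ := KP.main' hY hYN hYc he (hST N hN e he hbe) hb hbe hez ha hba hYD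
        have hidx : Z'.index ≤ i := by
          have h1 : Nat.card Z * Nat.card Y ≤ Nat.card N := by
            rw [← card_sup_eq hpZ hY]
            exact Nat.card_le_card_of_injective _
              (Subgroup.inclusion_injective (sup_le hZN hYN))
          have h2 : Nat.card Z * Nat.card Y < Nat.card N :=
            lt_of_le_of_ne h1 (Ne.symm hcard)
          have h3 := Subgroup.card_mul_index N
          have h4 := Subgroup.card_mul_index Z
          have h5 : 0 < N.index := Nat.pos_of_ne_zero Subgroup.index_ne_zero_of_finite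
          have h6 : Nat.card Z * (Nat.card Y * N.index) < Nat.card Z * Z.index := by
            rw [h4, ← h3, ← mul_assoc]
            exact Nat.mul_lt_mul_of_pos_right h2 h5
          have h7 := Nat.lt_of_mul_lt_mul_left h6
          omega
        have hMn' : (M.map (QuotientGroup.mk' N)).Normal :=
          Subgroup.Normal.map hMn _ (QuotientGroup.mk'_surjective N)
        have hMq : Cls p m (M.map (QuotientGroup.mk' N)) :=
          hM.of_surjective ((QuotientGroup.mk' N).subgroupMap M)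
            ((QuotientGroup.mk' N).subgroupMap_surjective M)
        have hMcls : Cls p m ((M.map (QuotientGroup.mk' N)).comap π) :=
          cls_comap hpm hY hMq hZ' hZπ hker
        have hMn'' : ((M.map (QuotientGroup.mk' N)).comap π).Normal := inferInstance
        obtain ⟨H', iH', fH', c', hc', hH', hM'⟩ := ih H Z' D'
          ((M.map (QuotientGroup.mk' N)).comap π) a' c
          hMcls (hD'M.trans (Subgroup.comap_mono (Subgroup.map_mono hDM))) hZ' hpZ' hc ha' hca'
          (hD'.trans hDn) hidx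
        exact ⟨H', iH', fH', c', hc', hH', hMo.trans k hM'⟩
      · have hbound := caseC_bound' hM hZ hpZ hDM hb ha hba hDn hST hNR
        have hZn : Z.Normal := by
          constructor
          intro z hz g
          rw [← hZ z hz g, mul_inv_cancel_right]
          exact hz
        obtain ⟨e, he, hbe⟩ := exists_isPrimIn (ZAlg k Z) ZAlg_comm hb.ne_zero
        have hrel : ¬ p ∣ (⊥ : Subgroup G).relIndex Z := by
          rwa [Subgroup.relIndex_bot_left]
        obtain ⟨H, iH, fH, _, _, c, hc, _, _, _, _, _, _, hH, hMo, _⟩ := KP.main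
          (N := Z) (Y := ⊥) (D := D)
          IsPGroup.of_bot bot_le (by
            intro y hy x _
            rw [Subgroup.mem_bot] at hy
            rw [hy, one_mul, mul_one]) he (hST Z hZn e he hbe) hb hbe
          ⟨_, Subalgebra.smul_mem _ he.mem.1 _,
            Subalgebra.smul_mem _ (Fix_mono _ bot_le he.mem.2) _,
            eq_tr_of_not_dvd p hrel he.mem.2⟩ ha hba bot_le
        refine ⟨H, iH, fH, c, hc, hH.trans ?_, hMo⟩
        rw [Subgroup.card_bot, one_mul]
        exact Nat.pow_le_pow_left hbound 2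

/-- Donovan's conjecture for blocks whose defect group lies in a normal subgroup of the class. -/
theorem T25 (hpm : p ≤ m) {G : Type} [Group G] [Finite G] {M : Subgroup G} [M.Normal]
    (hM : Cls p m M) {D : Subgroup G} (hDM : D ≤ M) {a b : MonoidAlgebra k G} (hb : IsBlock b)
    (ha : a ∈ Fix (cj k G) D) (hba : b = tr (cj k G) D ⊤ a) (hDn : Nat.card D ≤ n) :
    ∃ (H : Type) (_ : Group H) (_ : Finite H) (c : MonoidAlgebra k H) (hc : IsBlock c),
      Nat.card H ≤ (n ! * (n * m)! * n) ^ 2 ∧ IsMoritaEquivalent k hb.Alg hc.Alg :=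
  T25_aux hpm _ G ⊥ D M a b hM hDM (by
    intro z hz g
    rw [Subgroup.mem_bot] at hz
    rw [hz, one_mul, mul_one]) (by
    rw [Subgroup.card_bot]
    exact (Nat.Prime.one_lt Fact.out).ne' ∘ Nat.dvd_one.mp) hb ha hba hDn le_rfl

end

end Vale.Agent.P180
end
end

section

section

namespace Vale.Agent.P180

open scoped Nat

set_option linter.unusedSectionVars false

universe u

section Central

variable {G : Type} [Group G]

/-- Reduction for a normal subgroup centralising the defect group. -/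
theorem central_reduction' {k : Type u} [Field k] [IsAlgClosed k] {p : ℕ} [Fact p.Prime]
    [CharP k p] [Finite G] {N M D : Subgroup G} [N.Normal] [M.Normal] (hD : IsPGroup p D)
    (hDM : D ≤ M)
    (hND : ∀ x ∈ D, x ∈ N → ∀ n ∈ N, x * n = n * x) {b a : MonoidAlgebra k G} (hb : IsBlock b)
    (ha : a ∈ Fix (cj k G) D) (hba : b = tr (cj k G) D ⊤ a) :
    ∃ (T : Subgroup G) (_ : (N.subgroupOf T).Normal) (H : Type) (_ : Group H) (_ : Finite H)
      (Z : Subgroup H) (π : H →* T ⧸ (N.subgroupOf T)) (Y : Subgroup T)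
      (c : MonoidAlgebra k H) (hc : IsBlock c), IsPGroup p Y ∧ (∀ z ∈ Z, ∀ h, z * h = h * z) ∧
      ¬ p ∣ Nat.card Z ∧ Z ≤ π.ker ∧
      Nat.card π.ker = Nat.card Z * Nat.card Y ∧ IsMoritaEquivalent k hb.Alg hc.Alg ∧
      ∃ (D' : Subgroup H) (a' : MonoidAlgebra k H), Nat.card D' ≤ Nat.card D ∧
        a' ∈ Fix (cj k H) D' ∧ c = tr (cj k H) D' ⊤ a' ∧
        D' ≤ ((M.subgroupOf T).map (QuotientGroup.mk' (N.subgroupOf T))).comap π := by
  have hbB := isBlock_iff.mp hb
  obtain ⟨e, he, hbe⟩ := exists_isPrimIn (ZAlg k N) ZAlg_comm hb.ne_zero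
  have hcomm : e * b = b * e := commute_of_mem (SubAlg_top e) hbB.mem.2
  obtain ⟨x, z, hz, hzF, hez⟩ := covering he hb.idem (by rwa [hcomm]) ha hba
  -- the central subgroup
  have hYn : (pZ p N).Normal := pZ_normal p ‹_›
  have hRY : N ⊓ conjS x D ≤ pZ p N := by
    intro w hw
    obtain ⟨hwN, hwD⟩ := Subgroup.mem_inf.mp hw
    rw [mem_conjS] at hwD
    refine ⟨hwN, fun n hn => ?_, ?_⟩
    · have h1 : x⁻¹ * n * x ∈ N := by
        have := ‹N.Normal›.conj_mem n hn x⁻¹
        simpa using this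
      have h1' : x⁻¹ * w * x ∈ N := by
        have := ‹N.Normal›.conj_mem w hwN x⁻¹
        simpa using this
      have h2 := hND _ hwD h1' _ h1
      calc w * n = x * ((x⁻¹ * w * x) * (x⁻¹ * n * x)) * x⁻¹ := by group
        _ = x * ((x⁻¹ * n * x) * (x⁻¹ * w * x)) * x⁻¹ := by rw [h2]
        _ = n * w := by group
    · obtain ⟨m, hm⟩ := hD ⟨_, hwD⟩
      refine ⟨m, ?_⟩
      have h3 : (x⁻¹ * w * x) ^ (p ^ m) = 1 := congrArg Subtype.val hm
      have h4 : (x⁻¹ * w * (x⁻¹)⁻¹) ^ (p ^ m) = 1 := by rwa [inv_inv]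
      rw [conj_pow] at h4
      calc w ^ (p ^ m) = x * (x⁻¹ * w ^ (p ^ m) * (x⁻¹)⁻¹) * x⁻¹ := by group
        _ = 1 := by rw [h4, mul_one, mul_inv_cancel]
  have hYN : pZ p N ≤ N := fun w hw => hw.1
  obtain ⟨z', hz'S, hz'F, hez'⟩ : ∃ z' ∈ SubAlg k N, z' ∈ Fix (cj k G) (pZ p N) ∧
      e = tr (cj k G) (pZ p N) N z' := by
    refine ⟨tr (cj k G) (N ⊓ conjS x D) (pZ p N) z, KP.tr_mem_SubAlg hz, tr_mem_Fix hzF, ?_⟩
    rw [tr_tr hzF hRY hYN]
    exact hez
  -- Fong-Reynolds
  obtain ⟨b', hb', hbb', hM, x', a', ha', hba'⟩ := fong_reynolds he hb hbe ha hba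
  have hNT : N ≤ stabE e := le_stabE he
  have hNn : (N.subgroupOf (stabE e)).Normal := inferInstance
  have hYT : pZ p N ≤ stabE e := hYN.trans hNT
  obtain ⟨e', he'⟩ := exists_incl (stabE e) (SubAlg_mono hNT he.mem.1)
  have heB : IsBlockOf (N.subgroupOf (stabE e)) e' := by
    rw [isBlockOf_subgroupOf_iff hNT, he']; exact he
  have heT : ∀ g, cj k (stabE e) g e' = e' := by
    intro g
    apply incl_injective (k := k) (stabE e)
    rw [incl_cj, he']
    exact g.2
  have hbe' : b' * e' ≠ 0 := by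
    intro h0
    apply hbe
    have h1 := congrArg (incl k (stabE e)) h0
    rw [map_mul, he', hbb', map_zero, mul_assoc, he.idem.eq] at h1
    exact h1
  have hYn' : ((pZ p N).subgroupOf (stabE e)).Normal := inferInstance
  have hYp : IsPGroup p ((pZ p N).subgroupOf (stabE e)) := by
    rintro ⟨⟨w, hwT⟩, hw⟩
    rw [Subgroup.mem_subgroupOf] at hw
    obtain ⟨m, hm⟩ := hw.2.2
    exact ⟨m, Subtype.ext (Subtype.ext hm)⟩
  have hYD : (pZ p N).subgroupOf (stabE e) ≤ (conjS x' D).subgroupOf (stabE e) :=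
    op_le p hYp hb'.idem hb'.ne_zero ha' hba'
  have hcardD := card_subgroupOf_conjS_le (stabE e) x' D
  obtain ⟨H, _, _, Z, π, c, hc, hZc, hpZ, hZπ, hZi, hπ, hker, hcardH, hMc, D', a'', hD', ha'',
      hca'', hD'M⟩ := KP.main' (N := N.subgroupOf (stabE e)) (Y := (pZ p N).subgroupOf (stabE e)) hYp
    (by
      intro w hw
      exact hYN hw)
    (by
      intro y hy n hn
      exact Subtype.ext (hy.2.1 n hn)) heB heT hb' hbe'
    (by
      obtain ⟨w, hw⟩ := exists_incl (stabE e) (SubAlg_mono hNT hz'S)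
      have hmapN : (N.subgroupOf (stabE e)).map (stabE e).subtype = N :=
        Subgroup.map_subgroupOf_eq_of_le hNT
      have hmapY : ((pZ p N).subgroupOf (stabE e)).map (stabE e).subtype = pZ p N :=
        Subgroup.map_subgroupOf_eq_of_le hYT
      have hwF : w ∈ Fix (cj k (stabE e)) ((pZ p N).subgroupOf (stabE e)) := by
        rw [← incl_mem_Fix_iff, hmapY, hw]; exact hz'F
      refine ⟨w, ?_, hwF, ?_⟩
      · rw [← incl_mem_SubAlg_iff, hmapN, hw]; exact hz'S
      · apply incl_injective (k := k) (stabE e)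
        rw [incl_tr_gen _ hwF, hmapY, hmapN, hw, he']
        exact hez')
    ha' hba' hYD
  refine ⟨stabE e, hNn, H, inferInstance, inferInstance, Z, π,
    (pZ p N).subgroupOf (stabE e), c, hc, hYp, hZc, hpZ, hZπ, hker,
    IsMoritaEquivalent.trans k hM hMc, D', a'', hD'.trans hcardD, ha'', hca'', ?_⟩
  refine hD'M.trans (Subgroup.comap_mono (Subgroup.map_mono ?_))
  intro y hy
  rw [Subgroup.mem_subgroupOf, mem_conjS] at hy
  rw [Subgroup.mem_subgroupOf]
  have h5 := ‹M.Normal›.conj_mem _ (hDM hy) x'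
  simpa [mul_assoc] using h5

theorem T25plus_aux {p m n : ℕ} [Fact p.Prime] {k : Type u} [Field k] [IsAlgClosed k] [CharP k p]
    (hpm : p ≤ m) [Finite G] {N M : Subgroup G} [N.Normal] [M.Normal]
    (hM : Cls p m (M.map (QuotientGroup.mk' N))) {D : Subgroup G} (hD : IsPGroup p D)
    (hDM : D ≤ M) (hDN : ∀ x ∈ D, x ∈ N → ∀ n ∈ N, x * n = n * x) {a b : MonoidAlgebra k G}
    (hb : IsBlock b)
    (ha : a ∈ Fix (cj k G) D) (hba : b = tr (cj k G) D ⊤ a) (hDn : Nat.card D ≤ n) :
    ∃ (H : Type) (_ : Group H) (_ : Finite H) (c : MonoidAlgebra k H) (hc : IsBlock c),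
      Nat.card H ≤ (n ! * (n * m)! * n) ^ 2 ∧ IsMoritaEquivalent k hb.Alg hc.Alg := by
  obtain ⟨T, hNT, H, iH, fH, Z, π, Y, c, hc, hY, hZc, hpZ, hZπ, hker, hMo, D', a', hD', ha', hca',
    hD'M⟩ := central_reduction' hD hDM hDN hb ha hba
  have hMT : (M.subgroupOf T).Normal := inferInstance
  have hMn' : ((M.subgroupOf T).map (QuotientGroup.mk' (N.subgroupOf T))).Normal :=
    Subgroup.Normal.map hMT _ (QuotientGroup.mk'_surjective _)
  have hMn'' : (((M.subgroupOf T).map (QuotientGroup.mk' (N.subgroupOf T))).comap π).Normal :=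
    inferInstance
  have hle : N.subgroupOf T ≤ N.comap T.subtype := le_refl _
  have hMq : Cls p m ((M.subgroupOf T).map (QuotientGroup.mk' (N.subgroupOf T))) := by
    let f : ((M.subgroupOf T).map (QuotientGroup.mk' (N.subgroupOf T))) →*
        (M.map (QuotientGroup.mk' N)) :=
      { toFun := fun x => ⟨QuotientGroup.map (N.subgroupOf T) N T.subtype hle x.1, by
          obtain ⟨y, hy, hyx⟩ := x.2
          rw [← hyx]
          exact ⟨(y : G), hy, rfl⟩⟩
        map_one' := Subtype.ext (map_one _)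
        map_mul' := fun x y => Subtype.ext (map_mul _ _ _) }
    refine hM.of_injective f ?_
    rw [injective_iff_map_eq_one]
    rintro ⟨q, hq⟩ h1
    apply Subtype.ext
    have h2 : QuotientGroup.map (N.subgroupOf T) N T.subtype hle q = 1 :=
      congrArg Subtype.val h1
    clear h1
    induction q using QuotientGroup.induction_on with
    | H t =>
      have h3 : ((T.subtype t : G) : G ⧸ N) = 1 := h2
      rw [QuotientGroup.eq_one_iff] at h3
      exact (QuotientGroup.eq_one_iff t).mpr h3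
  have hcls : Cls p m (((M.subgroupOf T).map (QuotientGroup.mk' (N.subgroupOf T))).comap π) :=
    cls_comap hpm hY hMq hZc hZπ hker
  obtain ⟨H', iH', fH', c', hc', hcard, hM'⟩ := T25 hpm hcls hD'M hc ha' hca' (hD'.trans hDn)
  exact ⟨H', iH', fH', c', hc', hcard, hMo.trans k hM'⟩

end Central

end Vale.Agent.P180
end
end

section

section

namespace Vale.Agent.P180

open scoped Nat

set_option linter.unusedSectionVars false

section

universe u

variable {p m n : ℕ} [Fact p.Prime] {k : Type u} [Field k] [CharP k p]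

theorem exists_sylow_trace {G : Type*} [Group G] [Finite G] {D : Subgroup G}
    {a b : MonoidAlgebra k G} (ha : a ∈ Fix (cj k G) D) (hba : b = tr (cj k G) D ⊤ a) :
    ∃ P ≤ D, IsPGroup p P ∧ ∃ a' ∈ Fix (cj k G) P, b = tr (cj k G) P ⊤ a' := by
  let P : Sylow p D := default
  have hPD : (P : Subgroup D).map D.subtype ≤ D := Subgroup.map_subtype_le _
  have hnd : ¬ p ∣ ((P : Subgroup D).map D.subtype).relIndex D := by
    have h1 : ((P : Subgroup D).map D.subtype).subgroupOf D = (P : Subgroup D) := by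
      rw [Subgroup.subgroupOf, Subgroup.comap_map_eq_self_of_injective D.subtype_injective]
    rw [Subgroup.relIndex, h1]
    exact P.not_dvd_index
  refine ⟨_, hPD, P.2.map _, _, Subalgebra.smul_mem _ (Fix_mono _ hPD ha)
    ((((P : Subgroup D).map D.subtype).relIndex D : k))⁻¹, ?_⟩
  rw [hba]
  conv_lhs => rw [eq_tr_of_not_dvd p hnd ha]
  rw [tr_tr (Subalgebra.smul_mem _ (Fix_mono _ hPD ha) _) hPD le_top]

end

end Vale.Agent.P180
end
end

section

section

namespace Vale.Agent.P180

open scoped Nat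

universe u

theorem T25_final (k : Type u) [Field k] [IsAlgClosed k] (p : ℕ) [Fact p.Prime] [CharP k p]
    (n m : ℕ) :
    ∃ (r : ℕ) (H : Fin r → Type) (_ : ∀ i, Group (H i)) (_ : ∀ i, Finite (H i))
      (c : ∀ i, MonoidAlgebra k (H i)) (hc : ∀ i, IsBlock (c i)),
      ∀ (G : Type) [Group G] [Finite G] (b : MonoidAlgebra k G) (hb : IsBlock b)
        (D : Subgroup G), IsDefectGroup b D → Nat.card D ≤ n →
        ∀ (N : Subgroup G) [N.Normal], (∀ x ∈ D, x ∈ N → ∀ y ∈ N, x * y = y * x) →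
        BoundedFactors p m
          ((Subgroup.normalClosure (D : Set G)).map (QuotientGroup.mk' N)) →
        ∃ i, IsMoritaEquivalent k hb.Alg (hc i).Alg := by
  obtain ⟨N, H, hG, hF, c, hc, hfam⟩ := finite_family k
    ((n ! * (n * (max m p))! * n) ^ 2)
  refine ⟨N, H, hG, hF, c, hc, ?_⟩
  intro G _ _ b hb D hD hn N _ hDN hcls
  obtain ⟨a, ha, hba⟩ := exists_trace hb (hb.isSummand hD.prop)
  obtain ⟨P, hPD, hP, a', ha', hba'⟩ := exists_sylow_trace (p := p) ha hba
  obtain ⟨H', _, _, c', hc', hcard, hM⟩ := T25plus_aux (m := max m p) (n := n)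
    (N := N) (M := Subgroup.normalClosure (D : Set G)) (le_max_right m p)
    ((cls_of_compositionFactors _ le_rfl hcls).mono (le_max_left m p)) hP
    (hPD.trans Subgroup.subset_normalClosure) (fun x hx => hDN x (hPD hx)) hb ha' hba'
    ((Nat.card_le_card_of_injective _ (Subgroup.inclusion_injective hPD)).trans hn)
  obtain ⟨i, ⟨f⟩⟩ := hfam H' hcard c' hc'
  exact ⟨i, IsMoritaEquivalent.trans k hM (IsMoritaEquivalent.of_algEquiv k f)⟩

end Vale.Agent.P180
end
end
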